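import Crest.Agent.R176.Machine.Run
import Crest.Agent.R176.Gen.Basic

/-!
# Row 176, part A, block (6) KEY: definitions and interfaces (helper593)

* `IsW` wall letters, `blkL c hm q` the home-empty block with context `c` (`none`: idle,
  `some (φ, d)`: busy), mark `hm` of the letter `H`, content `q`;
* `NormP`, `LockP` (own normalisation / garbage), `RunP`, `StartP` (phase lemma) for a model;
* `Om` : unlocked walls with admissible label (the set `Ω` of the cut lemma).
-/

set_option autoImplicit false

namespace Crest.Agent.R176.Machine.Key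

open Gen

/-- wall letters -/
def IsW {Λ : Type} (x : Let Λ) : Prop := ∃ w, x.1 = .W w

instance {Λ : Type} : DecidablePred (IsW (Λ := Λ)) := fun x =>
  match x with
  | (.W w, _) => isTrue ⟨w, rfl⟩
  | (.bag _ _, _) => isFalse (by rintro ⟨w, h⟩; cases h)
  | (.E _, _) => isFalse (by rintro ⟨w, h⟩; cases h)

section
variable {Λ : Type} [Fintype Λ] [LabelSys Λ]

/-- the unpassed letters `X_a`, every label once -/
noncomputable def xs (Λ : Type) [Fintype Λ] : List (Let Λ) :=
  (Finset.univ : Finset Λ).toList.map fun a => (KK.bag true .X, a)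

/-- the home-empty block: context `c` (`none` idle, `some (φ, d)` busy), mark of `H`, content -/
noncomputable def blkL (c : Option (Ph × Data)) (hm : HM) (q : Cont Λ) : List (Let Λ) :=
  (.W (homeW c), z) :: (.E (homeE c), z) :: (.bag true (.H hm), q.h) ::
    (.bag true (.Y false false), q.y1) :: (.bag true (.Y true false), q.y2) :: xs Λ

/-- admissible labels of unlocked walls -/
def Adm (a : Λ) : Prop := a = z ∨ ∃ κ, a = code κ

/-- unlocked wall letters with admissible label -/
def Om (x : Let Λ) : Prop := ∃ w, x.1 = .W w ∧ locked w = false ∧ Adm x.2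

end

section
variable {Λ : Type} [Fintype Λ] [DecidableEq Λ] [LabelSys Λ] {M : Type*} [MonoidWithZero M]

/-- (NORM) own normalisation of a block followed by a wall -/
def NormP (m : Model (step (Λ := Λ)) M) : Prop :=
  ∀ (w : WK) (a : Λ) (t : List (Let Λ)), (∀ x ∈ t, ¬ IsW x) →
    (∀ (w' : WK) (b : Λ), m.ev ((((.W w, a) : Let Λ) :: t) ++ [(.W w', b)]) = 0) ∨
    ∃ (c : Option (Ph × Data)) (hm : HM) (q : Cont Λ),
      t.length = Fintype.card Λ + 4 ∧
      (∀ (w' : WK) (b : Λ), m.ev ((((.W w, a) : Let Λ) :: t) ++ [(.W w', b)]) =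
        m.ev (blkL c hm q ++ [(.W w', b)])) ∧
      ((c = none ∧ locked w = false ∧ (a = z ∨ a = q.h) ∧ (hm = .f ∨ hm = .l)) ∨
       (∃ φ d, φ ≠ 0 ∧ c = some (φ, d) ∧ locked w = true ∧ hm = .b))

/-- (LOCK) the letter `H` and the next wall must agree about the lock -/
def LockP (m : Model (step (Λ := Λ)) M) : Prop :=
  ∀ (c : Option (Ph × Data)) (hm : HM) (q : Cont Λ) (w' : WK) (b : Λ),
    ¬ (hm = .l ↔ locked w' = true) → m.ev (blkL c hm q ++ [(.W w', b)]) = 0

/-- (RUN) the run of an engaged pair -/
def RunP (m : Model (step (Λ := Λ)) M) : Prop :=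
  ∀ (φ : Ph) (d : Data) (a b : Cont Λ), φ ≠ 0 →
    m.ev (blkL none .l a ++ blkL (some (φ, d)) .b b) =
      match runL (allPh.drop φ.val) d a b with
      | none => 0
      | some p => m.ev (blkL none .f p.1 ++ blkL none .f p.2)

/-- (START) the full run of two resting blocks -/
def StartP (m : Model (step (Λ := Λ)) M) : Prop :=
  ∀ (d : Data) (a b : Cont Λ),
    m.ev (blkL none .f a ++ blkL none .f b) =
      match runL allPh d a b with
      | none => 0
      | some p => m.ev (blkL none .f p.1 ++ blkL none .f p.2)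

end


end Crest.Agent.R176.Machine.Key
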