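import Crest.Agent.R176.Machine.Key309A
import Crest.Agent.R176.Machine.Key593Defs

/-!
# Row 176, part A, block (6): LEN and DENS (helper309)

Over the interfaces `NormQ` (own normalisation), `LockP`, `RunP`, `StartP`:
* `locked_locked` : a full block between two locked walls is zero;
* `bad_label` : an unlocked interior wall with inadmissible label gives zero;
* `len` : words without `Ω` letters of length `≥ 5 |Λ| + 30` are zero;
* `dens` : number of non-`X` letters of a nonzero word.
-/

set_option autoImplicit false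
set_option linter.unusedSectionVars false

namespace Crest.Agent.R176.Machine.Key309

open Crest.Agent.R176.Gen Crest.Agent.R176.Machine Crest.Agent.R176.Machine.Key

variable {Λ : Type} [Fintype Λ] [DecidableEq Λ] [LabelSys Λ] {M : Type*} [MonoidWithZero M]

/-- (NORM) own normalisation of a block followed by a wall; if the wall is unlocked and carries a
label `≠ z` then it is the label of `H`, and `H` is free afterwards -/
def NormQ (m : Model (step (Λ := Λ)) M) : Prop :=
  ∀ (w : WK) (a : Λ) (t : List (Let Λ)), (∀ x ∈ t, ¬ IsW x) →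
    (∀ (w' : WK) (b : Λ), m.ev ((((.W w, a) : Let Λ) :: t) ++ [(.W w', b)]) = 0) ∨
    ∃ (c : Option (Ph × Data)) (hm : HM) (q : Cont Λ),
      t.length = Fintype.card Λ + 4 ∧
      (∀ (w' : WK) (b : Λ), m.ev ((((.W w, a) : Let Λ) :: t) ++ [(.W w', b)]) =
        m.ev (blkL c hm q ++ [(.W w', b)])) ∧
      ((c = none ∧ locked w = false ∧ (a = z ∨ (a = q.h ∧ hm = .f)) ∧ (hm = .f ∨ hm = .l)) ∨
       (∃ φ d, φ ≠ 0 ∧ c = some (φ, d) ∧ locked w = true ∧ hm = .b))

theorem NormQ.normP {m : Model (step (Λ := Λ)) M} (h : NormQ m) : NormP m := by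
  intro w a t ht
  rcases h w a t ht with h | ⟨c, hm, q, h1, h2, h3⟩
  · exact Or.inl h
  · refine Or.inr ⟨c, hm, q, h1, h2, ?_⟩
    rcases h3 with ⟨h4, h5, h6, h7⟩ | h3
    · exact Or.inl ⟨h4, h5, h6.imp id And.left, h7⟩
    · exact Or.inr h3

theorem isWb_iff (x : Let Λ) : isWb x = true ↔ IsW x := by
  obtain ⟨κ, a⟩ := x
  rcases κ with _ | _ | w
  · simp [isWb, IsW]
  · simp [isWb, IsW]
  · simp [isWb, IsW]

theorem isWb_false_iff (x : Let Λ) : isWb x = false ↔ ¬ IsW x := by
  rw [← isWb_iff, Bool.not_eq_true]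

/-! ### the run kills inadmissible labels of `H` -/

theorem cstep_h {φ : Ph} (hφ : φ ≠ 10) {d : Data} {a b : Cont Λ} {p : Data × Cont Λ × Cont Λ}
    (h : cstep φ d a b = some p) : p.2.1.h = a.h ∧ p.2.2.h = b.h := by
  by_cases h6 : φ.val < 6
  · rw [cstep_lt6 h6] at h
    cases h; exact ⟨rfl, rfl⟩
  · have : φ = 6 ∨ φ = 7 ∨ φ = 8 ∨ φ = 9 := by
      have h5 : ∀ ψ : Ph, ψ ≠ 10 → ¬ ψ.val < 6 → ψ = 6 ∨ ψ = 7 ∨ ψ = 8 ∨ ψ = 9 := by decide
      exact h5 φ hφ h6
    rcases this with rfl | rfl | rfl | rfl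
    · rw [cstep_6] at h; cases h; exact ⟨rfl, rfl⟩
    · rw [cstep_7] at h; cases h; exact ⟨rfl, rfl⟩
    · rw [cstep_8] at h
      simp only [Option.map_eq_some_iff] at h
      obtain ⟨q, -, rfl⟩ := h; exact ⟨rfl, rfl⟩
    · rw [cstep_9] at h
      split at h
      · cases h; exact ⟨rfl, rfl⟩
      · split at h
        · split at h
          · simp at h
          · cases h; exact ⟨rfl, rfl⟩
        · simp only [Option.map_eq_some_iff] at h
          obtain ⟨q, -, rfl⟩ := h; exact ⟨rfl, rfl⟩

theorem runL_none (l : List Ph) (hl : (10 : Ph) ∈ l) (d : Data) (a b : Cont Λ)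
    (hb : decode b.h = none ∨ decode a.h = none) : runL l d a b = none := by
  induction l generalizing d a b with
  | nil => simp at hl
  | cons φ l ih =>
    rw [runL]
    by_cases hφ : φ = 10
    · subst hφ
      rw [cstep_10]
      have : (AC.APP (bit d)).eval a.h b.h = none := by
        simp only [AC.eval]
        rcases hb with hb | hb <;> rw [hb]
        cases decode a.h <;> rfl
      rw [this]; rfl
    · have hl' : (10 : Ph) ∈ l := by
        simp only [List.mem_cons] at hl
        rcases hl with h | h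
        · exact absurd h.symm hφ
        · exact h
      cases hc : cstep φ d a b with
      | none => rfl
      | some p =>
        have h1 := cstep_h hφ hc
        simp only [Option.bind_some]
        exact ih hl' _ _ _ (by rw [h1.1, h1.2]; exact hb)

theorem ten_mem_allPh : (10 : Ph) ∈ allPh := by decide

theorem not_adm_decode {a : Λ} (h : ¬ Adm a) : decode a = none := by
  cases hd : decode a with
  | none => rfl
  | some κ => exact absurd (Or.inr ⟨κ, LabelSys.code_decode _ _ hd⟩) h

variable {m : Model (step (Λ := Λ)) M}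

/-- a full block between two locked walls is zero -/
theorem locked_locked (hN : NormQ m) (hL : LockP m) {w w' : WK} {a b : Λ} {t : List (Let Λ)}
    (ht : ∀ x ∈ t, ¬ IsW x) (hw : locked w = true) (hw' : locked w' = true) :
    m.ev ((((.W w, a) : Let Λ) :: t) ++ [(.W w', b)]) = 0 := by
  rcases hN w a t ht with h | ⟨c, hm, q, -, h2, h3⟩
  · exact h w' b
  · rw [h2]
    rcases h3 with ⟨-, h, -⟩ | ⟨φ, d, -, -, -, rfl⟩
    · rw [hw] at h; simp at h
    · exact hL c .b q w' b (by simp [hw'])

/-- the two home-empty blocks `A` (any state) and `B` (idle, free, bad label of `H`), with a full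
block before `A` -/
theorem bad_pair (hN : NormQ m) (hL : LockP m) (hR : RunP m) (hS : StartP m)
    {w1 w2 : WK} {a1 a2 : Λ} {t1 t2 : List (Let Λ)} (ht1 : ∀ x ∈ t1, ¬ IsW x)
    (ht2 : ∀ x ∈ t2, ¬ IsW x) (q : Cont Λ) (hq : decode q.h = none) :
    m.ev ((((.W w1, a1) : Let Λ) :: t1) ++ (((.W w2, a2) : Let Λ) :: t2) ++ blkL none .f q) = 0 := by
  -- the third block starts with the wall `w0`
  have hblk : ∀ (c : Option (Ph × Data)) (hm : HM) (q : Cont Λ), ∃ r : List (Let Λ),
      blkL c hm q = [(.W (homeW c), z)] ++ r := fun c hm q => ⟨_, rfl⟩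
  obtain ⟨r, hr⟩ := hblk none .f q
  rcases hN w2 a2 t2 ht2 with h | ⟨c, hm, q2, -, h2, h3⟩
  · rw [hr, List.append_assoc, ← List.append_assoc (_ :: t2), m.ev_append, m.ev_append, h,
      zero_mul, mul_zero]
  · have e1 : m.ev ((((.W w1, a1) : Let Λ) :: t1) ++ (((.W w2, a2) : Let Λ) :: t2) ++ blkL none .f q) =
        m.ev ((((.W w1, a1) : Let Λ) :: t1) ++ blkL c hm q2 ++ blkL none .f q) := by
      rw [hr, List.append_assoc, List.append_assoc, ← List.append_assoc (_ :: t2),
        ← List.append_assoc (blkL c hm q2)]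
      simp only [m.ev_append] at h2 ⊢
      rw [h2]
    rw [e1]
    have hrun : ∀ (q2 : Cont Λ), m.ev (blkL none .f q2 ++ blkL none .f q) = 0 := by
      intro q2
      rw [hS (fun _ => false) q2 q, runL_none _ ten_mem_allPh _ _ _ (Or.inl hq)]
    rcases h3 with ⟨rfl, -, -, rfl | rfl⟩ | ⟨φ, d, hφ, rfl, -, rfl⟩
    · rw [List.append_assoc, m.ev_append, hrun, mul_zero]
    · -- the lock of the middle block does not fit
      have : m.ev (blkL none .l q2 ++ [(.W (homeW none), z)]) = 0 :=
        hL none .l q2 _ _ (by simp [homeW, locked])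
      rw [hr, List.append_assoc, ← List.append_assoc (blkL none .l q2), m.ev_append,
        m.ev_append, this, zero_mul, mul_zero]
    · -- the middle block is busy
      obtain ⟨r2, hr2⟩ := hblk (some (φ, d)) .b q2
      rcases hN w1 a1 t1 ht1 with h | ⟨c1, hm1, q1, -, h4, h5⟩
      · rw [hr2, List.append_assoc, List.append_assoc, ← List.append_assoc (_ :: t1), m.ev_append, h,
          zero_mul]
      · have e2 : m.ev ((((.W w1, a1) : Let Λ) :: t1) ++ blkL (some (φ, d)) .b q2 ++ blkL none .f q) =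
            m.ev (blkL c1 hm1 q1 ++ blkL (some (φ, d)) .b q2 ++ blkL none .f q) := by
          rw [hr2, List.append_assoc, List.append_assoc, ← List.append_assoc (_ :: t1),
            m.ev_append, h4, ← m.ev_append]
          simp only [List.append_assoc]
        rw [e2]
        have hlk : locked (homeW (some (φ, d))) = true := by
          simp [homeW, locked, hφ]
        rcases h5 with ⟨rfl, -, -, rfl | rfl⟩ | ⟨φ', d', -, rfl, -, rfl⟩
        · have := hL none .f q1 (homeW (some (φ, d))) z (by simp [hlk])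
          rw [hr2, List.append_assoc, List.append_assoc, ← List.append_assoc (blkL none .f q1),
            m.ev_append, this, zero_mul]
        · rw [m.ev_append, hR φ d q1 q2 hφ]
          cases runL (allPh.drop φ.val) d q1 q2 with
          | none => simp
          | some p =>
            simp only
            rw [← m.ev_append, List.append_assoc, m.ev_append, hrun, mul_zero]
        · have := hL (some (φ', d')) .b q1 (homeW (some (φ, d))) z (by simp [hlk])
          rw [hr2, List.append_assoc, List.append_assoc, ← List.append_assoc (blkL _ .b q1),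
            m.ev_append, this, zero_mul]

/-- an unlocked wall with an inadmissible label, with two full blocks before it and a full block
after it: zero -/
theorem bad_label (hN : NormQ m) (hL : LockP m) (hR : RunP m) (hS : StartP m)
    {w1 w2 w3 w4 : WK} {a1 a2 a3 a4 : Λ} {t1 t2 t3 : List (Let Λ)} (ht1 : ∀ x ∈ t1, ¬ IsW x)
    (ht2 : ∀ x ∈ t2, ¬ IsW x) (ht3 : ∀ x ∈ t3, ¬ IsW x) (h3 : locked w3 = false)
    (ha3 : ¬ Adm a3) :
    m.ev ((((.W w1, a1) : Let Λ) :: t1) ++ (((.W w2, a2) : Let Λ) :: t2) ++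
      (((.W w3, a3) : Let Λ) :: t3) ++ [(.W w4, a4)]) = 0 := by
  rcases hN w3 a3 t3 ht3 with h | ⟨c, hm, q, -, h2, h4⟩
  · rw [List.append_assoc, m.ev_append, h, mul_zero]
  · rw [List.append_assoc, m.ev_append, h2, ← m.ev_append, ← List.append_assoc, m.ev_append]
    rcases h4 with ⟨rfl, -, h5, -⟩ | ⟨φ, d, -, -, h5, -⟩
    · rcases h5 with h5 | ⟨h5, rfl⟩
      · exact absurd (Or.inl h5) ha3
      · rw [bad_pair hN hL hR hS ht1 ht2 q (by rw [← h5]; exact not_adm_decode ha3), zero_mul]
    · rw [h3] at h5; simp at h5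

/-! ### decomposition of words at the walls -/

/-- segments: a wall and the wall-free word after it -/
def segs (bs : List (WK × Λ × List (Let Λ))) : List (Let Λ) :=
  (bs.map fun p => ((.W p.1, p.2.1) : Let Λ) :: p.2.2).flatten

@[simp] theorem segs_nil : segs ([] : List (WK × Λ × List (Let Λ))) = [] := rfl
@[simp] theorem segs_cons (p : WK × Λ × List (Let Λ)) (bs : List (WK × Λ × List (Let Λ))) :
    segs (p :: bs) = (((.W p.1, p.2.1) : Let Λ) :: p.2.2) ++ segs bs := rfl

theorem exists_segs (w : List (Let Λ)) : ∃ (t : List (Let Λ)) (bs : List (WK × Λ × List (Let Λ))),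
    w = t ++ segs bs ∧ (∀ x ∈ t, ¬ IsW x) ∧ ∀ p ∈ bs, ∀ x ∈ p.2.2, ¬ IsW x := by
  induction w with
  | nil => exact ⟨[], [], rfl, by simp, by simp⟩
  | cons x w ih =>
    obtain ⟨t, bs, rfl, h1, h2⟩ := ih
    by_cases hx : IsW x
    · obtain ⟨wk, hw⟩ := hx
      obtain ⟨κ, a⟩ := x
      simp only at hw
      subst hw
      refine ⟨[], (wk, a, t) :: bs, by simp, by simp, ?_⟩
      intro p hp
      simp only [List.mem_cons] at hp
      rcases hp with rfl | hp
      · exact h1
      · exact h2 p hp
    · refine ⟨x :: t, bs, by simp, ?_, h2⟩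
      intro y hy
      simp only [List.mem_cons] at hy
      rcases hy with rfl | hy
      · exact hx
      · exact h1 y hy


theorem segs_len (bs : List (WK × Λ × List (Let Λ))) (h : ∀ p ∈ bs, ∀ x ∈ p.2.2, ¬ IsW x)
    (h0 : m.ev (segs bs) ≠ 0) : (segs bs).length ≤ bs.length * (Fintype.card Λ + 5) := by
  induction bs with
  | nil => simp
  | cons p bs ih =>
    rw [segs_cons] at h0 ⊢
    have h1 : m.ev (segs bs) ≠ 0 := by
      intro h2; apply h0; rw [m.ev_append, h2, mul_zero]
    have h2 : m.ev p.2.2 ≠ 0 := by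
      intro h2; apply h0; rw [m.ev_append, m.ev_cons, h2, mul_zero, zero_mul]
    have h3 := (wfree m p.2.2 (fun x hx => (isWb_false_iff x).2 (h p (by simp) x hx)) h2).1
    have h4 := ih (fun q hq => h q (by simp [hq])) h1
    simp only [List.length_append, List.length_cons]
    have : (bs.length + 1) * (Fintype.card Λ + 5) =
      bs.length * (Fintype.card Λ + 5) + (Fintype.card Λ + 5) := by ring
    omega

/-- five consecutive walls which are not in `Ω` give zero -/
theorem five (hN : NormQ m) (hL : LockP m) (hR : RunP m) (hS : StartP m)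
    {w1 w2 w3 w4 w5 : WK} {a1 a2 a3 a4 a5 : Λ} {t1 t2 t3 t4 : List (Let Λ)}
    (ht1 : ∀ x ∈ t1, ¬ IsW x) (ht2 : ∀ x ∈ t2, ¬ IsW x) (ht3 : ∀ x ∈ t3, ¬ IsW x)
    (ht4 : ∀ x ∈ t4, ¬ IsW x)
    (h3 : ¬ Om ((.W w3, a3) : Let Λ)) (h4 : ¬ Om ((.W w4, a4) : Let Λ)) :
    m.ev ((((.W w1, a1) : Let Λ) :: t1) ++ (((.W w2, a2) : Let Λ) :: t2) ++
      (((.W w3, a3) : Let Λ) :: t3) ++ (((.W w4, a4) : Let Λ) :: t4) ++ [(.W w5, a5)]) = 0 := by
  cases h3l : locked w3 with
  | false =>
    have hb : ¬ Adm a3 := fun ha => h3 ⟨w3, rfl, h3l, ha⟩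
    have := bad_label hN hL hR hS (w1 := w1) (w2 := w2) (w4 := w4) (a1 := a1) (a2 := a2) (a4 := a4)
      ht1 ht2 ht3 h3l hb
    rw [show ((.W w4, a4) : Let Λ) :: t4 = [(.W w4, a4)] ++ t4 from rfl, ← List.append_assoc,
      m.ev_append, m.ev_append, this, zero_mul, zero_mul]
  | true =>
    cases h4l : locked w4 with
    | true =>
      have := locked_locked hN hL (a := a3) (b := a4) ht3 h3l h4l
      rw [show ((.W w4, a4) : Let Λ) :: t4 = [(.W w4, a4)] ++ t4 from rfl, ← List.append_assoc,
        m.ev_append, m.ev_append, List.append_assoc _ (_ :: t3), m.ev_append, this, mul_zero,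
        zero_mul, zero_mul]
    | false =>
      have hb : ¬ Adm a4 := fun ha => h4 ⟨w4, rfl, h4l, ha⟩
      have := bad_label hN hL hR hS (w1 := w2) (w2 := w3) (w4 := w5) (a1 := a2) (a2 := a3)
        (a4 := a5) ht2 ht3 ht4 h4l hb
      simp only [List.append_assoc] at this ⊢
      rw [m.ev_append, this, mul_zero]

/-- **LEN** -/
theorem len (hN : NormQ m) (hL : LockP m) (hR : RunP m) (hS : StartP m) (w : List (Let Λ))
    (hw : 5 * Fintype.card Λ + 30 ≤ w.length) (hΩ : ∀ x ∈ w, ¬ Om x) : m.ev w = 0 := by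
  by_contra h0
  obtain ⟨t, bs, rfl, ht, hbs⟩ := exists_segs w
  have h1 : m.ev t ≠ 0 := by intro h; apply h0; rw [m.ev_append, h, zero_mul]
  have h2 : m.ev (segs bs) ≠ 0 := by intro h; apply h0; rw [m.ev_append, h, mul_zero]
  have h3 := (wfree m t (fun x hx => (isWb_false_iff x).2 (ht x hx)) h1).1
  have h4 := segs_len bs hbs h2
  have h5 : 5 ≤ bs.length := by
    by_contra h5
    have : bs.length * (Fintype.card Λ + 5) ≤ 4 * (Fintype.card Λ + 5) :=
      Nat.mul_le_mul_right _ (by omega)
    rw [List.length_append] at hw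
    omega
  match bs, h5, hbs, h2, hΩ with
  | ⟨w1, a1, t1⟩ :: ⟨w2, a2, t2⟩ :: ⟨w3, a3, t3⟩ :: ⟨w4, a4, t4⟩ :: ⟨w5, a5, t5⟩ :: bs', _, hbs, h2,
      hΩ =>
    have hO : ∀ x, x ∈ segs ((w1, a1, t1) :: (w2, a2, t2) :: (w3, a3, t3) :: (w4, a4, t4) ::
        (w5, a5, t5) :: bs') → ¬ Om x := fun x hx => hΩ x (by simp only [List.mem_append]; exact Or.inr hx)
    have := five hN hL hR hS (w1 := w1) (w2 := w2) (w5 := w5) (a1 := a1) (a2 := a2) (a5 := a5)
      (hbs (w1, a1, t1) (by simp)) (hbs (w2, a2, t2) (by simp)) (hbs (w3, a3, t3) (by simp))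
      (hbs (w4, a4, t4) (by simp)) (hO (.W w3, a3) (by simp)) (hO (.W w4, a4) (by simp))
    apply h2
    have e : segs ((w1, a1, t1) :: (w2, a2, t2) :: (w3, a3, t3) :: (w4, a4, t4) ::
        (w5, a5, t5) :: bs') = ((((.W w1, a1) : Let Λ) :: t1) ++ (((.W w2, a2) : Let Λ) :: t2) ++
      (((.W w3, a3) : Let Λ) :: t3) ++ (((.W w4, a4) : Let Λ) :: t4) ++ [(.W w5, a5)]) ++
        (t5 ++ segs bs') := by
      simp [segs_cons]
    rw [e, m.ev_append, this, zero_mul]

/-! ### density -/

theorem segs_dens (hN : NormQ m) (bs : List (WK × Λ × List (Let Λ)))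
    (h : ∀ p ∈ bs, ∀ x ∈ p.2.2, ¬ IsW x) (h0 : m.ev (segs bs) ≠ 0) :
    ((segs bs).filter nonX).length * (Fintype.card Λ + 5) ≤
      5 * (segs bs).length + 5 * (Fintype.card Λ + 5) := by
  induction bs with
  | nil => simp
  | cons p bs ih =>
    rw [segs_cons] at h0 ⊢
    have h1 : m.ev (segs bs) ≠ 0 := by
      intro h2; apply h0; rw [m.ev_append, h2, mul_zero]
    have h2 : m.ev p.2.2 ≠ 0 := by
      intro h2; apply h0; rw [m.ev_append, m.ev_cons, h2, mul_zero, zero_mul]
    have h3 := (wfree m p.2.2 (fun x hx => (isWb_false_iff x).2 (h p (by simp) x hx)) h2).2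
    have h4 := ih (fun q hq => h q (by simp [hq])) h1
    have h5 : ((((.W p.1, p.2.1) : Let Λ) :: p.2.2).filter nonX).length ≤ 5 := by
      rw [List.filter_cons]
      simp only [nonX, if_true, List.length_cons]
      omega
    rw [List.filter_append, List.length_append, List.length_append, add_mul]
    cases bs with
    | nil =>
      simp only [segs_nil, List.filter_nil, List.length_nil, zero_mul, add_zero]
      have := Nat.mul_le_mul_right (Fintype.card Λ + 5) h5
      omega
    | cons p' bs =>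
      have h6 : p.2.2.length = Fintype.card Λ + 4 := by
        rcases hN p.1 p.2.1 p.2.2 (h p (by simp)) with h7 | ⟨c, hm, q, h7, -⟩
        · exfalso
          apply h0
          rw [segs_cons, show ((.W p'.1, p'.2.1) : Let Λ) :: p'.2.2 = [(.W p'.1, p'.2.1)] ++ p'.2.2
            from rfl, List.append_assoc, ← List.append_assoc (_ :: p.2.2), m.ev_append, h7, zero_mul]
        · exact h7
      have := Nat.mul_le_mul_right (Fintype.card Λ + 5) h5
      rw [List.length_cons, h6]
      omega

/-- **DENS** -/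
theorem dens (hN : NormQ m) (w : List (Let Λ)) (h0 : m.ev w ≠ 0) :
    (w.filter nonX).length * (Fintype.card Λ + 5) ≤
      5 * w.length + 9 * (Fintype.card Λ + 5) := by
  obtain ⟨t, bs, rfl, ht, hbs⟩ := exists_segs w
  have h1 : m.ev t ≠ 0 := by intro h; apply h0; rw [m.ev_append, h, zero_mul]
  have h2 : m.ev (segs bs) ≠ 0 := by intro h; apply h0; rw [m.ev_append, h, mul_zero]
  have h3 := (wfree m t (fun x hx => (isWb_false_iff x).2 (ht x hx)) h1).2
  have h4 := segs_dens hN bs hbs h2
  rw [List.filter_append, List.length_append, List.length_append, add_mul]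
  have := Nat.mul_le_mul_right (Fintype.card Λ + 5) h3
  omega

/-- **DENS**, the form of the hypothesis `hdens` of `Cut660.dens_lemma` -/
theorem dens_chunks (hN : NormQ m) (l : ℕ) (hl : 20 * l < Fintype.card Λ + 5)
    (cs : List (List (Let Λ))) (hcs : 9 * (Fintype.card Λ + 5) < cs.length)
    (hc : ∀ c ∈ cs, c.length ≤ 4 * l ∧ ∃ x ∈ c, nonX x = true) : m.ev cs.flatten = 0 := by
  by_contra h0
  have h1 := dens hN cs.flatten h0
  have h2 : cs.flatten.length ≤ 4 * l * cs.length ∧
      cs.length ≤ (cs.flatten.filter nonX).length := by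
    clear h0 h1 hcs
    induction cs with
    | nil => simp
    | cons c cs ih =>
      obtain ⟨h3, x, hx, hx'⟩ := hc c (by simp)
      obtain ⟨h4, h5⟩ := ih (fun c hc' => hc c (by simp [hc']))
      have h6 : 1 ≤ (c.filter nonX).length :=
        List.length_pos_of_mem (List.mem_filter.2 ⟨hx, hx'⟩)
      rw [List.flatten_cons, List.filter_append, List.length_append, List.length_append,
        List.length_cons, Nat.mul_add, Nat.mul_one]
      omega
  obtain ⟨h3, h4⟩ := h2
  have h5 : cs.length * (Fintype.card Λ + 5) ≤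
      5 * (4 * l * cs.length) + 9 * (Fintype.card Λ + 5) :=
    (Nat.mul_le_mul_right _ h4).trans (h1.trans (by omega))
  have h6 : cs.length * (20 * l + 1) ≤ cs.length * (Fintype.card Λ + 5) :=
    Nat.mul_le_mul_left _ hl
  have h7 : cs.length * (20 * l + 1) = 5 * (4 * l * cs.length) + cs.length := by ring
  omega

end Crest.Agent.R176.Machine.Key309
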