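import Crest.Agent.R176.Machine.Defs

/-!
# Row 176, part A: the abstract run (contents of two adjacent blocks)

`Cont Λ` : labels of `H, Y₁, Y₂` of a block; `cstep` : the contact of a phase; `runL` : the contacts
of a list of phases; `run_eq` : the whole run simulates one rule of the next level.
-/

set_option autoImplicit false

namespace Crest.Agent.R176.Machine

/-- content of a block -/
@[ext] structure Cont (Λ : Type) where
  h : Λ
  y1 : Λ
  y2 : Λ
  deriving DecidableEq

variable {Λ : Type}

/-- label of the letter of type `t` -/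
def Cont.get (c : Cont Λ) : TT → Λ
  | .X => c.h
  | .H => c.h
  | .Y false => c.y1
  | .Y true => c.y2

/-- change the label of the letter of type `t` -/
def Cont.set (c : Cont Λ) (t : TT) (a : Λ) : Cont Λ :=
  match t with
  | .X => { c with h := a }
  | .H => { c with h := a }
  | .Y false => { c with y1 := a }
  | .Y true => { c with y2 := a }

/-- content of the rest block of a letter of the next level -/
def cont [LabelSys Λ] (x : Let (Λ × Λ)) : Cont Λ := ⟨code x.1, x.2.1, x.2.2⟩

variable [DecidableEq Λ] [LabelSys Λ]

/-- contact of phase `φ` on contents: new data and new contents; `none` is zero -/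
def cstep (φ : Ph) (d : Data) (a b : Cont Λ) : Option (Data × Cont Λ × Cont Λ) :=
  if (op φ d).rd.eval (a.get (tz φ)) (b.get (tz φ)) then
    (op φ d).g1.map fun d' => (d', a, b)
  else (op φ d).g0.bind fun d' =>
    ((op φ d).ac.eval (a.get (tz φ)) (b.get (tz φ))).map fun q =>
      (d', a.set (tz φ) q.1, b.set (tz φ) q.2)

/-- the contacts of a list of phases -/
def runL : List Ph → Data → Cont Λ → Cont Λ → Option (Cont Λ × Cont Λ)
  | [], _, a, b => some (a, b)
  | φ :: l, d, a, b => (cstep φ d a b).bind fun p => runL l p.1 p.2.1 p.2.2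

theorem idec_icode : ∀ (r : RD) (a : AC), idec (icode r a) = (r, a) := by
  intro r a
  rcases r with _ | _ | _ | _ | _ | i <;> rcases a with _ | _ | _ | j <;>
    (try fin_cases i) <;> (try cases j) <;> rfl

theorem RD.eval_sq (r : RD) (a b : Λ × Λ) :
    r.eval a b = r.comb (r.eval a.1 b.1) (r.snd.eval a.2 b.2) := by
  obtain ⟨a1, a2⟩ := a
  obtain ⟨b1, b2⟩ := b
  cases r with
  | F => rfl
  | EQ => simp [RD.eval, RD.comb, RD.snd]
  | N1 =>
    simp only [RD.eval, RD.comb, RD.snd, LabelSys.z, ne_eq, Prod.mk.injEq, not_and_or]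
    by_cases h1 : a1 = z <;> by_cases h2 : a2 = z <;> simp_all
  | N2 =>
    simp only [RD.eval, RD.comb, RD.snd, LabelSys.z, ne_eq, Prod.mk.injEq, not_and_or]
    by_cases h1 : b1 = z <;> by_cases h2 : b2 = z <;> simp_all
  | NN =>
    simp only [RD.eval, RD.comb, RD.snd, LabelSys.z, ne_eq, Prod.mk.injEq, not_and_or]
    by_cases h1 : a1 = z <;> by_cases h2 : a2 = z <;>
      by_cases h3 : b1 = z <;> by_cases h4 : b2 = z <;> simp_all
  | IB i =>
    simp only [RD.eval, RD.comb, RD.snd, LabelSys.decode]
    by_cases h2 : a2 = z <;> by_cases h4 : b2 = z <;> simp_all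

/-- the action on labels of the next level, coordinatewise -/
theorem AC.eval_sq (α : AC) (a b : Λ × Λ) :
    α.eval a b =
      match α with
      | .APP j => if a.2 ≠ z ∨ b.2 ≠ z then none else
          ((AC.APP j).eval a.1 b.1).map fun q => ((q.1, a.2), (q.2, b.2))
      | α => (α.eval a.1 b.1).bind fun q => (α.eval a.2 b.2).map fun r =>
          ((q.1, r.1), (q.2, r.2)) := by
  obtain ⟨a1, a2⟩ := a
  obtain ⟨b1, b2⟩ := b
  cases α with
  | ID => simp [AC.eval]
  | SW => simp [AC.eval]
  | ER => simp [AC.eval, LabelSys.z]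
  | APP j =>
    simp only [AC.eval, LabelSys.decode, LabelSys.code]
    by_cases h2 : a2 = z <;> by_cases h4 : b2 = z <;> simp_all
    cases h1 : decode a1 <;> cases h3 : decode b1 <;> simp [Function.comp_def]

theorem cstep_lt6 {φ : Ph} (h : φ.val < 6) (d : Data) (a b : Cont Λ) :
    cstep φ d a b =
      some (Function.update d (Fin.castLE (by decide) (⟨φ.val, h⟩ : Fin 6))
        ((RD.IB ⟨φ.val, h⟩).eval a.h b.h), a, b) := by
  have ht : tz φ = .H := by
    have h1 : φ ≠ 6 := by rintro rfl; exact absurd h (by decide)
    have h2 : φ ≠ 8 := by rintro rfl; exact absurd h (by decide)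
    have h3 : φ ≠ 7 := by rintro rfl; exact absurd h (by decide)
    have h4 : φ ≠ 9 := by rintro rfl; exact absurd h (by decide)
    simp [tz, h1, h2, h3, h4]
  unfold cstep op
  rw [dif_pos h, ht]
  simp only [Cont.get, Cont.set, AC.eval]
  by_cases hb : (RD.IB ⟨φ.val, h⟩).eval a.h b.h = true
  · simp [hb]
  · simp only [Bool.not_eq_true] at hb
    simp [hb]

/-- data after the six reading phases -/
def data6 (κ κ' : KK) (d : Data) : Data :=
  fun i => if h : i.val < 6 then ibit κ κ' ⟨i.val, h⟩ else d i

theorem instr_data6 (κ κ' : KK) (d : Data) :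
    instr (data6 κ κ' d) = ((rule κ κ').rd, (rule κ κ').ac) := by
  have : (fun i : Fin 6 => data6 κ κ' d (Fin.castLE (by decide) i)) =
      icode (rule κ κ').rd (rule κ κ').ac := by
    funext i
    have hi : (Fin.castLE (by decide : 6 ≤ 8) i).val < 6 := i.isLt
    simp only [data6]
    rw [dif_pos hi]
    rfl
  unfold instr
  rw [this, idec_icode]

theorem run6 (κ κ' : KK) (l : List Ph) (d : Data) (a b : Cont Λ)
    (ha : a.h = code κ) (hb : b.h = code κ') :
    runL (0 :: 1 :: 2 :: 3 :: 4 :: 5 :: l) d a b = runL l (data6 κ κ' d) a b := by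
  have hI : ∀ i : Fin 6, (RD.IB i).eval a.h b.h = ibit κ κ' i := by
    intro i
    simp [RD.eval, ha, hb, LabelSys.decode_code]
  simp only [runL]
  rw [cstep_lt6 (φ := 0) (by decide)]
  simp only [Option.bind_some]
  rw [cstep_lt6 (φ := 1) (by decide)]
  simp only [Option.bind_some]
  rw [cstep_lt6 (φ := 2) (by decide)]
  simp only [Option.bind_some]
  rw [cstep_lt6 (φ := 3) (by decide)]
  simp only [Option.bind_some]
  rw [cstep_lt6 (φ := 4) (by decide)]
  simp only [Option.bind_some]
  rw [cstep_lt6 (φ := 5) (by decide)]
  simp only [Option.bind_some, hI]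
  congr 1
  funext i
  fin_cases i <;> simp [data6, Function.update, Fin.castLE]

theorem tz6 : tz 6 = .Y false := by decide
theorem tz7 : tz 7 = .Y true := by decide
theorem tz8 : tz 8 = .Y false := by decide
theorem tz9 : tz 9 = .Y true := by decide
theorem tz10 : tz 10 = .H := by decide

theorem op_6 (d : Data) : op 6 d =
    ⟨(instr d).1, .ID, some (Function.update d 6 false), some (Function.update d 6 true)⟩ := by
  unfold op
  rw [dif_neg (by decide : ¬ (6 : Ph).val < 6), if_pos rfl]

theorem op_7 (d : Data) : op 7 d =
    ⟨(instr d).1.snd, .ID, some (Function.update d 7 false), some (Function.update d 7 true)⟩ := by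
  unfold op
  rw [dif_neg (by decide : ¬ (7 : Ph).val < 6), if_neg (by decide : ¬ (7 : Ph) = 6), if_pos rfl]

theorem op_8 (d : Data) : op 8 d =
    ⟨.F, if bit d then .ID else (instr d).2, some d, none⟩ := by
  unfold op
  rw [dif_neg (by decide : ¬ (8 : Ph).val < 6), if_neg (by decide : ¬ (8 : Ph) = 6),
    if_neg (by decide : ¬ (8 : Ph) = 7), if_pos rfl]

theorem op_9 (d : Data) : op 9 d =
    (if bit d then ⟨.F, .ID, some d, none⟩
    else match (instr d).2 with
      | .APP _ => ⟨.NN, .ID, some d, none⟩
      | a => ⟨.F, a, some d, none⟩) := by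
  unfold op
  rw [dif_neg (by decide : ¬ (9 : Ph).val < 6), if_neg (by decide : ¬ (9 : Ph) = 6),
    if_neg (by decide : ¬ (9 : Ph) = 7), if_neg (by decide : ¬ (9 : Ph) = 8), if_pos rfl]
  rfl

theorem op_10 (d : Data) : op 10 d = ⟨.F, .APP (bit d), some d, none⟩ := by
  unfold op
  rw [dif_neg (by decide : ¬ (10 : Ph).val < 6), if_neg (by decide : ¬ (10 : Ph) = 6),
    if_neg (by decide : ¬ (10 : Ph) = 7), if_neg (by decide : ¬ (10 : Ph) = 8),
    if_neg (by decide : ¬ (10 : Ph) = 9)]

theorem cstep_6 (d : Data) (a b : Cont Λ) :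
    cstep 6 d a b = some (Function.update d 6 ((instr d).1.eval a.y1 b.y1), a, b) := by
  unfold cstep
  rw [op_6, tz6]
  simp only [Cont.get, Cont.set, AC.eval]
  by_cases hb : (instr d).1.eval a.y1 b.y1 = true
  · simp [hb]
  · simp only [Bool.not_eq_true] at hb
    simp [hb]

theorem cstep_7 (d : Data) (a b : Cont Λ) :
    cstep 7 d a b = some (Function.update d 7 ((instr d).1.snd.eval a.y2 b.y2), a, b) := by
  unfold cstep
  rw [op_7, tz7]
  simp only [Cont.get, Cont.set, AC.eval]
  by_cases hb : (instr d).1.snd.eval a.y2 b.y2 = true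
  · simp [hb]
  · simp only [Bool.not_eq_true] at hb
    simp [hb]

theorem cstep_8 (d : Data) (a b : Cont Λ) :
    cstep 8 d a b = ((if bit d then AC.ID else (instr d).2).eval a.y1 b.y1).map fun q =>
      (d, { a with y1 := q.1 }, { b with y1 := q.2 }) := by
  unfold cstep
  rw [op_8, tz8]
  simp [Cont.get, Cont.set, RD.eval]

theorem cstep_9 (d : Data) (a b : Cont Λ) :
    cstep 9 d a b =
      if bit d then some (d, a, b)
      else match (instr d).2 with
        | .APP _ => if a.y2 ≠ z ∨ b.y2 ≠ z then none else some (d, a, b)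
        | α => (α.eval a.y2 b.y2).map fun q => (d, { a with y2 := q.1 }, { b with y2 := q.2 }) := by
  unfold cstep
  rw [op_9, tz9]
  by_cases hb : bit d = true
  · simp [hb, Cont.get, Cont.set, RD.eval, AC.eval]
  · simp only [hb, if_false, Bool.false_eq_true]
    cases h : (instr d).2 with
    | ID => simp [Cont.get, Cont.set, RD.eval]
    | SW => simp [Cont.get, Cont.set, RD.eval]
    | ER => simp [Cont.get, Cont.set, RD.eval]
    | APP j =>
      by_cases h2 : a.y2 ≠ z ∨ b.y2 ≠ z
      · simp only [Cont.get, RD.eval, h2, decide_true, if_true]; rfl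
      · simp only [Cont.get, RD.eval, h2, decide_false, if_false, Bool.false_eq_true]
        simp [Cont.set, AC.eval]

theorem cstep_10 (d : Data) (a b : Cont Λ) :
    cstep 10 d a b = ((AC.APP (bit d)).eval a.h b.h).map fun q =>
      (d, { a with h := q.1 }, { b with h := q.2 }) := by
  unfold cstep
  rw [op_10, tz10]
  simp [Cont.get, Cont.set, RD.eval]

/-- the eleven phases -/
def allPh : List Ph := [0, 1, 2, 3, 4, 5, 6, 7, 8, 9, 10]

theorem instr_update6 (d : Data) (c : Bool) : instr (Function.update d 6 c) = instr d := by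
  unfold instr
  congr 1
  funext i
  have : (Fin.castLE (by decide : 6 ≤ 8) i) ≠ (6 : Fin 8) := by
    intro h; have := congrArg Fin.val h; simp at this; omega
  simp [this]

theorem instr_update7 (d : Data) (c : Bool) : instr (Function.update d 7 c) = instr d := by
  unfold instr
  congr 1
  funext i
  have : (Fin.castLE (by decide : 6 ≤ 8) i) ≠ (7 : Fin 8) := by
    intro h; have := congrArg Fin.val h; simp at this; omega
  simp [this]

/-- **the run simulates one step of the next level** -/
theorem run_eq (x y : Let (Λ × Λ)) (d : Data) :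
    runL allPh d (cont x) (cont y) = (step x y).map fun p => (cont p.1, cont p.2) := by
  obtain ⟨κ, a⟩ := x
  obtain ⟨κ', b⟩ := y
  unfold allPh
  rw [run6 κ κ' _ d _ _ rfl rfl]
  set d6 := data6 κ κ' d with hd6
  have hi : instr d6 = ((rule κ κ').rd, (rule κ κ').ac) := instr_data6 κ κ' d
  set r := (rule κ κ').rd with hr
  set α := (rule κ κ').ac with hα
  simp only [runL]
  rw [cstep_6]
  simp only [Option.bind_some, hi]
  rw [cstep_7]
  simp only [Option.bind_some, instr_update6, hi]
  set c1 := r.eval (cont (κ, a)).y1 (cont (κ', b)).y1 with hc1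
  set c2 := r.snd.eval (cont (κ, a)).y2 (cont (κ', b)).y2 with hc2
  set d7 : Data := Function.update (Function.update d6 6 c1) 7 c2 with hd7
  have hi7 : instr d7 = (r, α) := by rw [hd7, instr_update7, instr_update6, hi]
  have hbit : bit d7 = r.eval a b := by
    unfold bit
    rw [hi7, RD.eval_sq]
    have e6 : d7 6 = c1 := by simp [hd7, Function.update]
    have e7 : d7 7 = c2 := by simp [hd7]
    rw [e6, e7, hc1, hc2]
    rfl
  rw [cstep_8]
  unfold step
  simp only [← hr, ← hα]
  rw [hi7, hbit]
  by_cases he : r.eval a b = true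
  · simp only [he, if_true, AC.eval, Option.map_some, Option.bind_some]
    rw [cstep_9]
    simp only [hbit, he, if_true, Option.bind_some]
    rw [cstep_10, hbit, he]
    simp only [AC.eval, cont, LabelSys.decode_code, Rule.g, if_true]
    cases (rule κ κ').g1 <;> rfl
  · simp only [he, if_false, Bool.false_eq_true]
    have hg : ∀ p : Let Λ, True := fun _ => trivial
    cases hα' : α with
    | ID =>
      simp only [AC.eval, Option.map_some, Option.bind_some]
      rw [cstep_9]
      simp only [hbit, he, if_false, hi7, hα', AC.eval, Option.map_some, Option.bind_some,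
        Bool.false_eq_true]
      rw [cstep_10, hbit]
      simp only [Bool.not_eq_true] at he
      rw [he]
      simp only [AC.eval, cont, LabelSys.decode_code, Rule.g, if_false, Bool.false_eq_true]
      cases (rule κ κ').g0 <;> rfl
    | SW =>
      simp only [AC.eval, Option.map_some, Option.bind_some]
      rw [cstep_9]
      simp only [hbit, he, if_false, hi7, hα', AC.eval, Option.map_some, Option.bind_some,
        Bool.false_eq_true]
      rw [cstep_10, hbit]
      simp only [Bool.not_eq_true] at he
      rw [he]
      simp only [AC.eval, cont, LabelSys.decode_code, Rule.g, if_false, Bool.false_eq_true]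
      cases (rule κ κ').g0 <;> rfl
    | ER =>
      simp only [AC.eval, Option.map_some, Option.bind_some]
      rw [cstep_9]
      simp only [hbit, he, if_false, hi7, hα', AC.eval, Option.map_some, Option.bind_some,
        Bool.false_eq_true]
      rw [cstep_10, hbit]
      simp only [Bool.not_eq_true] at he
      rw [he]
      simp only [AC.eval, cont, LabelSys.decode_code, Rule.g, if_false, Bool.false_eq_true]
      cases (rule κ κ').g0 <;> rfl
    | APP j =>
      rw [AC.eval_sq]
      simp only [cont]
      by_cases h2 : a.2 ≠ z ∨ b.2 ≠ z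
      · simp only [h2, if_true]
        cases h8 : (AC.APP j).eval a.1 b.1 with
        | none => cases (rule κ κ').g0 <;> simp
        | some q =>
          simp only [Option.map_some, Option.bind_some]
          rw [cstep_9]
          simp only [hbit, he, if_false, hi7, hα', Bool.false_eq_true]
          simp only [h2, if_true]
          cases (rule κ κ').g0 <;> simp
      · simp only [h2, if_false]
        cases h8 : (AC.APP j).eval a.1 b.1 with
        | none => cases (rule κ κ').g0 <;> simp
        | some q =>
          simp only [Option.map_some, Option.bind_some]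
          rw [cstep_9]
          simp only [hbit, he, if_false, hi7, hα', Bool.false_eq_true]
          simp only [h2, if_false, Option.bind_some]
          rw [cstep_10, hbit]
          simp only [Bool.not_eq_true] at he
          rw [he]
          simp only [AC.eval, LabelSys.decode_code, Rule.g, if_false, Bool.false_eq_true]
          cases (rule κ κ').g0 <;> simp

end Crest.Agent.R176.Machine
private theorem rz_7d36c5a59a : type_of% @_root_.Crest.Agent.R176.Machine.Cont.get.eq_1 := @_root_.Crest.Agent.R176.Machine.Cont.get.eq_1 -- L24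
private theorem rz_da9b38cc01 : type_of% @_root_.Crest.Agent.R176.Machine.Cont.set.eq_1 := @_root_.Crest.Agent.R176.Machine.Cont.set.eq_1 -- L31
private theorem rz_37a1147440 : type_of% @_root_.Crest.Agent.R176.Machine.runL.eq_def := @_root_.Crest.Agent.R176.Machine.runL.eq_def -- L52
private theorem rz_ab9e85efd6 : type_of% @_root_.Crest.Agent.R176.Machine.runL.eq_1 := @_root_.Crest.Agent.R176.Machine.runL.eq_1 -- L52
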