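import Crest.Agent.R176.Gen.Basic
import Crest.Agent.R176.Machine.Run

-- ▼ part R176/Machine/Sim291A
section

/-!
# Row 176, part A, block (4): local relations in an arbitrary model (helper291)

`W m w a`, `E m e a`, `U m x a`, `P m x a` : images of the letters in a model `m` of `step`.
* all unpassed bag letters commute, all passed bag letters commute;
* a moving head passes consistent non-target letters;
* fetch / put / home / contact relations.
-/

set_option autoImplicit false

namespace Crest.Agent.R176.Machine.Sim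

open Crest.Agent.R176.Machine Crest.Agent.R176.Gen

variable {Λ : Type} [DecidableEq Λ] [LabelSys Λ] {M : Type*} [MonoidWithZero M]
variable (m : Model (step (Λ := Λ)) M)

/-- wall -/
def W (w : WK) (a : Λ) : M := m.f (.W w, a)
/-- head -/
def E (e : EK) (a : Λ) : M := m.f (.E e, a)
/-- unpassed bag letter -/
def U (x : BK) (a : Λ) : M := m.f (.bag true x, a)
/-- passed bag letter -/
def P (x : BK) (a : Λ) : M := m.f (.bag false x, a)

/-- the relation of two letters in unfolded form -/
theorem rel_eq (κ κ' : KK) (a b : Λ) :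
    m.f (κ, a) * m.f (κ', b) =
      if (rule κ κ').rd.eval a b then
        (match (rule κ κ').g1 with
          | none => 0
          | some p => m.f (p.1, a) * m.f (p.2, b))
      else
        (match (rule κ κ').g0, (rule κ κ').ac.eval a b with
          | some p, some q => m.f (p.1, q.1) * m.f (p.2, q.2)
          | _, _ => 0) := by
  rw [m.rel]
  unfold step
  by_cases h : (rule κ κ').rd.eval a b = true
  · simp only [h, if_true]
    cases (rule κ κ').g1 <;> rfl
  · simp only [h, if_false, Bool.false_eq_true]
    cases (rule κ κ').g0 with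
    | none => rfl
    | some p =>
      cases h2 : (rule κ κ').ac.eval a b with
      | none => simp
      | some q => simp

/-! ### bag letters -/

theorem comm_bag (s : Bool) (x y : BK) (a b : Λ) :
    m.f (.bag s x, a) * m.f (.bag s y, b) = m.f (.bag s y, b) * m.f (.bag s x, a) := by
  rw [rel_eq m (.bag s x) (.bag s y) a b]
  have hr : rule (.bag s x) (.bag s y) = ruleBB s x s y := rfl
  rw [hr]
  unfold ruleBB
  rw [if_pos rfl]
  by_cases hxy : x.ty = y.ty
  · -- same type
    cases x <;> cases y <;> simp only [BK.ty, TT.Y.injEq, reduceCtorEq] at hxy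
    · -- X X
      by_cases hab : a = b
      · subst hab; simp [RD.eval]; rw [rel_eq m]; simp [rule, ruleBB, RD.eval]
      · simp [RD.eval, AC.eval, hab]
    · simp only [BK.ty, if_true, Rule.zero]
      rw [rel_eq m]; simp [rule, ruleBB, BK.ty, Rule.zero, RD.eval]
    · subst hxy
      simp only [BK.ty, if_true, Rule.zero]
      rw [rel_eq m]; simp [rule, ruleBB, BK.ty, Rule.zero, RD.eval]
  · cases x <;> cases y <;> simp only [BK.ty, not_true_eq_false] at hxy <;>
      simp [BK.ty, hxy, RD.eval, AC.eval]

theorem commU (x y : BK) (a b : Λ) : Commute (U m x a) (U m y b) := comm_bag m true x y a b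

/-- product of unpassed letters -/
def um (l : List (BK × Λ)) : M := (l.map fun p => U m p.1 p.2).prod
/-- product of passed letters -/
def pm (l : List (BK × Λ)) : M := (l.map fun p => P m p.1 p.2).prod

@[simp] theorem um_nil : um m [] = 1 := rfl
@[simp] theorem pm_nil : pm m [] = 1 := rfl
@[simp] theorem um_cons (p : BK × Λ) (l : List (BK × Λ)) :
    um m (p :: l) = U m p.1 p.2 * um m l := by simp [um]
@[simp] theorem pm_cons (p : BK × Λ) (l : List (BK × Λ)) :
    pm m (p :: l) = P m p.1 p.2 * pm m l := by simp [pm]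
theorem um_append (l l' : List (BK × Λ)) : um m (l ++ l') = um m l * um m l' := by simp [um]

theorem um_perm {l l' : List (BK × Λ)} (h : l.Perm l') : um m l = um m l' := by
  unfold um
  refine List.Perm.prod_eq' (h.map _) ?_
  rw [List.pairwise_map]
  exact List.pairwise_of_forall fun x y => commU m _ _ _ _


/-! ### the head -/

/-- the head `e` can pass the letter `x` -/
def passes (e : EK) (x : BK) : Prop := e.moving = true ∧ cons e x = true ∧ e.target ≠ some x.ty

theorem head_pass {e : EK} {x : BK} (h : passes e x) (a b : Λ) :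
    E m e a * U m x b = P m x b * E m e a := by
  obtain ⟨h1, h2, h3⟩ := h
  unfold E U P
  rw [rel_eq m]
  have hr : rule (.E e) (.bag true x) = ⟨.F, .SW, some (.bag false x, .E e), none⟩ := by
    show ruleEB e true x = _
    unfold ruleEB
    have h4 : ¬ (x = .X ∧ e.target = some .X) := by
      rintro ⟨rfl, h⟩
      exact h3 h
    simp [h1, h2, h3, h4]
  rw [hr]
  simp [RD.eval, AC.eval]

theorem head_pass_list {e : EK} (a : Λ) (l : List (BK × Λ)) (h : ∀ p ∈ l, passes e p.1) :
    E m e a * um m l = pm m l * E m e a := by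
  induction l with
  | nil => simp
  | cons p l ih =>
    rw [um_cons, pm_cons, ← mul_assoc, head_pass m (h p (by simp)), mul_assoc,
      ih fun q hq => h q (by simp [hq]), mul_assoc]

end Crest.Agent.R176.Machine.Sim
end

-- ▼ part R176/Machine/Sim291B

/-!
# Row 176, part A, block (4): the phase lemma and the simulation (helper291)
-/

set_option autoImplicit false
set_option linter.unusedSectionVars false

namespace Crest.Agent.R176.Machine.Sim

open Crest.Agent.R176.Machine Crest.Agent.R176.Gen

variable {Λ : Type} [DecidableEq Λ] [LabelSys Λ] {M : Type*} [MonoidWithZero M]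
variable (m : Model (step (Λ := Λ)) M)

/-! ### marks -/

/-- the letter of type `tz φ`, with mark `hm` if it is `H` -/
def tgt (φ : Ph) (hm : HM) : BK :=
  match tz φ with
  | .X => .X
  | .H => .H hm
  | .Y j => .Y j false

/-- mark of `H` of the working block before phase `φ` -/
def hB (φ : Ph) : HM := if φ = 0 then .f else .b
/-- mark of `H` of the working block after phase `φ` -/
def hB' (φ : Ph) : HM := if φ = 10 then .f else .b
/-- mark of `H` of the left block before phase `φ` -/
def hA (φ : Ph) : HM := if φ = 0 then .f else .l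
/-- mark of `H` of the left block after phase `φ` -/
def hA' (φ : Ph) : HM := if φ = 10 then .f else .l

/-! ### local relations -/

theorem fetch (φ : Ph) (b : Λ) :
    E m (.G φ) z * U m (tgt φ (hB φ)) b = E m (.K φ) b * U m (tgt φ (hB φ)).out z := by
  unfold E U
  rw [rel_eq m]
  have hr : rule (.E (.G φ)) (.bag true (tgt φ (hB φ))) =
      ⟨.N1, .SW, some (.E (.K φ), .bag true (tgt φ (hB φ)).out), none⟩ := by
    fin_cases φ <;> rfl
  rw [hr]
  simp [RD.eval, AC.eval]

theorem put (φ : Ph) (b : Λ) :
    E m (.P φ) b * U m (tgt φ (hB φ)).out z = E m (.R φ) z * U m (tgt φ (hB' φ)) b := by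
  unfold E U
  rw [rel_eq m]
  have hr : rule (.E (.P φ)) (.bag true (tgt φ (hB φ)).out) =
      ⟨.N2, .SW, some (.E (.R φ), .bag true (tgt φ (hB' φ))), none⟩ := by
    fin_cases φ <;> rfl
  rw [hr]
  simp [RD.eval, AC.eval]

theorem home1 (φ : Ph) (d : Data) (b : Λ) :
    W m (.A φ d) z * E m (.K φ) b = W m (.C φ d) b * E m (.N φ) z := by
  unfold W E
  rw [rel_eq m (.W (.C φ d)) (.E (.N φ))]
  have hr : rule (.W (.C φ d)) (.E (.N φ)) = ⟨.N2, .SW, some (.W (.A φ d), .E (.K φ)), none⟩ := by
    simp [rule, ruleWE]
  rw [hr]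
  simp [RD.eval, AC.eval]

theorem home2 (φ : Ph) (d : Data) (b : Λ) :
    W m (.D φ d) b * E m (.N φ) z = W m (.B φ d) z * E m (.P φ) b := by
  unfold W E
  rw [rel_eq m (.W (.D φ d)) (.E (.N φ))]
  have hr : rule (.W (.D φ d)) (.E (.N φ)) = ⟨.N2, .SW, some (.W (.B φ d), .E (.P φ)), none⟩ := by
    simp [rule, ruleWE]
  rw [hr]
  simp [RD.eval, AC.eval]

theorem next {φ : Ph} (hφ : φ ≠ 10) (d : Data) :
    W m (.B φ d) z * E m (.R φ) z = W m (.A (φ + 1) d) z * E m (.G (φ + 1)) z := by
  unfold W E
  rw [rel_eq m (.W (.B φ d)) (.E (.R φ))]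
  have hr : rule (.W (.B φ d)) (.E (.R φ)) =
      ⟨.NN, .ID, some (.W (.A (φ + 1) d), .E (.G (φ + 1))), none⟩ := by
    simp [rule, ruleWE, hφ]
  rw [hr]
  simp [RD.eval, AC.eval]

theorem finish (d : Data) :
    W m (.B 10 d) z * E m (.R 10) z = W m .w0 z * E m .home z := by
  unfold W E
  rw [rel_eq m (.W (.B 10 d)) (.E (.R 10))]
  have hr : rule (.W (.B 10 d)) (.E (.R 10)) = ⟨.NN, .ID, some (.W .w0, .E .home), none⟩ := by
    simp [rule, ruleWE]
  rw [hr]
  simp [RD.eval, AC.eval]

theorem start (d : Data) :
    W m (.A 0 d) z * E m (.G 0) z = W m .w0 z * E m .home z := by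
  unfold W E
  rw [rel_eq m (.W (.A 0 d)) (.E (.G 0))]
  have hr : rule (.W (.A 0 d)) (.E (.G 0)) = ⟨.NN, .ID, some (.W .w0, .E .home), none⟩ := by
    simp [rule, ruleWE]
  rw [hr]
  simp [RD.eval, AC.eval]

theorem contact_rel (φ : Ph) (d : Data) (a b : Λ) :
    U m (tgt φ (hA φ)) a * W m (.C φ d) b =
      if (op φ d).rd.eval a b then
        (match (op φ d).g1 with
          | none => 0
          | some d' => U m (tgt φ (hA' φ)) a * W m (.D φ d') b)
      else
        (match (op φ d).g0, (op φ d).ac.eval a b with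
          | some d', some q => U m (tgt φ (hA' φ)) q.1 * W m (.D φ d') q.2
          | _, _ => 0) := by
  unfold U W
  rw [rel_eq m]
  have hr : rule (.bag true (tgt φ (hA φ))) (.W (.C φ d)) =
      contact (tgt φ (hA φ)) (tgt φ (hA' φ)) φ d := by
    show ruleBW true (tgt φ (hA φ)) (.C φ d) = _
    fin_cases φ <;> simp [tgt, tz, hA, hA', ruleBW, locked]
  rw [hr]
  unfold contact
  simp only
  by_cases h : (op φ d).rd.eval a b = true
  · simp only [h, if_true]
    cases (op φ d).g1 <;> rfl
  · simp only [h, if_false, Bool.false_eq_true]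
    cases (op φ d).g0 with
    | none => rfl
    | some p =>
      cases (op φ d).ac.eval a b with
      | none => rfl
      | some q => rfl

/-! ### bags -/

variable [Fintype Λ]

/-- the letters `X_a` -/
noncomputable def xsL (Λ : Type) [Fintype Λ] : List (BK × Λ) :=
  (Finset.univ : Finset Λ).toList.map fun a => (.X, a)

/-- the bag with content `c` -/
noncomputable def bagL (hm : HM) (c : Cont Λ) : List (BK × Λ) :=
  (.H hm, c.h) :: (.Y false false, c.y1) :: (.Y true false, c.y2) :: xsL Λ

/-- the non-target letters -/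
noncomputable def othL (φ : Ph) (hm : HM) (c : Cont Λ) : List (BK × Λ) :=
  match tz φ with
  | .X => bagL hm c
  | .H => (.Y false false, c.y1) :: (.Y true false, c.y2) :: xsL Λ
  | .Y false => (.H hm, c.h) :: (.Y true false, c.y2) :: xsL Λ
  | .Y true => (.H hm, c.h) :: (.Y false false, c.y1) :: xsL Λ

theorem tz_ne_X (φ : Ph) : tz φ ≠ .X := by revert φ; decide

theorem bagL_perm (φ : Ph) (hm : HM) (c : Cont Λ) :
    (bagL hm c).Perm (othL φ hm c ++ [(tgt φ hm, c.get (tz φ))]) := by
  unfold othL bagL tgt
  have h := tz_ne_X φ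
  cases ht : tz φ with
  | X => exact absurd ht h
  | H =>
    simp only [Cont.get]
    exact (List.perm_append_singleton _ _).symm
  | Y j =>
    cases j
    · simp only [Cont.get]
      refine List.Perm.trans ?_ (List.perm_append_singleton _ _).symm
      exact List.Perm.swap _ _ _
    · simp only [Cont.get]
      refine List.Perm.trans ?_ (List.perm_append_singleton _ _).symm
      refine List.Perm.trans (List.Perm.cons _ (List.Perm.swap _ _ _)) ?_
      exact List.Perm.swap _ _ _

theorem um_bag (φ : Ph) (hm : HM) (c : Cont Λ) :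
    um m (bagL hm c) = um m (othL φ hm c) * U m (tgt φ hm) (c.get (tz φ)) := by
  rw [um_perm m (bagL_perm φ hm c), um_append]
  simp

theorem othL_set (φ : Ph) (hm : HM) (c : Cont Λ) (a : Λ) :
    othL φ hm (c.set (tz φ) a) = othL φ hm c := by
  unfold othL
  have h := tz_ne_X φ
  cases ht : tz φ with
  | X => exact absurd ht h
  | H => simp [Cont.set]
  | Y j => cases j <;> simp [Cont.set]

theorem get_set (φ : Ph) (c : Cont Λ) (a : Λ) : (c.set (tz φ) a).get (tz φ) = a := by
  cases ht : tz φ with
  | X => simp [Cont.set, Cont.get]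
  | H => simp [Cont.set, Cont.get]
  | Y j => cases j <;> simp [Cont.set, Cont.get]

theorem othL_hB (φ : Ph) (c : Cont Λ) : othL φ (hB φ) c = othL φ (hB' φ) c := by
  unfold othL
  fin_cases φ <;> simp [tz, hB, hB']

theorem othL_hA (φ : Ph) (c : Cont Λ) : othL φ (hA φ) c = othL φ (hA' φ) c := by
  unfold othL
  fin_cases φ <;> simp [tz, hA, hA']

theorem passes_oth (φ : Ph) (c : Cont Λ) (e : EK)
    (he : e = .G φ ∨ e = .K φ ∨ e = .P φ ∨ e = .R φ) :
    ∀ p ∈ othL φ (hB φ) c, passes e p.1 := by
  have key : ∀ φ : Ph, ∀ x : BK, (x = .X ∨ (x = .H .b ∧ tz φ ≠ .H) ∨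
      (x = .Y false false ∧ tz φ ≠ .Y false) ∨ (x = .Y true false ∧ tz φ ≠ .Y true)) →
      passes (.G φ) x ∧ passes (.K φ) x ∧ passes (.P φ) x ∧ passes (.R φ) x := by
    intro φ x hx
    unfold passes
    rcases hx with rfl | ⟨rfl, h⟩ | ⟨rfl, h⟩ | ⟨rfl, h⟩ <;> revert φ <;> decide
  intro p hp
  have hx : p.1 = .X ∨ (p.1 = .H .b ∧ tz φ ≠ .H) ∨
      (p.1 = .Y false false ∧ tz φ ≠ .Y false) ∨ (p.1 = .Y true false ∧ tz φ ≠ .Y true) := by
    have hxs : ∀ p ∈ xsL Λ, p.1 = .X := by
      intro p hp
      unfold xsL at hp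
      obtain ⟨a, -, rfl⟩ := List.mem_map.1 hp
      rfl
    unfold othL at hp
    have h0 : φ = 0 → tz φ = .H := by rintro rfl; rfl
    cases ht : tz φ with
    | X => exact absurd ht (tz_ne_X φ)
    | H =>
      rw [ht] at hp
      simp only [List.mem_cons] at hp
      rcases hp with rfl | rfl | hp
      · simp
      · simp
      · exact Or.inl (hxs p hp)
    | Y j =>
      have hφ : φ ≠ 0 := fun h => by rw [h0 h] at ht; exact absurd ht (by simp)
      rw [ht] at hp
      cases j
      · simp only [List.mem_cons] at hp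
        rcases hp with rfl | rfl | hp
        · simp [hB, hφ]
        · simp
        · exact Or.inl (hxs p hp)
      · simp only [List.mem_cons] at hp
        rcases hp with rfl | rfl | hp
        · simp [hB, hφ]
        · simp
        · exact Or.inl (hxs p hp)
  have hk := key φ p.1 hx
  rcases he with rfl | rfl | rfl | rfl
  · exact hk.1
  · exact hk.2.1
  · exact hk.2.2.1
  · exact hk.2.2.2

/-- the head fetches the label of the target letter and brings it to the wall -/
theorem fetch_all (φ : Ph) (d : Data) (b : Cont Λ) :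
    W m (.A φ d) z * (E m (.G φ) z * um m (bagL (hB φ) b)) =
      W m (.C φ d) (b.get (tz φ)) * (E m (.N φ) z *
        (um m (othL φ (hB φ) b) * U m (tgt φ (hB φ)).out z)) := by
  have h1 : E m (.G φ) z * um m (bagL (hB φ) b) =
      E m (.K φ) (b.get (tz φ)) * (um m (othL φ (hB φ) b) * U m (tgt φ (hB φ)).out z) := by
    rw [um_bag m φ, ← mul_assoc, head_pass_list m z _ (passes_oth φ b _ (Or.inl rfl)), mul_assoc,
      fetch, ← mul_assoc, ← head_pass_list m _ _ (passes_oth φ b _ (Or.inr (Or.inl rfl))),
      mul_assoc]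
  rw [h1, ← mul_assoc, home1, mul_assoc]

/-- the head takes the label from the wall and puts it back -/
theorem put_all (φ : Ph) (d : Data) (b : Cont Λ) (q : Λ) :
    W m (.D φ d) q * (E m (.N φ) z *
        (um m (othL φ (hB φ) b) * U m (tgt φ (hB φ)).out z)) =
      W m (.B φ d) z * (E m (.R φ) z * um m (bagL (hB' φ) (b.set (tz φ) q))) := by
  have h1 : E m (.P φ) q * (um m (othL φ (hB φ) b) * U m (tgt φ (hB φ)).out z) =
      E m (.R φ) z * um m (bagL (hB' φ) (b.set (tz φ) q)) := by
    rw [um_bag m φ (hB' φ), get_set, othL_set, ← othL_hB, ← mul_assoc,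
      head_pass_list m _ _ (passes_oth φ b _ (Or.inr (Or.inr (Or.inl rfl)))), mul_assoc, put,
      ← mul_assoc, ← head_pass_list m _ _ (passes_oth φ b _ (Or.inr (Or.inr (Or.inr rfl)))),
      mul_assoc]
  rw [← mul_assoc, home2, mul_assoc, h1]

/-- **PHASE LEMMA** -/
theorem phase (φ : Ph) (d : Data) (a b : Cont Λ) :
    um m (bagL (hA φ) a) * (W m (.A φ d) z * (E m (.G φ) z * um m (bagL (hB φ) b))) =
      match cstep φ d a b with
      | none => 0
      | some p => um m (bagL (hA' φ) p.2.1) *
          (W m (.B φ p.1) z * (E m (.R φ) z * um m (bagL (hB' φ) p.2.2))) := by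
  rw [fetch_all, um_bag m φ (hA φ)]
  set X := E m (.N φ) z * (um m (othL φ (hB φ) b) * U m (tgt φ (hB φ)).out z) with hX
  have e1 : um m (othL φ (hA φ) a) * U m (tgt φ (hA φ)) (a.get (tz φ)) *
      (W m (.C φ d) (b.get (tz φ)) * X) =
      um m (othL φ (hA φ) a) * ((U m (tgt φ (hA φ)) (a.get (tz φ)) *
        W m (.C φ d) (b.get (tz φ))) * X) := by simp only [mul_assoc]
  rw [e1, contact_rel]
  unfold cstep
  by_cases h : (op φ d).rd.eval (a.get (tz φ)) (b.get (tz φ)) = true
  · simp only [h, if_true]
    cases h1 : (op φ d).g1 with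
    | none => simp
    | some d' =>
      simp only [Option.map_some]
      have hb : b = b.set (tz φ) (b.get (tz φ)) := by
        cases tz φ with
        | X => rfl
        | H => rfl
        | Y j => cases j <;> rfl
      rw [mul_assoc (U m (tgt φ (hA' φ)) _), hX, put_all, ← hb, ← mul_assoc, othL_hA,
        ← um_bag]
  · simp only [h, if_false, Bool.false_eq_true]
    cases h1 : (op φ d).g0 with
    | none => simp
    | some d' =>
      cases h2 : (op φ d).ac.eval (a.get (tz φ)) (b.get (tz φ)) with
      | none => simp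
      | some q =>
        simp only [Option.map_some, Option.bind_some]
        rw [mul_assoc (U m (tgt φ (hA' φ)) _), hX, put_all, ← mul_assoc, othL_hA]
        rw [um_bag m φ (hA' φ) (a.set (tz φ) q.1), get_set, othL_set]

/-! ### the run -/

/-- two adjacent blocks, the right one at the beginning of phase `φ` -/
noncomputable def stt (φ : Ph) (d : Data) (a b : Cont Λ) : M :=
  um m (bagL (hA φ) a) * (W m (.A φ d) z * (E m (.G φ) z * um m (bagL (hB φ) b)))

/-- two adjacent blocks, the right one at rest -/
noncomputable def fin2 (a b : Cont Λ) : M :=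
  um m (bagL .f a) * (W m .w0 z * (E m .home z * um m (bagL .f b)))

theorem stt_zero (d : Data) (a b : Cont Λ) : stt m 0 d a b = fin2 m a b := by
  unfold stt fin2
  have hA0 : hA 0 = .f := rfl
  have hB0 : hB 0 = .f := rfl
  rw [hA0, hB0, ← mul_assoc (W m (.A 0 d) z), start, mul_assoc]

theorem stt_next {φ : Ph} (hφ : φ ≠ 10) (d : Data) (a b : Cont Λ) :
    stt m φ d a b = match cstep φ d a b with
      | none => 0
      | some p => stt m (φ + 1) p.1 p.2.1 p.2.2 := by
  unfold stt
  rw [phase]
  cases cstep φ d a b with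
  | none => rfl
  | some p =>
    simp only
    have e1 : hA' φ = hA (φ + 1) := by revert hφ; revert φ; decide
    have e2 : hB' φ = hB (φ + 1) := by revert hφ; revert φ; decide
    rw [e1, e2, ← mul_assoc (W m (.B φ p.1) z), next m hφ, mul_assoc]

theorem stt_ten (d : Data) (a b : Cont Λ) :
    stt m 10 d a b = match cstep 10 d a b with
      | none => 0
      | some p => fin2 m p.2.1 p.2.2 := by
  unfold stt fin2
  rw [phase]
  cases cstep 10 d a b with
  | none => rfl
  | some p =>
    simp only
    have e1 : hA' 10 = .f := rfl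
    have e2 : hB' 10 = .f := rfl
    rw [e1, e2, ← mul_assoc (W m (.B 10 p.1) z), finish m, mul_assoc]

/-- value of the result of a run -/
noncomputable def res (r : Option (Cont Λ × Cont Λ)) : M :=
  match r with
  | none => 0
  | some p => fin2 m p.1 p.2

theorem res_bind {α : Type} (o : Option α) (f : α → Option (Cont Λ × Cont Λ)) :
    res m (o.bind f) = match o with
      | none => 0
      | some p => res m (f p) := by
  cases o <;> rfl

theorem run_ten (d : Data) (a b : Cont Λ) : stt m 10 d a b = res m (runL [10] d a b) := by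
  rw [stt_ten]
  simp only [runL, res_bind]
  cases cstep 10 d a b <;> rfl

theorem run_step {φ : Ph} (hφ : φ ≠ 10) {l : List Ph}
    (ih : ∀ d a b, stt m (φ + 1) d a b = res m (runL l d a b)) (d : Data) (a b : Cont Λ) :
    stt m φ d a b = res m (runL (φ :: l) d a b) := by
  rw [stt_next m hφ]
  simp only [runL, res_bind]
  cases cstep φ d a b with
  | none => rfl
  | some p => exact ih _ _ _

/-- the whole run -/
theorem run_all (d : Data) (a b : Cont Λ) : fin2 m a b = res m (runL allPh d a b) := by
  rw [← stt_zero m d]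
  unfold allPh
  have h10 := run_ten m
  have h9 := run_step m (φ := 9) (by decide) h10
  have h8 := run_step m (φ := 8) (by decide) h9
  have h7 := run_step m (φ := 7) (by decide) h8
  have h6 := run_step m (φ := 6) (by decide) h7
  have h5 := run_step m (φ := 5) (by decide) h6
  have h4 := run_step m (φ := 4) (by decide) h5
  have h3 := run_step m (φ := 3) (by decide) h4
  have h2 := run_step m (φ := 2) (by decide) h3
  have h1 := run_step m (φ := 1) (by decide) h2
  exact run_step m (φ := 0) (by decide) h1 d a b

/-! ### the simulation -/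

/-- the rest block of a letter of the next level -/
noncomputable def PhiL (x : Let (Λ × Λ)) : List (Let Λ) :=
  (.W .w0, z) :: (.E .home, z) :: (bagL .f (cont x)).map fun p => (.bag true p.1, p.2)

theorem ev_bag (l : List (BK × Λ)) :
    m.ev (l.map fun p => (KK.bag true p.1, p.2)) = um m l := by
  simp only [Model.ev, um, List.map_map]
  rfl

theorem ev_PhiL (x : Let (Λ × Λ)) :
    m.ev (PhiL x) = W m .w0 z * (E m .home z * um m (bagL .f (cont x))) := by
  unfold PhiL
  rw [Model.ev_cons, Model.ev_cons, ev_bag]
  rfl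

/-- **SIMULATION**: the rest blocks satisfy the relations of the next level. -/
noncomputable def sq : Model (step (Λ := Λ × Λ)) M where
  f x := m.ev (PhiL x)
  rel x y := by
    have e : m.ev (PhiL x) * m.ev (PhiL y) =
        W m .w0 z * (E m .home z * fin2 m (cont x) (cont y)) := by
      rw [ev_PhiL, ev_PhiL]
      unfold fin2
      simp only [mul_assoc]
    rw [e, run_all m (fun _ => false), run_eq]
    cases step x y with
    | none => simp [res]
    | some p =>
      simp only [Option.map_some, res]
      rw [ev_PhiL, ev_PhiL]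
      unfold fin2
      simp only [mul_assoc]

theorem sq_f (x : Let (Λ × Λ)) : (sq m).f x = m.ev (PhiL x) := rfl

/-- the word over `Λ` of a word over `Λ × Λ` -/
noncomputable def Phi (w : List (Let (Λ × Λ))) : List (Let Λ) := w.flatMap PhiL

theorem ev_Phi (w : List (Let (Λ × Λ))) : m.ev (Phi w) = (sq m).ev w := by
  induction w with
  | nil => rfl
  | cons x w ih =>
    rw [Phi, List.flatMap_cons, Model.ev_append, Model.ev_cons, sq_f, ← ih]
    rfl

theorem length_PhiL (x : Let (Λ × Λ)) : (PhiL x).length = Fintype.card Λ + 5 := by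
  simp [PhiL, bagL, xsL]

end Crest.Agent.R176.Machine.Sim
private theorem rz_26634cea29 : type_of% @_root_.Crest.Agent.R176.Machine.Sim.res.eq_1 := @_root_.Crest.Agent.R176.Machine.Sim.res.eq_1 -- L360
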