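import Mathlib
import Crest.Agent.R176.Gen.Lin206
import Crest.Agent.R176.Machine.Sim291B
import Crest.Agent.R176.Machine.Key593Defs
import Crest.Agent.R176.Machine.Key593Run
import Crest.Agent.R176.Machine.Key309B

-- ▼ part R176/Cut660
section

/-!
# R176, block (7b): the abstract cut lemma (helper660)

Let `A` be a `k`-algebra generated by letters `ι x`, `Ω` a set of letters.  A *segment* is a word
`ω :: v` with `ω ∈ Ω` and no letter of `v` in `Ω`.  Suppose (LEN) long words without a letter of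
`Ω` vanish, and (KEY) for every segment `s` there is `a' ∈ A12'` (a submodule of another algebra
`A'`, `Φ : A' → A`) with `s₁ s s₂ = s₁ Φ(a') s₂` for all segments `s₁, s₂`.  Then `1 - B` is a unit
for every matrix `B` of size `n` whose entries are linear combinations of words of length `1`, `2`,
provided `1 - B'` is a unit for all matrices `B'` with entries in `A12'`, of size `n * (1 + |Ω|)`.
Main result: `cut_lemma`.
-/

set_option autoImplicit false

namespace Crest.Agent.R176.Cut660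

open Matrix Submodule

section units

variable {A : Type*} [Ring A]

/-- rectangular version of `1 - x y` unit iff `1 - y x` unit. -/
theorem isUnit_one_sub_mul_rect {F H : Type*} [Fintype F] [DecidableEq F] [Fintype H]
    [DecidableEq H] (X : Matrix F H A) (Y : Matrix H F A) (h : IsUnit (1 - Y * X)) :
    IsUnit (1 - X * Y) := by
  obtain ⟨u, hu⟩ := h
  have h1 : (1 - Y * X) * (↑(u⁻¹) : Matrix H H A) = 1 := by rw [← hu]; simp
  have h2 : (↑(u⁻¹) : Matrix H H A) * (1 - Y * X) = 1 := by rw [← hu]; simp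
  set U : Matrix H H A := ↑(u⁻¹) with hU
  have e1 : Y * X * U = U - 1 := by
    rw [Matrix.sub_mul, Matrix.one_mul] at h1
    rw [← h1]; abel
  have e2 : U * (Y * X) = U - 1 := by
    rw [Matrix.mul_sub, Matrix.mul_one] at h2
    rw [← h2]; abel
  refine ⟨⟨1 - X * Y, 1 + X * U * Y, ?_, ?_⟩, rfl⟩
  · have : X * Y * (X * U * Y) = X * (U - 1) * Y := by
      rw [← e1]; simp only [Matrix.mul_assoc]
    rw [Matrix.sub_mul, Matrix.one_mul, Matrix.mul_add, Matrix.mul_one, this, Matrix.mul_sub,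
      Matrix.sub_mul, Matrix.mul_one]
    abel
  · have : X * U * Y * (X * Y) = X * (U - 1) * Y := by
      rw [← e2]; simp only [Matrix.mul_assoc]
    rw [Matrix.mul_sub, Matrix.mul_one, Matrix.add_mul, Matrix.one_mul, this, Matrix.mul_sub,
      Matrix.sub_mul, Matrix.mul_one]
    abel

/-- Schur complement: `1 - a - b c` is a unit as soon as the block matrix is. -/
theorem isUnit_schur {n m : Type*} [Fintype n] [DecidableEq n] [Fintype m] [DecidableEq m]
    (a : Matrix n n A) (b : Matrix n m A) (c : Matrix m n A)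
    (h : IsUnit (1 - fromBlocks a b c 0)) : IsUnit (1 - (a + b * c)) := by
  obtain ⟨u, hu⟩ := h
  have h1 : (1 - fromBlocks a b c 0) * (↑(u⁻¹) : Matrix (n ⊕ m) (n ⊕ m) A) = 1 := by
    rw [← hu]; simp
  have h2 : (↑(u⁻¹) : Matrix (n ⊕ m) (n ⊕ m) A) * (1 - fromBlocks a b c 0) = 1 := by
    rw [← hu]; simp
  have key : (1 : Matrix (n ⊕ m) (n ⊕ m) A) - fromBlocks a b c 0 =
      fromBlocks (1 - a) (-b) (-c) 1 := by
    rw [← fromBlocks_one, sub_eq_add_neg, fromBlocks_neg, fromBlocks_add]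
    simp [sub_eq_add_neg]
  rw [key] at h1 h2
  set U : Matrix (n ⊕ m) (n ⊕ m) A := ↑(u⁻¹) with hU
  rw [← fromBlocks_toBlocks U, fromBlocks_multiply, ← fromBlocks_one, fromBlocks_inj] at h1 h2
  obtain ⟨h11, -, h13, -⟩ := h1
  obtain ⟨g11, g12, -, -⟩ := h2
  have e21 : U.toBlocks₂₁ = c * U.toBlocks₁₁ := by
    rw [Matrix.one_mul, Matrix.neg_mul] at h13
    exact (neg_add_eq_zero.mp h13).symm
  have e12 : U.toBlocks₁₂ = U.toBlocks₁₁ * b := by
    rw [Matrix.mul_one, Matrix.mul_neg] at g12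
    exact (neg_add_eq_zero.mp g12).symm
  refine ⟨⟨1 - (a + b * c), U.toBlocks₁₁, ?_, ?_⟩, rfl⟩
  · have : (1 - (a + b * c)) * U.toBlocks₁₁ = (1 - a) * U.toBlocks₁₁ + -b * (c * U.toBlocks₁₁) := by
      simp only [Matrix.sub_mul, Matrix.add_mul, Matrix.neg_mul, Matrix.mul_assoc, Matrix.one_mul]
      abel
    rw [this, ← e21, h11]
  · have : U.toBlocks₁₁ * (1 - (a + b * c)) = U.toBlocks₁₁ * (1 - a) + (U.toBlocks₁₁ * b) * -c := by
      simp only [Matrix.mul_sub, Matrix.mul_add, Matrix.mul_neg, Matrix.mul_assoc, Matrix.mul_one]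
      abel
    rw [this, ← e12, g11]

/-- the sandwich lemma: `D = V + G`, and `G` is killed inside. -/
theorem isUnit_sandwich (D V : A) (h1 : D * (D - V) * D = 0) (h2 : D * (D - V) * V = 0)
    (h3 : V * (D - V) * D = 0) (hV : IsUnit (1 - V)) : IsUnit (1 - D) := by
  obtain ⟨u, hu⟩ := hV
  set U : A := ↑(u⁻¹) with hU
  have e1 : (1 - V) * U = 1 := by rw [← hu]; simp [hU]
  have e2 : U * (1 - V) = 1 := by rw [← hu]; simp [hU]
  have f1 : U = 1 + V * U := by
    have : U - V * U = 1 := by rw [← e1]; noncomm_ring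
    rw [← this]; noncomm_ring
  have f2 : U = 1 + U * V := by
    have : U - U * V = 1 := by rw [← e2]; noncomm_ring
    rw [← this]; noncomm_ring
  have g1 : D * (D - V) * U * D = 0 := by
    calc D * (D - V) * U * D = D * (D - V) * (1 + V * U) * D := by rw [← f1]
      _ = D * (D - V) * D + (D * (D - V) * V) * U * D := by noncomm_ring
      _ = 0 := by rw [h1, h2]; simp
  have g2 : D * U * (D - V) * D = 0 := by
    calc D * U * (D - V) * D = D * (1 + U * V) * (D - V) * D := by rw [← f2]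
      _ = D * (D - V) * D + D * U * (V * (D - V) * D) := by noncomm_ring
      _ = 0 := by rw [h1, h3]; simp
  refine ⟨⟨1 - D, 1 + D + D * U * D, ?_, ?_⟩, rfl⟩
  · have : D * D * U * D = D * (U - 1) * D := by
      have : D * D * U * D = D * (V * U) * D + D * (D - V) * U * D := by noncomm_ring
      rw [this, g1, add_zero]
      congr 2
      rw [eq_sub_iff_add_eq, add_comm]; exact f1.symm
    calc (1 - D) * (1 + D + D * U * D) = 1 - D * D + D * U * D - D * D * U * D := by noncomm_ring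
      _ = 1 := by rw [this]; noncomm_ring
  · have : D * U * D * D = D * (U - 1) * D := by
      have : D * U * D * D = D * (U * V) * D + D * U * (D - V) * D := by noncomm_ring
      rw [this, g2, add_zero]
      congr 2
      rw [eq_sub_iff_add_eq, add_comm]; exact f2.symm
    calc (1 + D + D * U * D) * (1 - D) = 1 - D * D + D * U * D - D * U * D * D := by noncomm_ring
      _ = 1 := by rw [this]; noncomm_ring

end units

section words

variable {k A L : Type*} [CommRing k] [Ring A] [Algebra k A]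

/-- value of a word -/
def ev (ι : L → A) (w : List L) : A := (w.map ι).prod

@[simp] theorem ev_nil (ι : L → A) : ev ι [] = 1 := rfl

@[simp] theorem ev_cons (ι : L → A) (x : L) (w : List L) : ev ι (x :: w) = ι x * ev ι w := by
  simp [ev]

theorem ev_append (ι : L → A) (v w : List L) : ev ι (v ++ w) = ev ι v * ev ι w := by
  simp [ev]

variable (k) in
/-- span of the words of length `j` without a letter in `Ω` -/
def Wj (ι : L → A) (Ω : L → Prop) (j : ℕ) : Submodule k A :=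
  span k {a | ∃ v : List L, v.length = j ∧ (∀ x ∈ v, ¬ Ω x) ∧ a = ev ι v}

variable (k) in
/-- span of all words without a letter in `Ω` -/
def Wo (ι : L → A) (Ω : L → Prop) : Submodule k A :=
  span k {a | ∃ v : List L, (∀ x ∈ v, ¬ Ω x) ∧ a = ev ι v}

variable (k) in
/-- span of the segments -/
def Seg (ι : L → A) (Ω : L → Prop) : Submodule k A :=
  span k {a | ∃ (ω : L) (v : List L), Ω ω ∧ (∀ x ∈ v, ¬ Ω x) ∧ a = ev ι (ω :: v)}

theorem Wj_le_Wo (ι : L → A) (Ω : L → Prop) (j : ℕ) : Wj k ι Ω j ≤ Wo k ι Ω := by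
  apply span_mono
  rintro a ⟨v, -, h, rfl⟩
  exact ⟨v, h, rfl⟩

theorem one_mem_Wo (ι : L → A) (Ω : L → Prop) : (1 : A) ∈ Wo k ι Ω :=
  subset_span ⟨[], by simp, by simp⟩

theorem Wj_mul (ι : L → A) (Ω : L → Prop) (i j : ℕ) {a b : A} (ha : a ∈ Wj k ι Ω i)
    (hb : b ∈ Wj k ι Ω j) : a * b ∈ Wj k ι Ω (i + j) := by
  have h : Wj k ι Ω i * Wj k ι Ω j ≤ Wj k ι Ω (i + j) := by
    rw [Wj, Wj, span_mul_span, span_le]
    rintro _ ⟨_, ⟨v, hv, hv', rfl⟩, _, ⟨w, hw, hw', rfl⟩, rfl⟩
    refine subset_span ⟨v ++ w, by simp [hv, hw], ?_, (ev_append _ _ _).symm⟩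
    intro x hx
    rcases List.mem_append.1 hx with h | h
    · exact hv' x h
    · exact hw' x h
  exact h (mul_mem_mul ha hb)

theorem Wo_mul (ι : L → A) (Ω : L → Prop) {a b : A} (ha : a ∈ Wo k ι Ω)
    (hb : b ∈ Wo k ι Ω) : a * b ∈ Wo k ι Ω := by
  have h : Wo k ι Ω * Wo k ι Ω ≤ Wo k ι Ω := by
    rw [Wo, span_mul_span, span_le]
    rintro _ ⟨_, ⟨v, hv', rfl⟩, _, ⟨w, hw', rfl⟩, rfl⟩
    refine subset_span ⟨v ++ w, ?_, (ev_append _ _ _).symm⟩
    intro x hx
    rcases List.mem_append.1 hx with h | h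
    · exact hv' x h
    · exact hw' x h
  exact h (mul_mem_mul ha hb)

theorem span_mul_Wo (ι : L → A) (Ω : L → Prop) {a b : A} (ha : a ∈ span k (ι '' {x | Ω x}))
    (hb : b ∈ Wo k ι Ω) : a * b ∈ Seg k ι Ω := by
  have h : span k (ι '' {x | Ω x}) * Wo k ι Ω ≤ Seg k ι Ω := by
    rw [Wo, span_mul_span, span_le]
    rintro _ ⟨_, ⟨x, hx, rfl⟩, _, ⟨w, hw', rfl⟩, rfl⟩
    exact subset_span ⟨x, w, hx, hw', by simp⟩
  exact h (mul_mem_mul ha hb)

/-- powers of a matrix with entries in `W_1` have entries in `W_j`. -/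
theorem pow_mem_Wj {F : Type*} [Fintype F] [DecidableEq F] (ι : L → A) (Ω : L → Prop)
    (R : Matrix F F A) (hR : ∀ i j, R i j ∈ Wj k ι Ω 1) (m : ℕ) :
    ∀ i j, (R ^ m) i j ∈ Wj k ι Ω m := by
  induction m with
  | zero =>
    intro i j
    rw [pow_zero, Matrix.one_apply]
    split_ifs
    · exact subset_span ⟨[], rfl, by simp, by simp⟩
    · exact zero_mem _
  | succ m ih =>
    intro i j
    rw [pow_succ, Matrix.mul_apply]
    exact sum_mem fun l _ => Wj_mul ι Ω m 1 (ih i l) (hR l j)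

theorem Wj_eq_bot (ι : L → A) (Ω : L → Prop) (N : ℕ)
    (hlen : ∀ w : List L, N ≤ w.length → (∀ x ∈ w, ¬ Ω x) → ev ι w = 0) (j : ℕ) (hj : N ≤ j) :
    Wj k ι Ω j = ⊥ := by
  rw [Wj, span_eq_bot]
  rintro a ⟨v, hv, hv', rfl⟩
  exact hlen v (hv ▸ hj) hv'

theorem span_image_le_Wj (ι : L → A) (Ω : L → Prop) :
    span k (ι '' {x | ¬ Ω x}) ≤ Wj k ι Ω 1 := by
  apply span_mono
  rintro _ ⟨x, hx, rfl⟩
  exact ⟨[x], rfl, by simpa using hx, by simp⟩

/-- every element of the span of the letters splits. -/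
theorem exists_split (ι : L → A) (Ω : L → Prop) (a : A) (ha : a ∈ span k (Set.range ι)) :
    ∃ a₁ ∈ span k (ι '' {x | Ω x}), ∃ a₂ ∈ span k (ι '' {x | ¬ Ω x}), a₁ + a₂ = a := by
  rw [← mem_sup, ← span_union, ← Set.image_union]
  have : ({x | Ω x} ∪ {x | ¬ Ω x} : Set L) = Set.univ := by
    ext x; simp [em]
  rwa [this, Set.image_univ]

end words

section main

variable {k A A' L : Type*} [CommRing k] [Ring A] [Algebra k A] [Ring A'] [Algebra k A']

/-- elements of degree two are `∑ y, b y * ι y`. -/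
theorem exists_deg_two [Fintype L] (ι : L → A) (q : A)
    (hq : q ∈ span k (Set.range ι) * span k (Set.range ι)) :
    ∃ b : L → A, (∀ y, b y ∈ span k (Set.range ι)) ∧ q = ∑ y, b y * ι y := by
  induction hq using Submodule.mul_induction_on' with
  | mem_mul_mem m hm n hn =>
    obtain ⟨c, hc⟩ := (mem_span_range_iff_exists_fun k).1 hn
    refine ⟨fun y => c y • m, fun y => Submodule.smul_mem _ _ hm, ?_⟩
    rw [← hc, Finset.mul_sum]
    refine Finset.sum_congr rfl fun y _ => ?_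
    rw [smul_mul_assoc, mul_smul_comm]
  | add x _ y _ hx hy =>
    obtain ⟨b, hb, rfl⟩ := hx
    obtain ⟨b', hb', rfl⟩ := hy
    refine ⟨fun y => b y + b' y, fun y => add_mem (hb y) (hb' y), ?_⟩
    rw [← Finset.sum_add_distrib]
    exact Finset.sum_congr rfl fun y _ => (add_mul _ _ _).symm

/-- a matrix `D` with entries in the span of the segments is invertible after `1 -`. -/
theorem isUnit_of_seg (ι : L → A) (Ω : L → Prop)
    (Φ : A' →ₐ[k] A) (A12' : Submodule k A')
    (hΦ : ∀ a' ∈ A12', Φ a' ∈ Seg k ι Ω ⊔ Seg k ι Ω * Seg k ι Ω)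
    (hseg : ∀ (ω : L) (v : List L), Ω ω → (∀ x ∈ v, ¬ Ω x) → ∃ a' ∈ A12',
      ∀ (ω₁ : L) (v₁ : List L) (ω₂ : L) (v₂ : List L), Ω ω₁ → (∀ x ∈ v₁, ¬ Ω x) → Ω ω₂ →
        (∀ x ∈ v₂, ¬ Ω x) →
        ev ι (ω₁ :: v₁) * ev ι (ω :: v) * ev ι (ω₂ :: v₂) =
          ev ι (ω₁ :: v₁) * Φ a' * ev ι (ω₂ :: v₂))
    {H : Type*} [Fintype H] [DecidableEq H]
    (hQ : ∀ B' : Matrix H H A', (∀ i j, B' i j ∈ A12') → IsUnit (1 - B'))
    (D : Matrix H H A) (hD : ∀ i j, D i j ∈ Seg k ι Ω) : IsUnit (1 - D) := by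
  classical
  let Gset : Submodule k A :=
    { carrier := {g | ∀ s₁ ∈ Seg k ι Ω, ∀ s₂ ∈ Seg k ι Ω, s₁ * g * s₂ = 0}
      zero_mem' := by intro s₁ _ s₂ _; simp
      add_mem' := by
        intro a b ha hb s₁ h₁ s₂ h₂
        rw [mul_add, add_mul, ha s₁ h₁ s₂ h₂, hb s₁ h₁ s₂ h₂, add_zero]
      smul_mem' := by
        intro c a ha s₁ h₁ s₂ h₂
        rw [mul_smul_comm, smul_mul_assoc, ha s₁ h₁ s₂ h₂, smul_zero] }
  have hG : ∀ g : A, (∀ (ω₁ : L) (v₁ : List L) (ω₂ : L) (v₂ : List L), Ω ω₁ → (∀ x ∈ v₁, ¬ Ω x) →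
      Ω ω₂ → (∀ x ∈ v₂, ¬ Ω x) → ev ι (ω₁ :: v₁) * g * ev ι (ω₂ :: v₂) = 0) → g ∈ Gset := by
    intro g hg s₁ h₁ s₂ h₂
    induction h₁ using span_induction with
    | zero => simp
    | add a b _ _ ha hb => rw [add_mul, add_mul, ha, hb, add_zero]
    | smul c a _ ha => rw [smul_mul_assoc, smul_mul_assoc, ha, smul_zero]
    | mem a ha =>
      obtain ⟨ω₁, v₁, a1, a2, rfl⟩ := ha
      induction h₂ using span_induction with
      | zero => simp
      | add a b _ _ ha hb => rw [mul_add, ha, hb, add_zero]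
      | smul c a _ ha => rw [mul_smul_comm, ha, smul_zero]
      | mem a ha =>
        obtain ⟨ω₂, v₂, b1, b2, rfl⟩ := ha
        exact hg _ _ _ _ a1 a2 b1 b2
  have hdec : ∀ s ∈ Seg k ι Ω, ∃ a' ∈ A12', s - Φ a' ∈ Gset := by
    intro s hs
    induction hs using span_induction with
    | zero => exact ⟨0, zero_mem _, by simp⟩
    | add a b _ _ ha hb =>
      obtain ⟨a', h1, h2⟩ := ha
      obtain ⟨b', h3, h4⟩ := hb
      refine ⟨a' + b', add_mem h1 h3, ?_⟩
      rw [map_add, add_sub_add_comm]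
      exact add_mem h2 h4
    | smul c a _ ha =>
      obtain ⟨a', h1, h2⟩ := ha
      refine ⟨c • a', Submodule.smul_mem _ _ h1, ?_⟩
      rw [map_smul, ← smul_sub]
      exact Submodule.smul_mem _ _ h2
    | mem a ha =>
      obtain ⟨ω, v, a1, a2, rfl⟩ := ha
      obtain ⟨a', h1, h2⟩ := hseg ω v a1 a2
      refine ⟨a', h1, hG _ ?_⟩
      intro ω₁ v₁ ω₂ v₂ b1 b2 b3 b4
      rw [mul_sub, sub_mul, h2 ω₁ v₁ ω₂ v₂ b1 b2 b3 b4, sub_self]
  -- killing by elements of `Seg + Seg * Seg`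
  have hkillL : ∀ t ∈ Seg k ι Ω ⊔ Seg k ι Ω * Seg k ι Ω, ∀ g ∈ Gset, ∀ s ∈ Seg k ι Ω,
      t * g * s = 0 := by
    intro t ht g hg s hs
    obtain ⟨t1, ht1, t2, ht2, rfl⟩ := mem_sup.1 ht
    rw [add_mul, add_mul, hg t1 ht1 s hs, zero_add]
    clear ht
    induction ht2 using Submodule.mul_induction_on' with
    | mem_mul_mem m _ n hn => rw [mul_assoc m n g, mul_assoc, hg n hn s hs, mul_zero]
    | add x _ y _ hx hy => rw [add_mul, add_mul, hx, hy, add_zero]
  have hkillR : ∀ t ∈ Seg k ι Ω ⊔ Seg k ι Ω * Seg k ι Ω, ∀ g ∈ Gset, ∀ s ∈ Seg k ι Ω,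
      s * g * t = 0 := by
    intro t ht g hg s hs
    obtain ⟨t1, ht1, t2, ht2, rfl⟩ := mem_sup.1 ht
    rw [mul_add, hg s hs t1 ht1, zero_add]
    clear ht
    induction ht2 using Submodule.mul_induction_on' with
    | mem_mul_mem m hm n _ => rw [← mul_assoc, hg s hs m hm, zero_mul]
    | add x _ y _ hx hy => rw [mul_add, hx, hy, add_zero]
  have hdec' := fun i j => hdec (D i j) (hD i j)
  choose B' hB'1 hB'3 using hdec'
  have hV : IsUnit (1 - (Matrix.of B').map Φ) := by
    have := (hQ (Matrix.of B') hB'1).map (RingHom.mapMatrix (m := H) (Φ : A' →+* A))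
    rw [map_sub, map_one] at this
    exact this
  have hent : ∀ (X Z : Matrix H H A), (∀ i m l j, X i m * (D m l - Φ (B' m l)) * Z l j = 0) →
      X * (D - (Matrix.of B').map Φ) * Z = 0 := by
    intro X Z h
    ext i j
    rw [Matrix.mul_apply, Matrix.zero_apply]
    refine Finset.sum_eq_zero fun l _ => ?_
    rw [Matrix.mul_apply, Finset.sum_mul]
    refine Finset.sum_eq_zero fun m _ => ?_
    exact h i m l j
  refine isUnit_sandwich D ((Matrix.of B').map Φ) (hent D D ?_) (hent D _ ?_) (hent _ D ?_) hV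
  · intro i m l j
    exact hB'3 m l _ (hD i m) _ (hD l j)
  · intro i m l j
    exact hkillR _ (hΦ _ (hB'1 l j)) _ (hB'3 m l) _ (hD i m)
  · intro i m l j
    exact hkillL _ (hΦ _ (hB'1 i m)) _ (hB'3 m l) _ (hD l j)

/-- **Abstract cut lemma.** -/
theorem cut_lemma [Fintype L] [DecidableEq L] (ι : L → A) (Ω : L → Prop) [DecidablePred Ω]
    (Φ : A' →ₐ[k] A) (A12' : Submodule k A')
    (hlen : ∃ N, ∀ w : List L, N ≤ w.length → (∀ x ∈ w, ¬ Ω x) → ev ι w = 0)
    (hΦ : ∀ a' ∈ A12', Φ a' ∈ Seg k ι Ω ⊔ Seg k ι Ω * Seg k ι Ω)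
    (hseg : ∀ (ω : L) (v : List L), Ω ω → (∀ x ∈ v, ¬ Ω x) → ∃ a' ∈ A12',
      ∀ (ω₁ : L) (v₁ : List L) (ω₂ : L) (v₂ : List L), Ω ω₁ → (∀ x ∈ v₁, ¬ Ω x) → Ω ω₂ →
        (∀ x ∈ v₂, ¬ Ω x) →
        ev ι (ω₁ :: v₁) * ev ι (ω :: v) * ev ι (ω₂ :: v₂) =
          ev ι (ω₁ :: v₁) * Φ a' * ev ι (ω₂ :: v₂))
    {n : Type*} [Fintype n] [DecidableEq n]
    (hQ : ∀ B' : Matrix (n ⊕ n × {x // Ω x}) (n ⊕ n × {x // Ω x}) A',
      (∀ i j, B' i j ∈ A12') → IsUnit (1 - B'))
    (B : Matrix n n A)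
    (hB : ∀ i j, B i j ∈ span k (Set.range ι) ⊔ span k (Set.range ι) * span k (Set.range ι)) :
    IsUnit (1 - B) := by
  classical
  obtain ⟨N, hN⟩ := hlen
  -- decompose the entries
  have h1 : ∀ i j, ∃ a ∈ span k (Set.range ι), ∃ b : L → A, (∀ y, b y ∈ span k (Set.range ι)) ∧
      B i j = a + ∑ y, b y * ι y := by
    intro i j
    obtain ⟨a, ha, q, hq, haq⟩ := mem_sup.1 (hB i j)
    obtain ⟨b, hb, rfl⟩ := exists_deg_two ι q hq
    exact ⟨a, ha, b, hb, haq.symm⟩
  choose a ha b hb hab using h1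
  -- split into `Ω` and the rest
  have h2 : ∀ i j, ∃ a₁ ∈ span k (ι '' {x | Ω x}), ∃ a₂ ∈ span k (ι '' {x | ¬ Ω x}),
      a₁ + a₂ = a i j := fun i j => exists_split ι Ω _ (ha i j)
  choose a₁ ha₁ a₂ ha₂ ha₁₂ using h2
  have h3 : ∀ i j y, ∃ b₁ ∈ span k (ι '' {x | Ω x}), ∃ b₂ ∈ span k (ι '' {x | ¬ Ω x}),
      b₁ + b₂ = b i j y := fun i j y => exists_split ι Ω _ (hb i j y)
  choose b₁ hb₁ b₂ hb₂ hb₁₂ using h3
  let am : Matrix n n A := Matrix.of a
  let bm : Matrix n (n × L) A := Matrix.of fun i p => b i p.1 p.2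
  let cm : Matrix (n × L) n A := Matrix.of fun p j => if p.1 = j then ι p.2 else 0
  have hBm : B = am + bm * cm := by
    ext i j
    rw [hab i j, Matrix.add_apply, Matrix.mul_apply, Fintype.sum_prod_type]
    congr 1
    rw [Finset.sum_comm]
    refine Finset.sum_congr rfl fun y _ => ?_
    simp only [bm, cm, Matrix.of_apply, mul_ite, mul_zero]
    rw [Finset.sum_ite_eq' Finset.univ j]
    simp
  rw [hBm]
  apply isUnit_schur
  let R : Matrix (n ⊕ n × L) (n ⊕ n × L) A := fromBlocks (Matrix.of a₂) (Matrix.of fun i p => b₂ i p.1 p.2)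
    (Matrix.of fun p j => if Ω p.2 then 0 else (if p.1 = j then ι p.2 else 0)) 0
  let cΩ : Matrix (n × {x // Ω x}) n A := Matrix.of fun p j => if p.1 = j then ι p.2 else 0
  let Pm : Matrix (n × L) (n × {x // Ω x}) A :=
    Matrix.of fun p q => if p.1 = q.1 ∧ p.2 = q.2 then 1 else 0
  let Y : Matrix (n ⊕ n × {x // Ω x}) (n ⊕ n × L) A :=
    fromBlocks (Matrix.of a₁) (Matrix.of fun i p => b₁ i p.1 p.2) cΩ 0
  let P : Matrix (n ⊕ n × L) (n ⊕ n × {x // Ω x}) A := fromBlocks 1 0 0 Pm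
  have hsum : fromBlocks am bm cm 0 = R + P * Y := by
    have hPY : P * Y = fromBlocks (Matrix.of a₁) (Matrix.of fun i p => b₁ i p.1 p.2)
        (Pm * cΩ) 0 := by
      simp only [P, Y, fromBlocks_multiply, Matrix.one_mul, Matrix.zero_mul, Matrix.mul_zero,
        add_zero, zero_add]
    rw [hPY]
    simp only [R, fromBlocks_add]
    rw [fromBlocks_inj]
    refine ⟨?_, ?_, ?_, ?_⟩
    · ext i j
      simp [am, ← ha₁₂ i j, add_comm]
    · ext i j
      simp [bm, ← hb₁₂ i j.1 j.2, add_comm]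
    · ext p j
      rw [Matrix.add_apply, Matrix.mul_apply, Fintype.sum_prod_type]
      simp only [cm, cΩ, Pm, Matrix.of_apply, ite_mul, one_mul, zero_mul]
      by_cases hp : Ω p.2
      · rw [if_pos hp, zero_add]
        rw [Finset.sum_eq_single p.1]
        · rw [Finset.sum_eq_single (⟨p.2, hp⟩ : {x // Ω x})]
          · simp
          · intro q _ hq
            rw [if_neg]
            rintro ⟨-, h⟩
            exact hq (Subtype.ext h.symm)
          · simp
        · intro q _ hq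
          refine Finset.sum_eq_zero fun r _ => ?_
          rw [if_neg]
          rintro ⟨h, -⟩
          exact hq h.symm
        · simp
      · rw [if_neg hp]
        symm
        rw [add_eq_left]
        refine Finset.sum_eq_zero fun q _ => Finset.sum_eq_zero fun r _ => ?_
        rw [if_neg]
        rintro ⟨-, h⟩
        exact hp (h ▸ r.2)
    · ext i j
      simp
  rw [hsum]
  have hR : ∀ i j, R i j ∈ Wj k ι Ω 1 := by
    rintro (i | p) (j | q)
    · exact span_image_le_Wj ι Ω (ha₂ i j)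
    · exact span_image_le_Wj ι Ω (hb₂ i q.1 q.2)
    · simp only [R, fromBlocks_apply₂₁, Matrix.of_apply]
      split_ifs with h1 h2
      · exact zero_mem _
      · exact subset_span ⟨[p.2], rfl, by simpa using h1, by simp⟩
      · exact zero_mem _
    · exact zero_mem _
  have hRN : R ^ N = 0 := by
    ext i j
    have := pow_mem_Wj ι Ω R hR N i j
    rw [Wj_eq_bot ι Ω N hN N le_rfl, mem_bot] at this
    exact this
  let T : Matrix (n ⊕ n × L) (n ⊕ n × L) A := ∑ m ∈ Finset.range N, R ^ m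
  have hT1 : (1 - R) * T = 1 := by
    have := mul_neg_geom_sum R N
    rw [hRN, sub_zero] at this
    exact this
  have hT2 : T * (1 - R) = 1 := by
    have := geom_sum_mul_neg R N
    rw [hRN, sub_zero] at this
    exact this
  have hTmem : ∀ i j, T i j ∈ Wo k ι Ω := by
    intro i j
    have : T i j = ∑ m ∈ Finset.range N, (R ^ m) i j := Matrix.sum_apply _ _ _ _
    rw [this]
    exact sum_mem fun m _ => Wj_le_Wo ι Ω m (pow_mem_Wj ι Ω R hR m i j)
  have hfac : 1 - (R + P * Y) = (1 - R) * (1 - T * P * Y) := by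
    rw [mul_sub, mul_one, Matrix.mul_assoc T P Y, ← mul_assoc, hT1, one_mul]
    abel
  rw [hfac]
  refine IsUnit.mul ⟨⟨1 - R, T, hT1, hT2⟩, rfl⟩ ?_
  apply isUnit_one_sub_mul_rect
  refine isUnit_of_seg ι Ω Φ A12' hΦ hseg hQ _ ?_
  have hPmem : ∀ i j, P i j ∈ Wo k ι Ω := by
    rintro (i | p) (j | q)
    · simp only [P, fromBlocks_apply₁₁, Matrix.one_apply]
      split_ifs
      · exact one_mem_Wo ι Ω
      · exact zero_mem _
    · exact zero_mem _
    · exact zero_mem _
    · simp only [P, Pm, fromBlocks_apply₂₂, Matrix.of_apply]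
      split_ifs
      · exact one_mem_Wo ι Ω
      · exact zero_mem _
  have hTP : ∀ i j, (T * P) i j ∈ Wo k ι Ω := by
    intro i j
    rw [Matrix.mul_apply]
    exact sum_mem fun l _ => Wo_mul ι Ω (hTmem i l) (hPmem l j)
  have hY : ∀ i j, Y i j ∈ span k (ι '' {x | Ω x}) := by
    rintro (i | p) (j | q)
    · exact ha₁ i j
    · exact hb₁ i q.1 q.2
    · simp only [Y, cΩ, fromBlocks_apply₂₁, Matrix.of_apply]
      split_ifs
      · exact subset_span ⟨p.2, p.2.2, rfl⟩
      · exact zero_mem _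
    · exact zero_mem _
  intro i j
  rw [Matrix.mul_apply]
  exact sum_mem fun l _ => span_mul_Wo ι Ω (hY i l) (hTP l j)

end main

end Crest.Agent.R176.Cut660
end

-- ▼ part R176/Dens660
section

/-!
# R176, block (7a'): nilpotence for large label sets (helper660)

`nil_of_sq_zero` : a matrix over a commutative ring with `2 = 0`, all of whose entries have square
zero, satisfies `M ^ (2 * card n) = 0`.

`dens_lemma` : `ι : L → A` letters, `Xu, Xp` two classes of letters; letters of one class commute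
and have square `0`, letters of different classes multiply to `0`.  If every word that is a
concatenation of at least `N` chunks of length at most `4 * card n`, each containing a letter
outside `Xu ∪ Xp`, vanishes, then `1 - B` is a unit for every matrix `B` with entries in the span of
words of length `1` and `2`.

`chunk_run` : an `X`-run in a concatenation of chunks of length at most `g`, each containing a
non-`X` letter, has length at most `2 g`.
-/

set_option autoImplicit false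

namespace Crest.Agent.R176.Cut660

open Matrix Submodule Polynomial

section comm

variable {S : Type*} [CommRing S]

/-- elements of square zero form an ideal in characteristic two -/
def sqIdeal (h2 : (2 : S) = 0) : Ideal S where
  carrier := {s | s * s = 0}
  zero_mem' := by simp
  add_mem' := by
    intro a b ha hb
    have ha' : a * a = 0 := ha
    have hb' : b * b = 0 := hb
    show (a + b) * (a + b) = 0
    have : (a + b) * (a + b) = a * a + b * b + 2 * (a * b) := by ring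
    rw [this, ha', hb', h2]; ring
  smul_mem' := by
    intro c a ha
    have ha' : a * a = 0 := ha
    show (c * a) * (c * a) = 0
    have : (c * a) * (c * a) = c * c * (a * a) := by ring
    rw [this, ha', mul_zero]

theorem mem_sqIdeal {h2 : (2 : S) = 0} {s : S} : s ∈ sqIdeal h2 ↔ s * s = 0 := Iff.rfl

theorem nil_of_sq_zero (h2 : (2 : S) = 0) {n : Type*} [Fintype n] [DecidableEq n]
    (M : Matrix n n S) (hM : ∀ i j, M i j * M i j = 0) : M ^ (2 * Fintype.card n) = 0 := by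
  have h0 : M.map (Ideal.Quotient.mk (sqIdeal h2)) = 0 := by
    ext i j
    rw [Matrix.map_apply, Matrix.zero_apply, Ideal.Quotient.eq_zero_iff_mem]
    exact hM i j
  have h1 : M.charpoly.map (Ideal.Quotient.mk (sqIdeal h2)) =
      (X ^ Fintype.card n : (S ⧸ sqIdeal h2)[X]) := by
    rw [← Matrix.charpoly_map, h0, Matrix.charpoly_zero]
  set q : S[X] := X ^ Fintype.card n - M.charpoly with hq
  have hcoef : ∀ i, q.coeff i ∈ sqIdeal h2 := by
    intro i
    rw [← Ideal.Quotient.eq_zero_iff_mem, ← Polynomial.coeff_map, hq, Polynomial.map_sub, h1,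
      Polynomial.map_pow, Polynomial.map_X, sub_self, Polynomial.coeff_zero]
  have h2' : (2 : S[X]) = 0 := by
    have : (2 : S[X]) = C (2 : S) := (map_ofNat C 2).symm
    rw [this, h2, C_0]
  have hqq : q * q = 0 := by
    rw [← mem_sqIdeal (h2 := h2')]
    rw [Polynomial.as_sum_support q]
    refine Ideal.sum_mem _ fun i _ => ?_
    rw [mem_sqIdeal, Polynomial.monomial_mul_monomial, mem_sqIdeal.1 (hcoef i),
      Polynomial.monomial_zero_right]
  have hMq : M ^ Fintype.card n = aeval M q := by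
    rw [hq, map_sub, Matrix.aeval_self_charpoly, sub_zero, map_pow, aeval_X]
  rw [two_mul, pow_add, hMq, ← map_mul, hqq, map_zero]

end comm

section letters

variable {k A L : Type*} [CommRing k] [Ring A] [Algebra k A]

theorem two_eq_zero_of (A : Type*) [Ring A] [Algebra k A] (h2 : (2 : k) = 0) : (2 : A) = 0 := by
  have : (2 : A) = algebraMap k A 2 := (map_ofNat (algebraMap k A) 2).symm
  rw [this, h2, map_zero]

/-- a matrix with entries in the span of nonempty words in commuting letters of square zero. -/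
theorem nil_letters (h2 : (2 : k) = 0) (ι : L → A) (X : Set L)
    (hc : ∀ x ∈ X, ∀ y ∈ X, ι x * ι y = ι y * ι x) (hs : ∀ x ∈ X, ι x * ι x = 0)
    {n : Type*} [Fintype n] [DecidableEq n] (M : Matrix n n A)
    (hM : ∀ i j, M i j ∈ span k {a | ∃ w : List L, w ≠ [] ∧ (∀ x ∈ w, x ∈ X) ∧ a = ev ι w}) :
    M ^ (2 * Fintype.card n) = 0 := by
  let C : Subalgebra k A := Algebra.adjoin k (ι '' X)
  have hcomm : ∀ a ∈ ι '' X, ∀ b ∈ ι '' X, a * b = b * a := by
    rintro _ ⟨x, hx, rfl⟩ _ ⟨y, hy, rfl⟩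
    exact hc x hx y hy
  have hmc := Algebra.isMulCommutative_adjoin k hcomm
  have hcm : ∀ a b : C, a * b = b * a := fun a b => hmc.is_comm.comm a b
  let _ : CommRing C := { C.toRing with mul_comm := hcm }
  have h2C : (2 : C) = 0 := two_eq_zero_of (k := k) C h2
  -- words lie in `C` and have square zero
  have hword : ∀ w : List L, (∀ x ∈ w, x ∈ X) → ev ι w ∈ C := by
    intro w hw
    exact Subalgebra.list_prod_mem _ (by
      intro a ha
      obtain ⟨x, hx, rfl⟩ := List.mem_map.1 ha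
      exact Algebra.subset_adjoin ⟨x, hw x hx, rfl⟩)
  have hent : ∀ a ∈ span k {a | ∃ w : List L, w ≠ [] ∧ (∀ x ∈ w, x ∈ X) ∧ a = ev ι w},
      ∃ c : C, (c : A) = a ∧ c * c = 0 := by
    intro a ha
    induction ha using span_induction with
    | zero => exact ⟨0, rfl, by simp⟩
    | add a b _ _ ha hb =>
      obtain ⟨c, rfl, hc'⟩ := ha
      obtain ⟨d, rfl, hd'⟩ := hb
      exact ⟨c + d, rfl, (mem_sqIdeal (h2 := h2C)).1 ((sqIdeal h2C).add_mem hc' hd')⟩
    | smul r a _ ha =>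
      obtain ⟨c, rfl, hc'⟩ := ha
      refine ⟨r • c, rfl, ?_⟩
      rw [smul_mul_smul_comm, hc', smul_zero]
    | mem a ha =>
      obtain ⟨w, hw, hw', rfl⟩ := ha
      cases w with
      | nil => exact absurd rfl hw
      | cons x w =>
        have hx : x ∈ X := hw' x (by simp)
        have hwX : ∀ y ∈ w, y ∈ X := fun y hy => hw' y (by simp [hy])
        let c : C := ⟨ι x, Algebra.subset_adjoin ⟨x, hx, rfl⟩⟩
        let d : C := ⟨ev ι w, hword w hwX⟩
        refine ⟨d * c, ?_, ?_⟩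
        · rw [ev_cons]
          have : d * c = c * d := mul_comm _ _
          rw [this]; rfl
        · have hcc : c * c = 0 := Subtype.ext (hs x hx)
          exact (mem_sqIdeal (h2 := h2C)).1
            ((sqIdeal h2C).mul_mem_left d ((mem_sqIdeal (h2 := h2C)).2 hcc))
  choose c hc1 hc2 using fun i j => hent (M i j) (hM i j)
  have hMc : M = (Matrix.of c).map (C.val : C →+* A) := by
    ext i j
    exact (hc1 i j).symm
  have hnil := nil_of_sq_zero h2C (Matrix.of c) hc2
  have hmap : ((Matrix.of c).map (C.val : C →+* A)) ^ (2 * Fintype.card n) =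
      RingHom.mapMatrix (C.val : C →+* A) ((Matrix.of c) ^ (2 * Fintype.card n)) := by
    rw [map_pow]; rfl
  rw [hMc, hmap, hnil, map_zero]

variable (k) in
/-- span of the words satisfying `P` -/
def WP (ι : L → A) (P : List L → Prop) : Submodule k A :=
  span k {a | ∃ w : List L, P w ∧ a = ev ι w}

theorem WP_mono {ι : L → A} {P Q : List L → Prop} (h : ∀ w, P w → Q w) : WP k ι P ≤ WP k ι Q :=
  span_mono fun _ ⟨w, hw, h'⟩ => ⟨w, h w hw, h'⟩

theorem WP_mul {ι : L → A} {P Q R : List L → Prop} (h : ∀ v w, P v → Q w → R (v ++ w)) {a b : A}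
    (ha : a ∈ WP k ι P) (hb : b ∈ WP k ι Q) : a * b ∈ WP k ι R := by
  have h' : WP k ι P * WP k ι Q ≤ WP k ι R := by
    rw [WP, WP, span_mul_span, span_le]
    rintro _ ⟨_, ⟨v, hv, rfl⟩, _, ⟨w, hw, rfl⟩, rfl⟩
    exact subset_span ⟨v ++ w, h v w hv hw, (ev_append _ _ _).symm⟩
  exact h' (mul_mem_mul ha hb)

theorem WP_mul_zero {ι : L → A} {P Q : List L → Prop}
    (h : ∀ v w, P v → Q w → ev ι v * ev ι w = 0) {a b : A}
    (ha : a ∈ WP k ι P) (hb : b ∈ WP k ι Q) : a * b = 0 := by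
  have h' : WP k ι P * WP k ι Q = ⊥ := by
    rw [WP, WP, span_mul_span, span_eq_bot]
    rintro _ ⟨_, ⟨v, hv, rfl⟩, _, ⟨w, hw, rfl⟩, rfl⟩
    exact h v w hv hw
  have := mul_mem_mul ha hb
  rw [h'] at this
  exact (mem_bot k).1 this

theorem WP_eq_zero {ι : L → A} {P : List L → Prop} (h : ∀ w, P w → ev ι w = 0) {a : A}
    (ha : a ∈ WP k ι P) : a = 0 := by
  have h' : WP k ι P = ⊥ := by
    rw [WP, span_eq_bot]
    rintro _ ⟨w, hw, rfl⟩
    exact h w hw
  rw [h'] at ha
  exact (mem_bot k).1 ha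

theorem mat_mul_WP {ι : L → A} {P Q R : List L → Prop} (h : ∀ v w, P v → Q w → R (v ++ w))
    {l m n : Type*} [Fintype m] (M : Matrix l m A) (N : Matrix m n A)
    (hM : ∀ i j, M i j ∈ WP k ι P) (hN : ∀ i j, N i j ∈ WP k ι Q) :
    ∀ i j, (M * N) i j ∈ WP k ι R := by
  intro i j
  rw [Matrix.mul_apply]
  exact sum_mem fun x _ => WP_mul h (hM i x) (hN x j)

/-- **nilpotence for large label sets** -/
theorem dens_lemma (h2 : (2 : k) = 0) (ι : L → A) (Xu Xp : Set L)
    (hcu : ∀ x ∈ Xu, ∀ y ∈ Xu, ι x * ι y = ι y * ι x) (hsu : ∀ x ∈ Xu, ι x * ι x = 0)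
    (hcp : ∀ x ∈ Xp, ∀ y ∈ Xp, ι x * ι y = ι y * ι x) (hsp : ∀ x ∈ Xp, ι x * ι x = 0)
    (hup : ∀ x ∈ Xu, ∀ y ∈ Xp, ι x * ι y = 0) (hpu : ∀ x ∈ Xp, ∀ y ∈ Xu, ι x * ι y = 0)
    {n : Type*} [Fintype n] [DecidableEq n]
    (hdens : ∃ N, ∀ cs : List (List L), N ≤ cs.length →
      (∀ c ∈ cs, c.length ≤ 4 * Fintype.card n ∧ ∃ x ∈ c, x ∉ Xu ∧ x ∉ Xp) →
      ev ι cs.flatten = 0)
    (B : Matrix n n A)
    (hB : ∀ i j, B i j ∈ span k (Set.range ι) ⊔ span k (Set.range ι) * span k (Set.range ι)) :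
    IsUnit (1 - B) := by
  classical
  rcases isEmpty_or_nonempty n with hn | hn
  · exact isUnit_of_subsingleton _
  have hcard : 0 < Fintype.card n := Fintype.card_pos
  set l := Fintype.card n with hl
  let Pu : List L → Prop := fun w => w ≠ [] ∧ (∀ x ∈ w, x ∈ Xu) ∧ w.length ≤ 2
  let Pp : List L → Prop := fun w => w ≠ [] ∧ (∀ x ∈ w, x ∈ Xp) ∧ w.length ≤ 2
  let Pr : List L → Prop := fun w => w.length ≤ 2 ∧ ∃ x ∈ w, x ∉ Xu ∧ x ∉ Xp
  have hle : span k (Set.range ι) ⊔ span k (Set.range ι) * span k (Set.range ι) ≤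
      WP k ι Pu ⊔ WP k ι Pp ⊔ WP k ι Pr := by
    refine sup_le ?_ ?_
    · rw [span_le]
      rintro _ ⟨x, rfl⟩
      by_cases h1 : x ∈ Xu
      · exact mem_sup_left (mem_sup_left (subset_span ⟨[x], ⟨by simp, by simpa using h1, by simp⟩,
          by simp⟩))
      by_cases h2 : x ∈ Xp
      · exact mem_sup_left (mem_sup_right (subset_span ⟨[x], ⟨by simp, by simpa using h2, by simp⟩,
          by simp⟩))
      exact mem_sup_right (subset_span ⟨[x], ⟨by simp, by simpa using ⟨h1, h2⟩⟩, by simp⟩)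
    · rw [span_mul_span, span_le]
      rintro _ ⟨_, ⟨x, rfl⟩, _, ⟨y, rfl⟩, rfl⟩
      have hxy : ι x * ι y = ev ι [x, y] := by simp
      show ι x * ι y ∈ _
      by_cases hx : x ∉ Xu ∧ x ∉ Xp
      · exact mem_sup_right (subset_span ⟨[x, y], ⟨by simp, x, by simp, hx⟩, hxy⟩)
      by_cases hy : y ∉ Xu ∧ y ∉ Xp
      · exact mem_sup_right (subset_span ⟨[x, y], ⟨by simp, y, by simp, hy⟩, hxy⟩)
      rw [← or_iff_not_and_not] at hx hy
      rcases hx with hx | hx <;> rcases hy with hy | hy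
      · refine mem_sup_left (mem_sup_left (subset_span ⟨[x, y], ⟨by simp, ?_, by simp⟩, hxy⟩))
        intro z hz
        simp only [List.mem_cons, List.not_mem_nil, or_false] at hz
        rcases hz with rfl | rfl <;> assumption
      · rw [hup x hx y hy]; exact zero_mem _
      · rw [hpu x hx y hy]; exact zero_mem _
      · refine mem_sup_left (mem_sup_right (subset_span ⟨[x, y], ⟨by simp, ?_, by simp⟩, hxy⟩))
        intro z hz
        simp only [List.mem_cons, List.not_mem_nil, or_false] at hz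
        rcases hz with rfl | rfl <;> assumption
  have hdec : ∀ i j, ∃ a ∈ WP k ι Pu, ∃ b ∈ WP k ι Pp, ∃ c ∈ WP k ι Pr, B i j = a + b + c := by
    intro i j
    obtain ⟨ab, hab, c, hc, h⟩ := mem_sup.1 (hle (hB i j))
    obtain ⟨a, ha, b, hb, rfl⟩ := mem_sup.1 hab
    exact ⟨a, ha, b, hb, c, hc, h.symm⟩
  choose a ha b hb c hc habc using hdec
  let Bu : Matrix n n A := Matrix.of a
  let Bp : Matrix n n A := Matrix.of b
  let Br : Matrix n n A := Matrix.of c
  have hBsum : B = Bu + Bp + Br := by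
    ext i j; exact habc i j
  have hBu : Bu ^ (2 * l) = 0 := by
    refine nil_letters h2 ι Xu hcu hsu Bu ?_
    intro i j
    refine span_mono ?_ (ha i j)
    rintro x ⟨w, hw, rfl⟩
    exact ⟨w, hw.1, hw.2.1, rfl⟩
  have hBp : Bp ^ (2 * l) = 0 := by
    refine nil_letters h2 ι Xp hcp hsp Bp ?_
    intro i j
    refine span_mono ?_ (hb i j)
    rintro x ⟨w, hw, rfl⟩
    exact ⟨w, hw.1, hw.2.1, rfl⟩
  -- mixed products vanish
  have hlast : ∀ (X Y : Set L), (∀ x ∈ X, ∀ y ∈ Y, ι x * ι y = 0) → ∀ v w : List L,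
      v ≠ [] → (∀ x ∈ v, x ∈ X) → w ≠ [] → (∀ x ∈ w, x ∈ Y) → ev ι v * ev ι w = 0 := by
    intro X Y hXY v w hv hvX hw hwY
    rw [← List.dropLast_append_getLast hv, ev_append]
    cases w with
    | nil => exact absurd rfl hw
    | cons y w =>
      rw [ev_cons, ev_cons, ev_nil, mul_one, mul_assoc, ← mul_assoc (ι _) (ι y),
        hXY _ (hvX _ (List.getLast_mem hv)) _ (hwY y (by simp)), zero_mul, mul_zero]
  have hBuBp : Bu * Bp = 0 := by
    ext i j
    rw [Matrix.mul_apply, Matrix.zero_apply]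
    exact Finset.sum_eq_zero fun x _ => WP_mul_zero
      (fun v w hv hw => hlast Xu Xp hup v w hv.1 hv.2.1 hw.1 hw.2.1) (ha i x) (hb x j)
  have hBpBu : Bp * Bu = 0 := by
    ext i j
    rw [Matrix.mul_apply, Matrix.zero_apply]
    exact Finset.sum_eq_zero fun x _ => WP_mul_zero
      (fun v w hv hw => hlast Xp Xu hpu v w hv.1 hv.2.1 hw.1 hw.2.1) (hb i x) (ha x j)
  set Xm : Matrix n n A := Bu + Bp with hXm
  have hpow : ∀ m : ℕ, Xm ^ (m + 1) = Bu ^ (m + 1) + Bp ^ (m + 1) := by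
    intro m
    induction m with
    | zero => simp [hXm]
    | succ m ih =>
      rw [pow_succ, ih, hXm, add_mul, mul_add, mul_add, pow_succ Bu m, pow_succ Bp m,
        mul_assoc (Bu ^ m) Bu Bp, hBuBp, mul_assoc (Bp ^ m) Bp Bu, hBpBu, mul_zero, mul_zero,
        add_zero, zero_add, ← pow_succ, ← pow_succ, ← pow_succ, ← pow_succ]
  have hXnil : Xm ^ (2 * l) = 0 := by
    obtain ⟨m, hm⟩ : ∃ m, 2 * l = m + 1 := ⟨2 * l - 1, by omega⟩
    rw [hm, hpow, ← hm, hBu, hBp, add_zero]
  let T : Matrix n n A := ∑ m ∈ Finset.range (2 * l), Xm ^ m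
  have hT1 : (1 - Xm) * T = 1 := by
    have := mul_neg_geom_sum Xm (2 * l)
    rw [hXnil, sub_zero] at this
    exact this
  have hT2 : T * (1 - Xm) = 1 := by
    have := geom_sum_mul_neg Xm (2 * l)
    rw [hXnil, sub_zero] at this
    exact this
  -- lengths
  have hXent : ∀ i j, Xm i j ∈ WP k ι (fun w => w.length ≤ 2) := by
    intro i j
    have h1 : a i j ∈ WP k ι (fun w => w.length ≤ 2) :=
      WP_mono (P := Pu) (fun w hw => hw.2.2) (ha i j)
    have h2 : b i j ∈ WP k ι (fun w => w.length ≤ 2) :=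
      WP_mono (P := Pp) (fun w hw => hw.2.2) (hb i j)
    exact add_mem h1 h2
  have hXpow : ∀ m : ℕ, ∀ i j, (Xm ^ m) i j ∈ WP k ι (fun w => w.length ≤ 2 * m) := by
    intro m
    induction m with
    | zero =>
      intro i j
      rw [pow_zero, Matrix.one_apply]
      split_ifs
      · exact subset_span ⟨[], by simp, by simp⟩
      · exact zero_mem _
    | succ m ih =>
      rw [pow_succ]
      refine mat_mul_WP ?_ _ _ ih hXent
      intro v w hv hw
      simp only [List.length_append]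
      omega
  have hTent : ∀ i j, T i j ∈ WP k ι (fun w => w.length ≤ 4 * l - 2) := by
    intro i j
    have : T i j = ∑ m ∈ Finset.range (2 * l), (Xm ^ m) i j := Matrix.sum_apply _ _ _ _
    rw [this]
    refine sum_mem fun m hm => ?_
    refine WP_mono ?_ (hXpow m i j)
    intro w hw
    have := Finset.mem_range.1 hm
    omega
  let Pc : List L → Prop := fun w => w.length ≤ 4 * l ∧ ∃ x ∈ w, x ∉ Xu ∧ x ∉ Xp
  have hTBr : ∀ i j, (T * Br) i j ∈ WP k ι Pc := by
    refine mat_mul_WP ?_ _ _ hTent hc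
    rintro v w hv ⟨hw, x, hx, hx'⟩
    refine ⟨?_, x, by simp [hx], hx'⟩
    simp only [List.length_append]
    omega
  have hTBrpow : ∀ m : ℕ, ∀ i j, ((T * Br) ^ m) i j ∈ WP k ι (fun w => ∃ cs : List (List L),
      cs.length = m ∧ (∀ c ∈ cs, Pc c) ∧ w = cs.flatten) := by
    intro m
    induction m with
    | zero =>
      intro i j
      rw [pow_zero, Matrix.one_apply]
      split_ifs
      · exact subset_span ⟨[], ⟨[], rfl, by simp, by simp⟩, by simp⟩
      · exact zero_mem _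
    | succ m ih =>
      rw [pow_succ]
      refine mat_mul_WP ?_ _ _ ih hTBr
      rintro v w ⟨cs, h1, h2, rfl⟩ hw
      refine ⟨cs ++ [w], by simp [h1], ?_, by simp⟩
      intro c hc
      rcases List.mem_append.1 hc with h | h
      · exact h2 c h
      · rw [List.mem_singleton.1 h]; exact hw
  obtain ⟨N, hN⟩ := hdens
  have hnil : (T * Br) ^ N = 0 := by
    ext i j
    refine WP_eq_zero ?_ (hTBrpow N i j)
    rintro w ⟨cs, h1, h2, rfl⟩
    exact hN cs h1.ge h2
  have hfac : 1 - B = (1 - Xm) * (1 - T * Br) := by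
    rw [hBsum, mul_sub, mul_one, ← mul_assoc, hT1, one_mul]
    abel
  rw [hfac]
  exact IsUnit.mul ⟨⟨1 - Xm, T, hT1, hT2⟩, rfl⟩ (IsNilpotent.isUnit_one_sub ⟨N, hnil⟩)

end letters

section comb

variable {L : Type*}



end comb

end Crest.Agent.R176.Cut660
end

-- ▼ part R176/Iter660
section

/-!
# R176, blocks Q3 and the iteration (helper660)

* `Q Λ k n` : `1 - B` is a unit for all `B` of size `n` with entries in `A_1 + A_2` over `Λ`;
* `Q_step` : LEN and KEY for `Λ` give `Q (Λ × Λ) k (n * hh) → Q Λ k n`, `hh` independent of `Λ`;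
* `qall` : base case + LEN + KEY for all `Λ` give `QAll`.
-/

set_option autoImplicit false

namespace Crest.Agent.R176.Iter660

open Crest.Agent.R176.Gen Crest.Agent.R176.Machine Crest.Agent.R176.Machine.Key
open Crest.Agent.R176.Cut660 (cut_lemma Seg dens_lemma)
open Matrix Submodule

/-- `1 - B` is a unit for all matrices of size `n` with entries of degree one and two -/
def Q (Λ : Type) [DecidableEq Λ] [LabelSys Λ] (k : Type) [CommRing k] (n : ℕ) : Prop :=
  ∀ B : Matrix (Fin n) (Fin n) (A (step (Λ := Λ)) k),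
    (∀ i j, B i j ∈ A.deg (step (Λ := Λ)) k 1 ⊔ A.deg (step (Λ := Λ)) k 2) → IsUnit (1 - B)

section Q

variable {Λ : Type} [DecidableEq Λ] [LabelSys Λ] {k : Type} [CommRing k]

theorem Q.fintype {n : ℕ} (h : Q Λ k n) {ι : Type*} [Fintype ι] [DecidableEq ι]
    (hι : Fintype.card ι ≤ n) (B : Matrix ι ι (A (step (Λ := Λ)) k))
    (hB : ∀ i j, B i j ∈ A.deg (step (Λ := Λ)) k 1 ⊔ A.deg (step (Λ := Λ)) k 2) :
    IsUnit (1 - B) := by
  classical
  obtain ⟨p, hp⟩ : ∃ p, n = Fintype.card ι + p := Nat.exists_eq_add_of_le hι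
  let e : ι ⊕ Fin p ≃ Fin n := Fintype.equivFinOfCardEq (by simp [hp])
  have h1 : IsUnit (1 - (fromBlocks B 0 0 (0 : Matrix (Fin p) (Fin p) (A (step (Λ := Λ)) k)))) := by
    have h2 := h (Matrix.reindex e e (fromBlocks B 0 0 0)) (by
      intro i j
      rw [Matrix.reindex_apply, Matrix.submatrix_apply]
      rcases e.symm i with a | a <;> rcases e.symm j with b | b
      · exact hB a b
      · exact zero_mem _
      · exact zero_mem _
      · exact zero_mem _)
    have h3 : IsUnit (Matrix.reindexRingEquiv (A (step (Λ := Λ)) k) e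
        (1 - (fromBlocks B 0 0 (0 : Matrix (Fin p) (Fin p) (A (step (Λ := Λ)) k))))) := by
      rw [map_sub, map_one]
      exact h2
    exact (MulEquiv.isUnit_map (Matrix.reindexRingEquiv (A (step (Λ := Λ)) k) e)).1 h3
  have h2 : (1 : Matrix (ι ⊕ Fin p) (ι ⊕ Fin p) (A (step (Λ := Λ)) k)) - fromBlocks B 0 0 0 =
      fromBlocks (1 - B) 0 0 1 := by
    rw [← fromBlocks_one, sub_eq_add_neg, fromBlocks_neg, fromBlocks_add]
    simp [sub_eq_add_neg]
  rw [h2] at h1
  exact isUnit_of_fromBlocks_one h1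

end Q

/-- number of pending states (independent of `Λ`) -/
noncomputable def hh : ℕ := Nat.card (WK × Option KK) + 1

theorem le_hh {m : ℕ} (h : m ≤ Nat.card (WK × Option KK)) : 1 + m ≤ hh := by
  rw [add_comm]
  exact Nat.succ_le_succ h

section cut

variable (Λ : Type) [Fintype Λ] [DecidableEq Λ] [LabelSys Λ] (k : Type) [CommRing k]

open Classical in
/-- injection of the admissible unlocked walls into a set independent of `Λ` -/
theorem card_Om : Fintype.card {x : Let Λ // Om x} ≤ Nat.card (WK × Option KK) := by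
  have hwall : ∀ x : {x : Let Λ // Om x}, ∃ w : WK, x.1.1 = .W w := fun x => by
    obtain ⟨w, hw, -⟩ := x.2
    exact ⟨w, hw⟩
  choose f hf using hwall
  rw [← Nat.card_eq_fintype_card]
  refine Nat.card_le_card_of_injective (fun x => (f x, decode x.1.2)) ?_
  intro x y hxy
  rw [Prod.mk.injEq] at hxy
  obtain ⟨h1, h2⟩ := hxy
  have hadm : ∀ u v : {x : Let Λ // Om x}, decode u.1.2 = decode v.1.2 → u.1.2 = v.1.2 := by
    intro u v huv
    obtain ⟨w, -, -, hu⟩ := u.2
    obtain ⟨w', -, -, hv⟩ := v.2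
    rcases hu with hu | ⟨κ, hu⟩
    · rcases hv with hv | ⟨κ', hv⟩
      · rw [hu, hv]
      · rw [hu, hv, LabelSys.decode_z, LabelSys.decode_code] at huv
        exact absurd huv (by simp)
    · rw [hu, LabelSys.decode_code] at huv
      rw [hu]
      exact (LabelSys.code_decode _ _ huv.symm).symm
  refine Subtype.ext (Prod.ext ?_ (hadm x y h2))
  rw [hf x, hf y, h1]

/-- the letters of `A` -/
noncomputable abbrev lt : Let Λ → A (step (Λ := Λ)) k := (A.model (step (Λ := Λ)) k).f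


/-- (LEN) for the algebra -/
def LenA : Prop := ∃ N, ∀ w : List (Let Λ), N ≤ w.length → (∀ x ∈ w, ¬ Om x) →
  A.w (step (Λ := Λ)) k w = 0

/-- the homomorphism of the simulation -/
noncomputable def PhiA : A (step (Λ := Λ × Λ)) k →ₐ[k] A (step (Λ := Λ)) k :=
  A.lift (Sim.sq (A.model (step (Λ := Λ)) k))

theorem PhiA_w (w : List (Let (Λ × Λ))) :
    PhiA Λ k (A.w (step (Λ := Λ × Λ)) k w) = A.w (step (Λ := Λ)) k (Sim.Phi w) := by
  unfold PhiA
  rw [A.lift_w, ← Sim.ev_Phi]
  rfl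

/-- (KEY) for the algebra -/
def KeyA : Prop := ∀ (ω : Let Λ) (v : List (Let Λ)), Om ω → (∀ x ∈ v, ¬ Om x) →
  ∃ a' ∈ A.deg (step (Λ := Λ × Λ)) k 1 ⊔ A.deg (step (Λ := Λ × Λ)) k 2,
    ∀ (ω₁ : Let Λ) (v₁ : List (Let Λ)) (ω₂ : Let Λ) (v₂ : List (Let Λ)),
      Om ω₁ → (∀ x ∈ v₁, ¬ Om x) → Om ω₂ → (∀ x ∈ v₂, ¬ Om x) →
        A.w (step (Λ := Λ)) k (ω₁ :: v₁) * A.w (step (Λ := Λ)) k (ω :: v) *
          A.w (step (Λ := Λ)) k (ω₂ :: v₂) =
        A.w (step (Λ := Λ)) k (ω₁ :: v₁) * PhiA Λ k a' * A.w (step (Λ := Λ)) k (ω₂ :: v₂)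

variable {Λ k}

theorem phi_letter_mem (x : Let (Λ × Λ)) :
    A.w (step (Λ := Λ)) k (Sim.PhiL x) ∈ Seg k (lt Λ k) Om := by
  refine subset_span ⟨(.W .w0, z), (Sim.PhiL x).tail, ⟨.w0, rfl, rfl, Or.inl rfl⟩, ?_, ?_⟩
  · intro y hy
    rintro ⟨w, hw, -⟩
    simp only [Sim.PhiL, List.tail_cons, List.mem_cons, List.mem_map] at hy
    rcases hy with rfl | ⟨p, -, rfl⟩
    · simp at hw
    · simp at hw
  · rfl

theorem phi_mem (a' : A (step (Λ := Λ × Λ)) k)
    (h : a' ∈ A.deg (step (Λ := Λ × Λ)) k 1 ⊔ A.deg (step (Λ := Λ × Λ)) k 2) :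
    PhiA Λ k a' ∈ Seg k (lt Λ k) Om ⊔ Seg k (lt Λ k) Om * Seg k (lt Λ k) Om := by
  have hle : A.deg (step (Λ := Λ × Λ)) k 1 ⊔ A.deg (step (Λ := Λ × Λ)) k 2 ≤
      (Seg k (lt Λ k) Om ⊔ Seg k (lt Λ k) Om * Seg k (lt Λ k) Om).comap
        (PhiA Λ k).toLinearMap := by
    refine sup_le ?_ ?_
    · refine span_le.2 ?_
      rintro _ ⟨w, hw, rfl⟩
      obtain ⟨x, rfl⟩ := List.length_eq_one_iff.1 hw
      refine mem_sup_left ?_
      show PhiA Λ k _ ∈ _
      rw [PhiA_w]
      have : Sim.Phi [x] = Sim.PhiL x := by simp [Sim.Phi]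
      rw [this]
      exact phi_letter_mem x
    · refine span_le.2 ?_
      rintro _ ⟨w, hw, rfl⟩
      obtain ⟨x, y, rfl⟩ := List.length_eq_two.1 hw
      refine mem_sup_right ?_
      show PhiA Λ k _ ∈ _
      rw [PhiA_w]
      have : Sim.Phi [x, y] = Sim.PhiL x ++ Sim.PhiL y := by simp [Sim.Phi]
      rw [this, A.w_append]
      exact mul_mem_mul (phi_letter_mem x) (phi_letter_mem y)
  exact hle h

theorem deg_le_span :
    A.deg (step (Λ := Λ)) k 1 ⊔ A.deg (step (Λ := Λ)) k 2 ≤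
      span k (Set.range (lt Λ k)) ⊔ span k (Set.range (lt Λ k)) * span k (Set.range (lt Λ k)) := by
  refine sup_le ?_ ?_
  · refine span_le.2 ?_
    rintro _ ⟨w, hw, rfl⟩
    obtain ⟨x, rfl⟩ := List.length_eq_one_iff.1 hw
    rw [A.w_singleton]
    exact mem_sup_left (subset_span ⟨x, rfl⟩)
  · refine span_le.2 ?_
    rintro _ ⟨w, hw, rfl⟩
    obtain ⟨x, y, rfl⟩ := List.length_eq_two.1 hw
    rw [A.w_cons, A.w_singleton]
    exact mem_sup_right (mul_mem_mul (subset_span ⟨x, rfl⟩) (subset_span ⟨y, rfl⟩))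

/-- **Q3** : one level. -/
theorem Q_step (hlen : LenA Λ k) (hkey : KeyA Λ k) (n : ℕ) (hQ : Q (Λ × Λ) k (n * hh)) :
    Q Λ k n := by
  classical
  intro B hB
  refine cut_lemma (lt Λ k) Om (PhiA Λ k)
    (A.deg (step (Λ := Λ × Λ)) k 1 ⊔ A.deg (step (Λ := Λ × Λ)) k 2) hlen phi_mem hkey ?_ B
    (fun i j => deg_le_span (hB i j))
  intro B' hB'
  refine hQ.fintype ?_ B' hB'
  have h1 := card_Om Λ
  have h2 : Fintype.card (Fin n ⊕ Fin n × {x : Let Λ // Om x}) =
      n * (1 + Fintype.card {x : Let Λ // Om x}) := by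
    rw [Fintype.card_sum, Fintype.card_prod, Fintype.card_fin, Nat.mul_add, Nat.mul_one]
  have h3 : n * (1 + Fintype.card {x : Let Λ // Om x}) ≤ n * hh :=
    Nat.mul_le_mul_left _ (le_hh h1)
  calc _ = n * (1 + Fintype.card {x : Let Λ // Om x}) := by convert h2
    _ ≤ n * hh := h3

end cut

/-- the tower -/
theorem Q_iter {k : Type} [CommRing k] (c : ℕ)
    (BASE : ∀ (Λ : Type) [Fintype Λ] [DecidableEq Λ] [LabelSys Λ] (n : ℕ),
      c * n + c ≤ Fintype.card Λ → Q Λ k n)
    (LEN : ∀ (Λ : Type) [Fintype Λ] [DecidableEq Λ] [LabelSys Λ], LenA Λ k)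
    (KEY : ∀ (Λ : Type) [Fintype Λ] [DecidableEq Λ] [LabelSys Λ], KeyA Λ k) (r : ℕ) :
    ∀ (Λ : Type) [Fintype Λ] [DecidableEq Λ] [LabelSys Λ] (n : ℕ),
      c * (n * hh ^ r) + c ≤ Fintype.card Λ ^ (2 ^ r) → Q Λ k n := by
  induction r with
  | zero =>
    intro Λ _ _ _ n h
    exact BASE Λ n (by simpa using h)
  | succ r ih =>
    intro Λ _ _ _ n h
    refine Q_step (LEN Λ) (KEY Λ) n (ih (Λ × Λ) (n * hh) ?_)
    rw [Fintype.card_prod, ← pow_two, ← pow_mul, ← pow_succ']
    rw [pow_succ'] at h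
    rw [mul_assoc, ← mul_assoc]
    rw [← mul_assoc] at h
    exact h

/-- exponentials are beaten by double exponentials -/
theorem growth (c n h : ℕ) (N : ℕ) (hN : 2 ≤ N) : ∃ r : ℕ, c * (n * h ^ r) + c ≤ N ^ (2 ^ r) := by
  -- `c (n h^r) + c ≤ (c n + c + h + 2) ^ (r + 1) ≤ 2 ^ (s (r+1))`
  obtain ⟨s, hs⟩ : ∃ s : ℕ, c * n + c + h + 2 ≤ 2 ^ s :=
    ⟨c * n + c + h + 2, Nat.lt_two_pow_self.le⟩
  obtain ⟨r, hr⟩ : ∃ r : ℕ, s * (r + 1) ≤ 2 ^ r := by
    refine ⟨3 * s + 3, ?_⟩
    have h1 : s + 1 < 2 ^ (s + 1) := Nat.lt_two_pow_self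
    have h2 : 2 ^ (3 * s + 3) = (2 ^ (s + 1)) ^ 3 := by rw [← pow_mul]; congr 1; omega
    rw [h2]
    have h3 : (s + 2) ^ 3 ≤ (2 ^ (s + 1)) ^ 3 := Nat.pow_le_pow_left h1 3
    refine le_trans ?_ h3
    nlinarith [sq_nonneg s, Nat.zero_le (s ^ 3)]
  refine ⟨r, ?_⟩
  calc c * (n * h ^ r) + c ≤ (c * n + c + h + 2) ^ (r + 1) := by
        have h1 : h ^ r ≤ (c * n + c + h + 2) ^ r := Nat.pow_le_pow_left (by omega) r
        have h2 : 1 ≤ (c * n + c + h + 2) ^ r := Nat.one_le_pow _ _ (by omega)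
        calc c * (n * h ^ r) + c = c * n * h ^ r + c * 1 := by ring
          _ ≤ c * n * (c * n + c + h + 2) ^ r + c * (c * n + c + h + 2) ^ r :=
            Nat.add_le_add (Nat.mul_le_mul_left _ h1) (Nat.mul_le_mul_left _ h2)
          _ = (c * n + c) * (c * n + c + h + 2) ^ r := by ring
          _ ≤ (c * n + c + h + 2) * (c * n + c + h + 2) ^ r := Nat.mul_le_mul_right _ (by omega)
          _ = (c * n + c + h + 2) ^ (r + 1) := by ring
    _ ≤ (2 ^ s) ^ (r + 1) := Nat.pow_le_pow_left hs _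
    _ = 2 ^ (s * (r + 1)) := by rw [← pow_mul]
    _ ≤ 2 ^ (2 ^ r) := Nat.pow_le_pow_right (by norm_num) hr
    _ ≤ N ^ (2 ^ r) := Nat.pow_le_pow_left hN _

/-- the final form -/
theorem qall (c : ℕ)
    (BASE : ∀ (k : Type) [CommRing k] [CharP k 2] (Λ : Type) [Fintype Λ] [DecidableEq Λ]
      [LabelSys Λ] (n : ℕ), c * n + c ≤ Fintype.card Λ → Q Λ k n)
    (LEN : ∀ (k : Type) [CommRing k] [CharP k 2] (Λ : Type) [Fintype Λ] [DecidableEq Λ]
      [LabelSys Λ], LenA Λ k)
    (KEY : ∀ (k : Type) [CommRing k] [CharP k 2] (Λ : Type) [Fintype Λ] [DecidableEq Λ]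
      [LabelSys Λ], KeyA Λ k)
    (Λ : Type) [Fintype Λ] [DecidableEq Λ] [LabelSys Λ] : QAll (step (Λ := Λ)) := by
  intro k _ _ n B hB
  have h2 : 2 ≤ Fintype.card Λ := by
    have : Function.Injective (fun b : Bool => if b then (z : Λ) else code (.W .w0)) := by
      have hne : (z : Λ) ≠ code (.W .w0) := by
        intro h
        have h1 := LabelSys.decode_z (Λ := Λ)
        rw [h, LabelSys.decode_code] at h1
        exact absurd h1 (by simp)
      intro a b hab
      cases a <;> cases b <;> simp_all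
    simpa using Fintype.card_le_of_injective _ this
  obtain ⟨r, hr⟩ := growth c n hh (Fintype.card Λ) h2
  exact Q_iter c (fun Λ _ _ _ n h => BASE k Λ n h) (fun Λ _ _ _ => LEN k Λ)
    (fun Λ _ _ _ => KEY k Λ) r Λ n hr B hB

end Crest.Agent.R176.Iter660
end

-- ▼ part R176/Machine/Key593
section

/-!
# Row 176, part A, block (6): KEY (helper593)

Between two segments every segment equals a word of length one or two of the next level, or zero.
-/

set_option autoImplicit false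

namespace Crest.Agent.R176.Machine.Key

open Gen Sim

section runs
variable {Λ : Type} [DecidableEq Λ] [LabelSys Λ]

/-- codes -/
def IsCode (a : Λ) : Prop := ∃ κ, a = code κ

theorem ph_cases : ∀ φ : Ph, φ ≠ 10 → ¬ φ.val < 6 → φ = 6 ∨ φ = 7 ∨ φ = 8 ∨ φ = 9 := by decide

theorem cstep_h {φ : Ph} (hφ : φ ≠ 10) {d : Data} {a b : Cont Λ} {p : Data × Cont Λ × Cont Λ}
    (h : cstep φ d a b = some p) : p.2.1.h = a.h ∧ p.2.2.h = b.h := by
  by_cases h6 : φ.val < 6
  · rw [cstep_lt6 h6] at h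
    cases h
    exact ⟨rfl, rfl⟩
  · rcases ph_cases φ hφ h6 with rfl | rfl | rfl | rfl
    · rw [cstep_6] at h; cases h; exact ⟨rfl, rfl⟩
    · rw [cstep_7] at h; cases h; exact ⟨rfl, rfl⟩
    · rw [cstep_8] at h
      obtain ⟨q, -, rfl⟩ := Option.map_eq_some_iff.1 h
      exact ⟨rfl, rfl⟩
    · rw [cstep_9] at h
      by_cases hb : bit d = true
      · rw [if_pos hb] at h
        cases h; exact ⟨rfl, rfl⟩
      · rw [if_neg hb] at h
        cases hi : (instr d).2 with
        | ID => 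
          rw [hi] at h
          obtain ⟨q, -, rfl⟩ := Option.map_eq_some_iff.1 h
          exact ⟨rfl, rfl⟩
        | SW => 
          rw [hi] at h
          obtain ⟨q, -, rfl⟩ := Option.map_eq_some_iff.1 h
          exact ⟨rfl, rfl⟩
        | ER => 
          rw [hi] at h
          obtain ⟨q, -, rfl⟩ := Option.map_eq_some_iff.1 h
          exact ⟨rfl, rfl⟩
        | APP j =>
          rw [hi] at h
          simp only at h
          by_cases h2 : a.y2 ≠ z ∨ b.y2 ≠ z
          · rw [if_pos h2] at h; cases h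
          · rw [if_neg h2] at h; cases h; exact ⟨rfl, rfl⟩

theorem app_codes {j : Bool} {a b : Λ} {q : Λ × Λ} (h : (AC.APP j).eval a b = some q) :
    IsCode a ∧ IsCode b ∧ IsCode q.1 ∧ IsCode q.2 := by
  simp only [AC.eval] at h
  cases ha : decode a with
  | none => rw [ha] at h; exact absurd h (by simp)
  | some κ =>
    cases hb : decode b with
    | none => rw [ha, hb] at h; exact absurd h (by simp)
    | some κ' =>
      rw [ha, hb] at h
      obtain ⟨p, -, rfl⟩ := Option.map_eq_some_iff.1 h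
      exact ⟨⟨κ, LabelSys.code_decode _ _ ha⟩, ⟨κ', LabelSys.code_decode _ _ hb⟩,
        ⟨p.1, rfl⟩, ⟨p.2, rfl⟩⟩

theorem runL_codes (l : List Ph) (hl : ∀ φ ∈ l, φ ≠ 10) :
    ∀ (d : Data) (a b : Cont Λ) (p : Cont Λ × Cont Λ), runL (l ++ [10]) d a b = some p →
      IsCode a.h ∧ IsCode b.h ∧ IsCode p.1.h ∧ IsCode p.2.h := by
  induction l with
  | nil =>
    intro d a b p h
    simp only [List.nil_append, runL] at h
    rw [cstep_10] at h
    obtain ⟨q, hq, hp⟩ := Option.bind_eq_some_iff.1 h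
    obtain ⟨r, hr, rfl⟩ := Option.map_eq_some_iff.1 hq
    cases hp
    exact app_codes hr
  | cons φ l ih =>
    intro d a b p h
    rw [List.cons_append] at h
    simp only [runL] at h
    obtain ⟨q, hq, hp⟩ := Option.bind_eq_some_iff.1 h
    have h1 := cstep_h (hl φ (by simp)) hq
    have h2 := ih (fun ψ hψ => hl ψ (by simp [hψ])) _ _ _ _ hp
    rw [h1.1, h1.2] at h2
    exact h2

theorem drop_eq : ∀ φ : Ph, allPh.drop φ.val = (allPh.drop φ.val).dropLast ++ [10] ∧
    ∀ ψ ∈ (allPh.drop φ.val).dropLast, ψ ≠ 10 := by decide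

theorem runL_drop (φ : Ph) (d : Data) (a b : Cont Λ) (p : Cont Λ × Cont Λ)
    (h : runL (allPh.drop φ.val) d a b = some p) :
    IsCode a.h ∧ IsCode b.h ∧ IsCode p.1.h ∧ IsCode p.2.h := by
  rw [(drop_eq φ).1] at h
  exact runL_codes _ (drop_eq φ).2 _ _ _ _ h

theorem runL_all (d : Data) (a b : Cont Λ) (p : Cont Λ × Cont Λ)
    (h : runL allPh d a b = some p) :
    IsCode a.h ∧ IsCode b.h ∧ IsCode p.1.h ∧ IsCode p.2.h :=
  runL_drop 0 d a b p h

end runs

section split
variable {Λ : Type}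

theorem split_left (v : List (Let Λ)) : (∀ x ∈ v, ¬ IsW x) ∨
    ∃ (t : List (Let Λ)) (w : WK) (a : Λ) (v' : List (Let Λ)),
      v = t ++ ((.W w, a) : Let Λ) :: v' ∧ ∀ x ∈ t, ¬ IsW x := by
  induction v with
  | nil => left; simp
  | cons x v ih =>
    by_cases hx : IsW x
    · right
      obtain ⟨κ, a⟩ := x
      obtain ⟨w, hw⟩ := hx
      simp only at hw
      subst hw
      exact ⟨[], w, a, v, rfl, by simp⟩
    · rcases ih with h | ⟨t, w, a, v', rfl, ht⟩
      · left
        intro y hy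
        rcases List.mem_cons.1 hy with rfl | hy
        · exact hx
        · exact h y hy
      · right
        refine ⟨x :: t, w, a, v', rfl, ?_⟩
        intro y hy
        rcases List.mem_cons.1 hy with rfl | hy
        · exact hx
        · exact ht y hy

theorem split_right (v : List (Let Λ)) : (∀ x ∈ v, ¬ IsW x) ∨
    ∃ (p : List (Let Λ)) (w : WK) (a : Λ) (t : List (Let Λ)),
      v = p ++ ((.W w, a) : Let Λ) :: t ∧ ∀ x ∈ t, ¬ IsW x := by
  induction v using List.reverseRecOn with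
  | nil => left; simp
  | append_singleton v x ih =>
    by_cases hx : IsW x
    · right
      obtain ⟨κ, a⟩ := x
      obtain ⟨w, hw⟩ := hx
      simp only at hw
      subst hw
      exact ⟨v, w, a, [], rfl, by simp⟩
    · rcases ih with h | ⟨p, w, a, t, rfl, ht⟩
      · left
        intro y hy
        rcases List.mem_append.1 hy with hy | hy
        · exact h y hy
        · rw [List.mem_singleton.1 hy]; exact hx
      · right
        refine ⟨p, w, a, t ++ [x], by simp, ?_⟩
        intro y hy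
        rcases List.mem_append.1 hy with hy | hy
        · exact ht y hy
        · rw [List.mem_singleton.1 hy]; exact hx

end split

variable {Λ : Type} [Fintype Λ] [DecidableEq Λ] [LabelSys Λ] {M : Type*} [MonoidWithZero M]
  (m : Model (step (Λ := Λ)) M)

/-- `R` starts with the wall `w` -/
def Sw (w : WK) (R : M) : Prop := ∃ (b : Λ) (r : M), R = m.f (.W w, b) * r

theorem Sw_word (w : WK) (a : Λ) (t : List (Let Λ)) (R : M) :
    Sw m w (m.ev (((.W w, a) : Let Λ) :: t) * R) := by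
  refine ⟨a, m.ev t * R, ?_⟩
  rw [Model.ev_cons, mul_assoc]

theorem Sw_blk (c : Option (Ph × Data)) (hm : HM) (q : Cont Λ) (R : M) :
    Sw m (homeW c) (m.ev (blkL c hm q) * R) := Sw_word m _ _ _ _

theorem lock_none : locked (homeW none) = false := rfl

theorem lock_some {φ : Ph} (d : Data) (hφ : φ ≠ 0) : locked (homeW (some (φ, d))) = true := by
  simp [homeW, locked, hφ]

/-- contextual form of `LockP` -/
theorem lock_zero {c : Option (Ph × Data)} {hm : HM} {q : Cont Λ} {w' : WK} {R : M}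
    (hR : Sw m w' R) (h : ¬ (hm = .l ↔ locked w' = true)) : m.ev (blkL c hm q) * R = 0 := by
  obtain ⟨b, r, rfl⟩ := hR
  have := lockP m c hm q w' b h
  rw [Model.ev_append, Model.ev_singleton] at this
  rw [← mul_assoc, this, zero_mul]

/-- result of the own normalisation of the block `(W w, a) :: t` -/
def NF (w : WK) (a : Λ) (t : List (Let Λ)) (c : Option (Ph × Data)) (hm : HM) (q : Cont Λ) :
    Prop :=
  (∀ (w' : WK) (R : M), Sw m w' R → m.ev (((.W w, a) : Let Λ) :: t) * R = m.ev (blkL c hm q) * R) ∧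
    ((c = none ∧ locked w = false ∧ (a = z ∨ a = q.h) ∧ (hm = .f ∨ hm = .l)) ∨
     (∃ φ d, φ ≠ 0 ∧ c = some (φ, d) ∧ locked w = true ∧ hm = .b))

theorem norm (hN : NormP m) (w : WK) (a : Λ) {t : List (Let Λ)} (ht : ∀ x ∈ t, ¬ IsW x) :
    (∀ (w' : WK) (R : M), Sw m w' R → m.ev (((.W w, a) : Let Λ) :: t) * R = 0) ∨
    ∃ c hm q, NF m w a t c hm q := by
  rcases hN w a t ht with h | ⟨c, hm, q, -, h, hc⟩
  · left
    rintro w' R ⟨b, r, rfl⟩
    have := h w' b
    rw [Model.ev_append, Model.ev_singleton] at this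
    rw [← mul_assoc, this, zero_mul]
  · right
    refine ⟨c, hm, q, ?_, hc⟩
    rintro w' R ⟨b, r, rfl⟩
    have := h w' b
    rw [Model.ev_append, Model.ev_singleton, Model.ev_append, Model.ev_singleton] at this
    rw [← mul_assoc, this, mul_assoc]

/-- an unlocked block is zero or at rest -/
theorem norm_unlocked (hN : NormP m) {w : WK} (hw : locked w = false) (a : Λ)
    {t : List (Let Λ)} (ht : ∀ x ∈ t, ¬ IsW x) :
    (∀ (w' : WK) (R : M), Sw m w' R → m.ev (((.W w, a) : Let Λ) :: t) * R = 0) ∨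
    ∃ q : Cont Λ, (a = z ∨ a = q.h) ∧
      ((∀ (w' : WK) (R : M), Sw m w' R →
          m.ev (((.W w, a) : Let Λ) :: t) * R = m.ev (blkL none .f q) * R) ∨
       (∀ (w' : WK) (R : M), Sw m w' R →
          m.ev (((.W w, a) : Let Λ) :: t) * R = m.ev (blkL none .l q) * R)) := by
  rcases norm m hN w a ht with h | ⟨c, hm, q, h, hc⟩
  · exact Or.inl h
  · rcases hc with ⟨rfl, -, ha, rfl | rfl⟩ | ⟨φ, d, hφ, rfl, hl, rfl⟩
    · exact Or.inr ⟨q, ha, Or.inl h⟩
    · exact Or.inr ⟨q, ha, Or.inr h⟩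
    · rw [hw] at hl; exact absurd hl (by simp)

/-- a locked block is zero or busy -/
theorem norm_locked (hN : NormP m) {w : WK} (hw : locked w = true) (a : Λ)
    {t : List (Let Λ)} (ht : ∀ x ∈ t, ¬ IsW x) :
    (∀ (w' : WK) (R : M), Sw m w' R → m.ev (((.W w, a) : Let Λ) :: t) * R = 0) ∨
    ∃ (q : Cont Λ) (φ : Ph) (d : Data), φ ≠ 0 ∧
      (∀ (w' : WK) (R : M), Sw m w' R →
          m.ev (((.W w, a) : Let Λ) :: t) * R = m.ev (blkL (some (φ, d)) .b q) * R) := by
  rcases norm m hN w a ht with h | ⟨c, hm, q, h, hc⟩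
  · exact Or.inl h
  · rcases hc with ⟨rfl, hl, ha, -⟩ | ⟨φ, d, hφ, rfl, hl, rfl⟩
    · rw [hw] at hl; exact absurd hl (by simp)
    · exact Or.inr ⟨q, φ, d, hφ, h⟩

/-- two resting blocks, one label of `H` is not a code -/
theorem start_zero {a b : Cont Λ} (h : ¬ (IsCode a.h ∧ IsCode b.h)) (R : M) :
    m.ev (blkL none .f a) * (m.ev (blkL none .f b) * R) = 0 := by
  rw [← mul_assoc, ← Model.ev_append, startP m (fun _ => false)]
  cases hr : runL allPh (fun _ => false) a b with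
  | none => simp
  | some p => exact absurd ⟨(runL_all _ _ _ _ hr).1, (runL_all _ _ _ _ hr).2.1⟩ h

/-- an engaged pair: zero or two resting blocks with codes -/
theorem run_pair (φ : Ph) (d : Data) (hφ : φ ≠ 0) (a b : Cont Λ) :
    (∀ R : M, m.ev (blkL none .l a) * (m.ev (blkL (some (φ, d)) .b b) * R) = 0) ∨
    ∃ a' b' : Cont Λ, IsCode a.h ∧ IsCode b.h ∧ IsCode a'.h ∧ IsCode b'.h ∧
      ∀ R : M, m.ev (blkL none .l a) * (m.ev (blkL (some (φ, d)) .b b) * R) =
        m.ev (blkL none .f a') * (m.ev (blkL none .f b') * R) := by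
  cases hr : runL (allPh.drop φ.val) d a b with
  | none =>
    left
    intro R
    rw [← mul_assoc, ← Model.ev_append, runP m φ d a b hφ, hr]
    simp
  | some p =>
    right
    obtain ⟨h1, h2, h3, h4⟩ := runL_drop _ _ _ _ _ hr
    refine ⟨p.1, p.2, h1, h2, h3, h4, fun R => ?_⟩
    rw [← mul_assoc, ← Model.ev_append, runP m φ d a b hφ, hr]
    show m.ev (_ ++ _) * R = _
    rw [Model.ev_append, mul_assoc]

/-! ### the kills -/

/-- last block of a word starting with a wall -/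
theorem split_last (w : WK) (a : Λ) (v : List (Let Λ)) :
    ∃ (p : List (Let Λ)) (w' : WK) (a' : Λ) (t : List (Let Λ)),
      ((.W w, a) : Let Λ) :: v = p ++ ((.W w', a') : Let Λ) :: t ∧ (∀ x ∈ t, ¬ IsW x) ∧
        ((p = [] ∧ w' = w) ∨ ∃ v', p = ((.W w, a) : Let Λ) :: v') := by
  rcases split_right v with h | ⟨p, w', a', t, rfl, ht⟩
  · exact ⟨[], w, a, v, rfl, h, Or.inl ⟨rfl, rfl⟩⟩
  · exact ⟨((.W w, a) : Let Λ) :: p, w', a', t, rfl, ht, Or.inr ⟨p, rfl⟩⟩

/-- an engaged busy block is zero, or it is preceded by its idle partner; afterwards both blocks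
rest and carry codes -/
theorem busy_left (hN : NormP m) (w : WK) (a : Λ) {t : List (Let Λ)} (ht : ∀ x ∈ t, ¬ IsW x)
    (φ : Ph) (d : Data) (hφ : φ ≠ 0) (b : Cont Λ) :
    (∀ R : M, m.ev (((.W w, a) : Let Λ) :: t) * (m.ev (blkL (some (φ, d)) .b b) * R) = 0) ∨
    ∃ a' b' : Cont Λ, IsCode a'.h ∧ IsCode b'.h ∧ locked w = false ∧ Adm a ∧
      ∀ R : M, m.ev (((.W w, a) : Let Λ) :: t) * (m.ev (blkL (some (φ, d)) .b b) * R) =
        m.ev (blkL none .f a') * (m.ev (blkL none .f b') * R) := by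
  have hS : ∀ R : M, Sw m (homeW (some (φ, d))) (m.ev (blkL (some (φ, d)) .b b) * R) :=
    fun R => Sw_blk m _ _ _ _
  have hl : locked (homeW (some (φ, d))) = true := lock_some d hφ
  cases hw : locked w with
  | false =>
    rcases norm_unlocked m hN hw a ht with h | ⟨q, ha, h | h⟩
    · exact Or.inl fun R => h _ _ (hS R)
    · left
      intro R
      rw [h _ _ (hS R)]
      exact lock_zero m (hS R) (by simp [hl])
    · rcases run_pair m φ d hφ q b with h0 | ⟨a', b', hc, -, ha', hb', h1⟩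
      · left
        intro R
        rw [h _ _ (hS R), h0]
      · right
        refine ⟨a', b', ha', hb', rfl, ?_, fun R => ?_⟩
        · rcases ha with ha | ha
          · exact Or.inl ha
          · rw [ha]; exact Or.inr hc
        · rw [h _ _ (hS R), h1]
  | true =>
    left
    rcases norm_locked m hN hw a ht with h | ⟨q, ψ, d', -, h⟩
    · exact fun R => h _ _ (hS R)
    · intro R
      rw [h _ _ (hS R)]
      exact lock_zero m (hS R) (by simp [hl])

/-- a resting block whose `H` is not a code kills everything on its left (if that starts with an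
unlocked wall) -/
theorem killA (hN : NormP m) {w : WK} (hw : locked w = false) (a : Λ) (v : List (Let Λ))
    {q : Cont Λ} (hq : ¬ IsCode q.h) (R : M) :
    m.ev (((.W w, a) : Let Λ) :: v) * (m.ev (blkL none .f q) * R) = 0 := by
  obtain ⟨p, w', a', t, he, ht, hp⟩ := split_last w a v
  have hS : Sw m (homeW none) (m.ev (blkL none .f q) * R) := Sw_blk m _ _ _ _
  rw [he, Model.ev_append, mul_assoc]
  cases hw' : locked w' with
  | false =>
    rcases norm_unlocked m hN hw' a' ht with h | ⟨q', -, h | h⟩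
    · rw [h _ _ hS, mul_zero]
    · rw [h _ _ hS, start_zero m (fun h => hq h.2), mul_zero]
    · rw [h _ _ hS, lock_zero m hS (by simp [lock_none]), mul_zero]
  | true =>
    rcases hp with ⟨-, rfl⟩ | ⟨v', rfl⟩
    · rw [hw] at hw'; exact absurd hw' (by simp)
    · rcases norm_locked m hN hw' a' ht with h | ⟨q', φ, d, hφ, h⟩
      · rw [h _ _ hS, mul_zero]
      · rw [h _ _ hS]
        obtain ⟨p2, w2, a2, t2, he2, ht2, -⟩ := split_last w a v'
        rw [he2, Model.ev_append, mul_assoc]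
        rcases busy_left m hN w2 a2 ht2 φ d hφ q' with h0 | ⟨a3, b3, -, -, -, -, h1⟩
        · rw [h0, mul_zero]
        · rw [h1, start_zero m (fun h => hq h.2), mul_zero, mul_zero]

/-- an unlocked wall with inadmissible label between unlocked walls is zero -/
theorem bad_kill (hN : NormP m) {w : WK} (hw : locked w = false) (a : Λ) (v : List (Let Λ))
    {w1 : WK} (hw1 : locked w1 = false) {a1 : Λ} (ha1 : ¬ Adm a1) (v1 : List (Let Λ))
    {w' : WK} (hw' : locked w' = false) {R : M} (hR : Sw m w' R) :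
    m.ev (((.W w, a) : Let Λ) :: v) * (m.ev (((.W w1, a1) : Let Λ) :: v1) * R) = 0 := by
  -- the next wall is unlocked
  have key : ∀ (t : List (Let Λ)) (w2 : WK) (X : M), (∀ x ∈ t, ¬ IsW x) → locked w2 = false →
      Sw m w2 X → m.ev (((.W w, a) : Let Λ) :: v) * (m.ev (((.W w1, a1) : Let Λ) :: t) * X) = 0 := by
    intro t w2 X ht hw2 hX
    rcases norm_unlocked m hN hw1 a1 ht with h | ⟨q, ha, h | h⟩
    · rw [h _ _ hX, mul_zero]
    · rw [h _ _ hX]
      refine killA m hN hw a v (fun hc => ha1 ?_) X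
      rcases ha with ha | ha
      · exact Or.inl ha
      · rw [ha]; exact Or.inr hc
    · rw [h _ _ hX, lock_zero m hX (by simp [hw2]), mul_zero]
  rcases split_left v1 with h | ⟨t, w2, a2, v2, rfl, ht⟩
  · exact key v1 w' R h hw' hR
  · rw [← List.cons_append, Model.ev_append, mul_assoc (m.ev _) (m.ev _) R]
    cases hw2 : locked w2 with
    | false => exact key t w2 _ ht hw2 (Sw_word m _ _ _ _)
    | true =>
      have key2 : ∀ (t2 : List (Let Λ)) (w3 : WK) (X : M), (∀ x ∈ t2, ¬ IsW x) → Sw m w3 X →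
          m.ev (((.W w1, a1) : Let Λ) :: t) * (m.ev (((.W w2, a2) : Let Λ) :: t2) * X) = 0 := by
        intro t2 w3 X ht2 hX
        rcases norm_locked m hN hw2 a2 ht2 with h | ⟨q, φ, d, hφ, h⟩
        · rw [h _ _ hX, mul_zero]
        · rw [h _ _ hX]
          rcases busy_left m hN w1 a1 ht φ d hφ q with h0 | ⟨-, -, -, -, -, ha, -⟩
          · exact h0 X
          · exact absurd ha ha1
      rcases split_left v2 with h | ⟨t2, w3, a3, v3, rfl, ht2⟩
      · rw [key2 v2 w' R h hR, mul_zero]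
      · rw [← List.cons_append, Model.ev_append, mul_assoc (m.ev _) (m.ev _) R,
          key2 t2 w3 _ ht2 (Sw_word m _ _ _ _), mul_zero]

/-! ### KEY -/

theorem ev_code {q : Cont Λ} {κ : KK} (h : q.h = code κ) :
    m.ev (blkL none .f q) = (sq m).f (κ, (q.y1, q.y2)) := by
  rw [sq_f, PhiL_eq]
  congr 2
  cases q
  simp only at h
  rw [h]
  rfl

/-- KEY, with a left word starting with an unlocked wall and `R` starting with an unlocked wall -/
theorem key_core (hN : NormP m) {w0 : WK} (hw0 : locked w0 = false) (a0 : Λ) (v : List (Let Λ))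
    (hv : ∀ x ∈ v, ¬ Om x) :
    (∀ (wl : WK) (al : Λ) (vl : List (Let Λ)) (wr : WK) (R : M), locked wl = false →
        locked wr = false → Sw m wr R →
        m.ev (((.W wl, al) : Let Λ) :: vl) * (m.ev (((.W w0, a0) : Let Λ) :: v) * R) = 0) ∨
    ∃ x' : List (Let (Λ × Λ)), (x'.length = 1 ∨ x'.length = 2) ∧
      ∀ (wr : WK) (R : M), locked wr = false → Sw m wr R →
        m.ev (((.W w0, a0) : Let Λ) :: v) * R = (sq m).ev x' * R := by
  rcases split_left v with h | ⟨t, w1, a1, v1, rfl, ht⟩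
  · -- no wall in `v`
    rcases norm_unlocked m hN hw0 a0 h with h | ⟨q, -, h | h⟩
    · left
      intro wl al vl wr R hwl hwr hR
      rw [h _ _ hR, mul_zero]
    · by_cases hc : IsCode q.h
      · right
        obtain ⟨κ, hκ⟩ := hc
        refine ⟨[(κ, (q.y1, q.y2))], Or.inl rfl, fun wr R hwr hR => ?_⟩
        rw [h _ _ hR, Model.ev_singleton, ev_code m hκ]
      · left
        intro wl al vl wr R hwl hwr hR
        rw [h _ _ hR]
        exact killA m hN hwl al vl hc R
    · left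
      intro wl al vl wr R hwl hwr hR
      rw [h _ _ hR, lock_zero m hR (by simp [hwr]), mul_zero]
  · have h1 : ¬ Om ((.W w1, a1) : Let Λ) := hv _ (by simp)
    cases hw1 : locked w1 with
    | false =>
      have ha1 : ¬ Adm a1 := fun h => h1 ⟨w1, rfl, hw1, h⟩
      left
      intro wl al vl wr R hwl hwr hR
      rw [← List.cons_append, Model.ev_append, mul_assoc (m.ev _) (m.ev _) R,
        bad_kill m hN hw0 a0 t hw1 ha1 v1 hwr hR, mul_zero]
    | true =>
      rcases split_left v1 with h | ⟨t1, w2, a2, v2, rfl, ht1⟩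
      · rcases norm_locked m hN hw1 a1 h with h | ⟨q, φ, d, hφ, h⟩
        · left
          intro wl al vl wr R hwl hwr hR
          rw [← List.cons_append, Model.ev_append, mul_assoc (m.ev _) (m.ev _) R, h _ _ hR,
            mul_zero, mul_zero]
        · rcases busy_left m hN w0 a0 ht φ d hφ q with h0 | ⟨a', b', ha', hb', -, -, h0⟩
          · left
            intro wl al vl wr R hwl hwr hR
            rw [← List.cons_append, Model.ev_append, mul_assoc (m.ev _) (m.ev _) R, h _ _ hR,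
              h0, mul_zero]
          · right
            obtain ⟨κ, hκ⟩ := ha'
            obtain ⟨κ', hκ'⟩ := hb'
            refine ⟨[(κ, (a'.y1, a'.y2)), (κ', (b'.y1, b'.y2))], Or.inr rfl,
              fun wr R hwr hR => ?_⟩
            rw [← List.cons_append, Model.ev_append, mul_assoc (m.ev _) (m.ev _) R, h _ _ hR,
              h0, Model.ev_cons, Model.ev_singleton, ev_code m hκ, ev_code m hκ', mul_assoc]
      · left
        intro wl al vl wr R hwl hwr hR
        cases hw2 : locked w2 with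
        | true =>
          rw [← List.cons_append, Model.ev_append, mul_assoc (m.ev _) (m.ev _) R,
            ← List.cons_append (bs := (((.W w2, a2) : Let Λ)) :: v2), Model.ev_append,
            mul_assoc (m.ev _) (m.ev _) R]
          have hS : Sw m w2 (m.ev (((.W w2, a2) : Let Λ) :: v2) * R) := Sw_word m _ _ _ _
          rcases norm_locked m hN hw1 a1 ht1 with h | ⟨q, φ, d, hφ, h⟩
          · rw [h _ _ hS, mul_zero, mul_zero]
          · rw [h _ _ hS, lock_zero m hS (by simp [hw2]), mul_zero, mul_zero]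
        | false =>
          have h2 : ¬ Om ((.W w2, a2) : Let Λ) := hv _ (by simp)
          have ha2 : ¬ Adm a2 := fun h => h2 ⟨w2, rfl, hw2, h⟩
          have e : ((.W w0, a0) : Let Λ) :: (t ++ ((.W w1, a1) : Let Λ) ::
              (t1 ++ ((.W w2, a2) : Let Λ) :: v2)) =
              (((.W w0, a0) : Let Λ) :: (t ++ ((.W w1, a1) : Let Λ) :: t1)) ++
                (((.W w2, a2) : Let Λ) :: v2) := by simp
          rw [e, Model.ev_append, mul_assoc (m.ev _) (m.ev _) R,
            bad_kill m hN hw0 a0 _ hw2 ha2 v2 hwr hR, mul_zero]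

/-- **KEY** (monoid form): between two segments, a segment is a word of length one or two of the
next level, or zero. -/
theorem key (hN : NormP m) (ω : Let Λ) (hω : Om ω) (v : List (Let Λ)) (hv : ∀ x ∈ v, ¬ Om x) :
    (∀ (ω₁ : Let Λ) (v₁ : List (Let Λ)) (ω₂ : Let Λ) (v₂ : List (Let Λ)), Om ω₁ → Om ω₂ →
        m.ev (ω₁ :: v₁) * m.ev (ω :: v) * m.ev (ω₂ :: v₂) = 0) ∨
    ∃ x' : List (Let (Λ × Λ)), (x'.length = 1 ∨ x'.length = 2) ∧
      ∀ (ω₁ : Let Λ) (v₁ : List (Let Λ)) (ω₂ : Let Λ) (v₂ : List (Let Λ)), Om ω₁ → Om ω₂ →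
        m.ev (ω₁ :: v₁) * m.ev (ω :: v) * m.ev (ω₂ :: v₂) =
          m.ev (ω₁ :: v₁) * (sq m).ev x' * m.ev (ω₂ :: v₂) := by
  obtain ⟨κ0, a0⟩ := ω
  obtain ⟨w0, h0, hl0, -⟩ := hω
  simp only at h0
  subst h0
  have hSw : ∀ (w : WK) (a : Λ) (t : List (Let Λ)), Sw m w (m.ev (((.W w, a) : Let Λ) :: t)) :=
    fun w a t => ⟨a, m.ev t, by rw [Model.ev_cons]⟩
  rcases key_core m hN hl0 a0 v hv with h | ⟨x', hx', h⟩
  · left
    rintro ⟨κ1, a1⟩ v1 ⟨κ2, a2⟩ v2 ⟨w1, h1, hl1, -⟩ ⟨w2, h2, hl2, -⟩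
    simp only at h1 h2
    subst h1 h2
    rw [mul_assoc]
    exact h w1 a1 v1 w2 _ hl1 hl2 (hSw _ _ _)
  · right
    refine ⟨x', hx', ?_⟩
    rintro ⟨κ1, a1⟩ v1 ⟨κ2, a2⟩ v2 ⟨w1, h1, hl1, -⟩ ⟨w2, h2, hl2, -⟩
    simp only at h1 h2
    subst h1 h2
    rw [mul_assoc, mul_assoc, h w2 _ hl2 (hSw _ _ _)]

end Crest.Agent.R176.Machine.Key
end

-- ▼ part R176/Machine/Glue593

/-!
# Row 176, part A: glue (helper593)

From the own normalisation `NormQ` of the algebra model: `LenA`, `KeyA` (inputs of helper660's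
iteration) and the base case; `qall_of_normQ : (∀ k Λ, NormQ (A.model step k)) → QAll step`.
-/

set_option autoImplicit false

namespace Crest.Agent.R176.Machine.Glue593

open Gen Key Key309 Iter660

section
variable (Λ : Type) [Fintype Λ] [DecidableEq Λ] [LabelSys Λ] (k : Type) [CommRing k]

theorem lenA (hN : NormQ (A.model (step (Λ := Λ)) k)) : LenA Λ k :=
  ⟨5 * Fintype.card Λ + 30, fun w hw hΩ => len hN (lockP _) (runP _) (startP _) w hw hΩ⟩

theorem mem_deg (st : Let Λ → Let Λ → Option (Let Λ × Let Λ)) (w : List (Let Λ))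
    (hw : w.length = 1 ∨ w.length = 2) : A.w st k w ∈ A.deg st k 1 ⊔ A.deg st k 2 := by
  rcases hw with hw | hw
  · exact Submodule.mem_sup_left (Submodule.subset_span ⟨w, hw, rfl⟩)
  · exact Submodule.mem_sup_right (Submodule.subset_span ⟨w, hw, rfl⟩)

theorem keyA (hN : NormP (A.model (step (Λ := Λ)) k)) : KeyA Λ k := by
  intro ω v hω hv
  rcases key _ hN ω hω v hv with h | ⟨x', hx', h⟩
  · refine ⟨0, Submodule.zero_mem _, ?_⟩
    intro ω₁ v₁ ω₂ v₂ h1 _ h2 _
    rw [map_zero, mul_zero, zero_mul]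
    exact h ω₁ v₁ ω₂ v₂ h1 h2
  · refine ⟨A.w (step (Λ := Λ × Λ)) k x', mem_deg (Λ × Λ) k _ x' hx', ?_⟩
    intro ω₁ v₁ ω₂ v₂ h1 _ h2 _
    have : PhiA Λ k (A.w (step (Λ := Λ × Λ)) k x') =
        (Sim.sq (A.model (step (Λ := Λ)) k)).ev x' := by
      unfold PhiA
      rw [A.lift_w]
    rw [this]
    exact h ω₁ v₁ ω₂ v₂ h1 h2

/-- the unpassed `X` letters -/
def Xu : Set (Let Λ) := {x | x.1 = .bag true .X}
/-- the passed `X` letters -/
def Xp : Set (Let Λ) := {x | x.1 = .bag false .X}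

variable {Λ k} in
theorem X_comm {M : Type*} [MonoidWithZero M] (m : Model (step (Λ := Λ)) M) (s : Bool)
    (x y : Let Λ) (hx : x.1 = .bag s .X) (hy : y.1 = .bag s .X) : m.f x * m.f y = m.f y * m.f x := by
  obtain ⟨κ, a⟩ := x
  obtain ⟨κ', b⟩ := y
  simp only at hx hy
  subst hx hy
  by_cases hab : a = b
  · rw [hab]
  · exact bag_diff m s .X .X a b (by simp [cls, hab])

variable {Λ k} in
theorem X_sq {M : Type*} [MonoidWithZero M] (m : Model (step (Λ := Λ)) M) (s : Bool)
    (x : Let Λ) (hx : x.1 = .bag s .X) : m.f x * m.f x = 0 := by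
  obtain ⟨κ, a⟩ := x
  simp only at hx
  subst hx
  exact bag_same m s .X .X a a rfl

theorem nonX_of {x : Let Λ} (h1 : x ∉ Xu Λ) (h2 : x ∉ Xp Λ) : nonX x = true := by
  obtain ⟨κ, a⟩ := x
  cases κ with
  | bag s b =>
    cases b with
    | X =>
      cases s
      · exact absurd rfl h2
      · exact absurd rfl h1
    | H _ => rfl
    | Y _ _ => rfl
  | E _ => rfl
  | W _ => rfl

/-- base case -/
theorem base [CharP k 2] (hN : NormQ (A.model (step (Λ := Λ)) k)) (n : ℕ)
    (hn : 20 * n + 20 ≤ Fintype.card Λ) : Q Λ k n := by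
  intro B hB
  have h2 : (2 : k) = 0 := by exact_mod_cast CharP.cast_eq_zero k 2
  refine Cut660.dens_lemma h2 (lt Λ k) (Xu Λ) (Xp Λ)
    (fun x hx y hy => X_comm _ true x y hx hy) (fun x hx => X_sq _ true x hx)
    (fun x hx y hy => X_comm _ false x y hx hy) (fun x hx => X_sq _ false x hx)
    ?_ ?_ ?_ B (fun i j => deg_le_span (hB i j))
  · rintro ⟨κ, a⟩ hx ⟨κ', b⟩ hy
    simp only [Xu, Xp, Set.mem_ofPred_eq] at hx hy
    subst hx hy
    exact z_up _ _ _ _ _
  · rintro ⟨κ, a⟩ hx ⟨κ', b⟩ hy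
    simp only [Xu, Xp, Set.mem_ofPred_eq] at hx hy
    subst hx hy
    exact z_pu _ _ _ _ _
  · refine ⟨9 * (Fintype.card Λ + 5) + 1, fun cs hcs hc => ?_⟩
    refine dens_chunks hN n (by omega) cs (by omega) fun c hc' => ?_
    obtain ⟨h3, x, hx, h4, h5⟩ := hc c hc'
    rw [Fintype.card_fin] at h3
    exact ⟨h3, x, hx, nonX_of Λ h4 h5⟩

end

/-- **QAll from NORM** -/
theorem qall_of_normQ
    (hN : ∀ (k : Type) [CommRing k] [CharP k 2] (Λ : Type) [Fintype Λ] [DecidableEq Λ]
      [LabelSys Λ], NormQ (A.model (step (Λ := Λ)) k))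
    (Λ : Type) [Fintype Λ] [DecidableEq Λ] [LabelSys Λ] : QAll (step (Λ := Λ)) :=
  qall 20 (fun k _ _ Λ _ _ _ n hn => base Λ k (hN k Λ) n hn)
    (fun k _ _ Λ _ _ _ => lenA Λ k (hN k Λ))
    (fun k _ _ Λ _ _ _ => keyA Λ k (hN k Λ).normP) Λ

end Crest.Agent.R176.Machine.Glue593
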