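import Crest.Agent.R176.Machine.Sim291B

/-!
# Row 176, part A, block (4): runs from an arbitrary phase, in word form (helper291)
-/

set_option autoImplicit false
set_option linter.unusedSectionVars false

namespace Crest.Agent.R176.Machine.Sim

open Crest.Agent.R176.Machine Crest.Agent.R176.Gen

variable {Λ : Type} [DecidableEq Λ] [LabelSys Λ] {M : Type*} [MonoidWithZero M] [Fintype Λ]
variable (m : Model (step (Λ := Λ)) M)


/-- a full block in a home-empty state (`none`: idle, `some (φ, d)`: at the beginning of phase `φ`
with data `d`), mark `hm` of `H`, content `q` -/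
noncomputable def blkL (c : Option (Ph × Data)) (hm : HM) (q : Cont Λ) : List (Let Λ) :=
  (.W (homeW c), z) :: (.E (homeE c), z) :: (bagL hm q).map fun p => (.bag true p.1, p.2)

theorem blkL_rest (x : Let (Λ × Λ)) : blkL none .f (cont x) = PhiL x := rfl






end Crest.Agent.R176.Machine.Sim
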