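import Crest.Agent.R176.Machine.Run
import Crest.Agent.R176.Gen.Basic
import Crest.Agent.R176.Machine.Conf845
import Crest.Agent.R176.Machine.Key309A
import Crest.Agent.R176.Machine.Sim291C
import Crest.Agent.R176.Machine.Key309B

-- ▼ part R176/Machine/Own977A
section

/-!
# Row 176, part A, block (3): own moves of a block (helper977)

Basic facts in an arbitrary `Gen.Model` of `step`:
bag letters on one side commute, duplicates vanish, the head passes non-target letters.
-/

set_option autoImplicit false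

namespace Crest.Agent.R176.Machine

open Gen

/-- raw bag letters: kind and label, without side -/
abbrev BL (Λ : Type) := BK × Λ

variable {Λ : Type}

/-- bag letter on side `s` -/
def bl (s : Bool) (x : BL Λ) : Let Λ := (.bag s x.1, x.2)
/-- wall letter -/
def wl (w : WK) (a : Λ) : Let Λ := (.W w, a)
/-- head letter -/
def el (e : EK) (a : Λ) : Let Λ := (.E e, a)

/-- list of bag letters on side `s` -/
def bls (s : Bool) (U : List (BL Λ)) : List (Let Λ) := U.map (bl s)

@[simp] theorem bls_nil (s : Bool) : bls s ([] : List (BL Λ)) = [] := rfl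
@[simp] theorem bls_cons (s : Bool) (x : BL Λ) (U : List (BL Λ)) :
    bls s (x :: U) = bl s x :: bls s U := rfl
@[simp] theorem bls_append (s : Bool) (U V : List (BL Λ)) :
    bls s (U ++ V) = bls s U ++ bls s V := by simp [bls]

/-- slots of the inventory of a block -/
inductive Slot (Λ : Type)
  | X (a : Λ)
  | H
  | Y (j : Bool)
  deriving DecidableEq

/-- slot of a bag letter -/
def slot (x : BL Λ) : Slot Λ :=
  match x.1 with
  | .X => .X x.2
  | .H _ => .H
  | .Y j _ => .Y j

variable [DecidableEq Λ] [LabelSys Λ] {M : Type*} [MonoidWithZero M]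
variable (m : Model (step (Λ := Λ)) M)

theorem bb_comm (s : Bool) (x y : BL Λ) :
    m.f (bl s x) * m.f (bl s y) = m.f (bl s y) * m.f (bl s x) := by
  obtain ⟨x, a⟩ := x
  obtain ⟨y, b⟩ := y
  rcases x with _ | hm | ⟨j, o⟩ <;> rcases y with _ | hm' | ⟨j', o'⟩
  · by_cases hab : a = b
    · subst hab; rfl
    · rw [m.rel_some (p := (bl s (.X, b), bl s (.X, a)))]
      simp [step, rule, ruleBB, RD.eval, AC.eval, bl, hab]
  · rw [m.rel_some (p := (bl s (.H hm', b), bl s (.X, a)))]
    simp [step, rule, ruleBB, RD.eval, AC.eval, bl, BK.ty]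
  · rw [m.rel_some (p := (bl s (.Y j' o', b), bl s (.X, a)))]
    simp [step, rule, ruleBB, RD.eval, AC.eval, bl, BK.ty]
  · rw [m.rel_some (p := (bl s (.X, b), bl s (.H hm, a)))]
    simp [step, rule, ruleBB, RD.eval, AC.eval, bl, BK.ty]
  · rw [m.rel_none, m.rel_none] <;>
    simp [step, rule, ruleBB, RD.eval, bl, BK.ty, Rule.zero]
  · rw [m.rel_some (p := (bl s (.Y j' o', b), bl s (.H hm, a)))]
    simp [step, rule, ruleBB, RD.eval, AC.eval, bl, BK.ty]
  · rw [m.rel_some (p := (bl s (.X, b), bl s (.Y j o, a)))]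
    simp [step, rule, ruleBB, RD.eval, AC.eval, bl, BK.ty]
  · rw [m.rel_some (p := (bl s (.H hm', b), bl s (.Y j o, a)))]
    simp [step, rule, ruleBB, RD.eval, AC.eval, bl, BK.ty]
  · by_cases hj : j = j'
    · subst hj
      rw [m.rel_none, m.rel_none] <;>
      simp [step, rule, ruleBB, RD.eval, bl, BK.ty, Rule.zero]
    · rw [m.rel_some (p := (bl s (.Y j' o', b), bl s (.Y j o, a)))]
      simp [step, rule, ruleBB, RD.eval, AC.eval, bl, BK.ty, hj]

theorem bb_dup (s : Bool) {x y : BL Λ} (h : slot x = slot y) :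
    m.f (bl s x) * m.f (bl s y) = 0 := by
  obtain ⟨x, a⟩ := x
  obtain ⟨y, b⟩ := y
  apply m.rel_none
  rcases x with _ | hm | ⟨j, o⟩ <;> rcases y with _ | hm' | ⟨j', o'⟩ <;>
    simp [slot] at h <;>
    simp [step, rule, ruleBB, RD.eval, bl, BK.ty, Rule.zero, h]


theorem ev_bls_perm (s : Bool) {U V : List (BL Λ)} (h : U.Perm V) :
    m.ev (bls s U) = m.ev (bls s V) := by
  induction h with
  | nil => rfl
  | cons x _ ih => simp [ih]
  | swap x y l =>
    simp only [bls_cons, Model.ev_cons, ← mul_assoc]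
    rw [bb_comm]
  | trans _ _ ih1 ih2 => exact ih1.trans ih2

theorem ev_bls_nodup (s : Bool) {U : List (BL Λ)} (h : m.ev (bls s U) ≠ 0) :
    (U.map slot).Nodup := by
  induction U with
  | nil => simp
  | cons x U ih =>
    rw [List.map_cons, List.nodup_cons]
    constructor
    · intro hx
      obtain ⟨y, hy, hxy⟩ := List.mem_map.mp hx
      apply h
      rw [bls_cons, Model.ev_cons, ev_bls_perm m s (List.perm_cons_erase hy), bls_cons,
        Model.ev_cons, ← mul_assoc, bb_dup m s hxy.symm, zero_mul]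
    · apply ih
      intro h0
      apply h
      rw [bls_cons, Model.ev_cons, h0, mul_zero]

/-- the head with mode `e`, label `b` may pass the bag letter `x` -/
def canPass (e : EK) (b : Λ) (x : BL Λ) : Prop :=
  e.moving = true ∧ cons e x.1 = true ∧ (e.target = some x.1.ty → x.1 = .X ∧ x.2 ≠ b)

instance (e : EK) (b : Λ) (x : BL Λ) : Decidable (canPass e b x) := by
  unfold canPass; infer_instance

omit [DecidableEq Λ] [LabelSys Λ] in
theorem ty_eq_X {x : BK} : x.ty = .X ↔ x = .X := by
  cases x <;> simp [BK.ty]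

theorem eb_pass {e : EK} {b : Λ} {x : BL Λ} (h : canPass e b x) :
    m.f (el e b) * m.f (bl true x) = m.f (bl false x) * m.f (el e b) := by
  obtain ⟨x, c⟩ := x
  obtain ⟨h1, h2, h3⟩ := h
  simp only at h2 h3
  apply m.rel_some (p := (bl false (x, c), el e b))
  by_cases hX : x = .X ∧ e.target = some .X
  · obtain ⟨rfl, ht⟩ := hX
    have hc : b ≠ c := fun h => (h3 ht).2 h.symm
    simp [step, rule, ruleEB, RD.eval, AC.eval, bl, el, h1, h2, ht, hc]
  · have ht : ¬ (e.target = some x.ty) := by
      intro ht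
      obtain ⟨rfl, _⟩ := h3 ht
      exact hX ⟨rfl, ht⟩
    simp only [step, rule, ruleEB, bl, el, h1, h2, if_true, hX, if_false, ht, RD.eval,
      Bool.and_self, Bool.false_eq_true]
    simp [AC.eval]

theorem be_zero {e : EK} {b : Λ} {x : BL Λ} (h : ¬ canPass e b x) :
    m.f (bl false x) * m.f (el e b) = 0 := by
  obtain ⟨x, c⟩ := x
  apply m.rel_none
  unfold canPass at h
  simp only at h
  by_cases h1 : e.moving = true
  · by_cases h2 : cons e x = true
    · have h3 : e.target = some x.ty ∧ ¬ (x = .X ∧ c ≠ b) := by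
        by_contra h3
        apply h
        refine ⟨h1, h2, fun ht => ?_⟩
        by_contra h4
        exact h3 ⟨ht, h4⟩
      obtain ⟨ht, h4⟩ := h3
      by_cases hX : x = .X
      · subst hX
        have hc : c = b := by
          by_contra hc; exact h4 ⟨rfl, hc⟩
        have ht' : e.target = some .X := ht
        simp [step, rule, ruleBE, RD.eval, bl, el, h1, h2, ht', hc]
      · simp [step, rule, ruleBE, RD.eval, bl, el, h1, h2, hX, ht, Rule.zero]
    · simp [step, rule, ruleBE, RD.eval, bl, el, h2, Rule.zero]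
  · simp [step, rule, ruleBE, RD.eval, bl, el, h1, Rule.zero]



theorem eb_incons {e : EK} {b : Λ} {x : BL Λ} (h : cons e x.1 = false) :
    m.f (el e b) * m.f (bl true x) = 0 := by
  apply m.rel_none
  simp [step, rule, ruleEB, RD.eval, bl, el, Rule.zero, h]


theorem ew_zero (e : EK) (w : WK) (a b : Λ) : m.f (el e a) * m.f (wl w b) = 0 := by
  apply m.rel_none
  simp [step, rule, RD.eval, el, wl, Rule.zero]

theorem ww_zero (w w' : WK) (a b : Λ) : m.f (wl w a) * m.f (wl w' b) = 0 := by
  apply m.rel_none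
  simp [step, rule, RD.eval, wl, Rule.zero]

theorem wb_true_zero (w : WK) (a : Λ) (x : BL Λ) : m.f (wl w a) * m.f (bl true x) = 0 := by
  apply m.rel_none
  simp [step, rule, ruleWB, RD.eval, wl, bl, Rule.zero]

theorem bw_false_zero (w : WK) (a : Λ) (x : BL Λ) : m.f (bl false x) * m.f (wl w a) = 0 := by
  apply m.rel_none
  simp [step, rule, ruleBW, RD.eval, wl, bl, Rule.zero]

/-- the head passes a list of letters -/
theorem eb_pass_list {e : EK} {b : Λ} {U : List (BL Λ)} (h : ∀ x ∈ U, canPass e b x) :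
    m.f (el e b) * m.ev (bls true U) = m.ev (bls false U) * m.f (el e b) := by
  induction U with
  | nil => simp
  | cons x U ih =>
    rw [bls_cons, Model.ev_cons, bls_cons, Model.ev_cons, ← mul_assoc,
      eb_pass m (h x (by simp)), mul_assoc, ih (fun y hy => h y (by simp [hy])), mul_assoc]

/-- letters which cannot be passed kill -/
theorem pe_list_zero {e : EK} {b : Λ} {P : List (BL Λ)} (h : ¬ ∀ x ∈ P, canPass e b x) :
    m.ev (bls false P) * m.f (el e b) = 0 := by
  induction P with
  | nil => exact absurd (by simp) h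
  | cons x P ih =>
    rw [bls_cons, Model.ev_cons, mul_assoc]
    by_cases hP : ∀ y ∈ P, canPass e b y
    · rw [← eb_pass_list m hP, ← mul_assoc, be_zero m, zero_mul]
      intro hx
      apply h
      intro y hy
      rcases List.mem_cons.mp hy with rfl | hy
      · exact hx
      · exact hP y hy
    · rw [ih hP, mul_zero]

/-- inconsistent letters kill -/
theorem eu_incons {e : EK} {b : Λ} {U : List (BL Λ)} (h : ¬ ∀ x ∈ U, cons e x.1 = true) :
    m.f (el e b) * m.ev (bls true U) = 0 := by
  push Not at h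
  obtain ⟨x, hx, hc⟩ := h
  rw [ev_bls_perm m true (List.perm_cons_erase hx), bls_cons, Model.ev_cons, ← mul_assoc,
    eb_incons m (by simpa using hc), zero_mul]

/-- a head which passes everything reaches the next wall -/
theorem eu_sweep {e : EK} {b : Λ} {U : List (BL Λ)} (h : ∀ x ∈ U, canPass e b x) (w : WK) (a : Λ) :
    m.f (el e b) * m.ev (bls true U) * m.f (wl w a) = 0 := by
  rw [eb_pass_list m h, mul_assoc, ew_zero, mul_zero]

/-- block word -/
def blk (w : WK) (a : Λ) (P : List (BL Λ)) (e : EK) (b : Λ) (U : List (BL Λ)) : List (Let Λ) :=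
  wl w a :: (bls false P ++ el e b :: bls true U)

theorem ev_blk (w : WK) (a : Λ) (P : List (BL Λ)) (e : EK) (b : Λ) (U : List (BL Λ)) :
    m.ev (blk w a P e b U) =
      m.f (wl w a) * (m.ev (bls false P) * (m.f (el e b) * m.ev (bls true U))) := by
  simp [blk, Model.ev_append]


/-- all passed letters are passable, and the head may go home -/
theorem blk_home {w : WK} {a : Λ} {P : List (BL Λ)} {e : EK} {b : Λ} {U : List (BL Λ)}
    (h : ∀ x ∈ P, canPass e b x) :
    m.ev (blk w a P e b U) = m.ev (blk w a [] e b (P ++ U)) := by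
  rw [ev_blk, ev_blk, bls_nil, Model.ev_nil, one_mul, ← mul_assoc (m.ev (bls false P)),
    ← eb_pass_list m h, bls_append, Model.ev_append, mul_assoc]

theorem blk_canPass {w : WK} {a : Λ} {P : List (BL Λ)} {e : EK} {b : Λ} {U : List (BL Λ)}
    (h : m.ev (blk w a P e b U) ≠ 0) : ∀ x ∈ P, canPass e b x := by
  by_contra hP
  apply h
  rw [ev_blk, ← mul_assoc (m.ev (bls false P)), pe_list_zero m hP, zero_mul, mul_zero]




end Crest.Agent.R176.Machine
end

-- ▼ part R176/Machine/Own977B
section

/-!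
# Row 176, part A, block (3): target and home rules (helper977)
-/

set_option autoImplicit false

namespace Crest.Agent.R176.Machine

open Gen

/-- the target letter of phase `φ`, label inside, before it is fetched -/
def xin (φ : Ph) : BK :=
  match tz φ with
  | .H => .H (if φ = 0 then .f else .b)
  | .Y j => .Y j false
  | .X => .X

/-- the target letter of phase `φ`, label outside -/
def xout (φ : Ph) : BK := (xin φ).out

/-- the target letter of phase `φ` after the label has been put back -/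
def xback (φ : Ph) : BK := (xin φ).inn φ

/-- the target of a phase is never `X` -/
theorem tz_ne_X : ∀ φ : Ph, tz φ ≠ .X := by decide


theorem rule_G_in (φ : Ph) : rule (.E (.G φ)) (.bag true (xin φ)) =
    ⟨.N1, .SW, some (.E (.K φ), .bag true (xout φ)), none⟩ := by
  fin_cases φ <;> rfl

theorem rule_K_out (φ : Ph) : rule (.E (.K φ)) (.bag true (xout φ)) =
    ⟨.N2, .ID, some (.E (.K φ), .bag true (xout φ)), none⟩ := by
  fin_cases φ <;> rfl

theorem rule_P_out (φ : Ph) : rule (.E (.P φ)) (.bag true (xout φ)) =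
    ⟨.N2, .SW, some (.E (.R φ), .bag true (xback φ)), none⟩ := by
  fin_cases φ <;> rfl



theorem K_tgt : ∀ (φ : Ph) (x : BK), cons (.K φ) x = true → x.ty = tz φ → x = xout φ := by decide


theorem P_tgt : ∀ (φ : Ph) (x : BK), cons (.P φ) x = true → x.ty = tz φ → x = xout φ := by decide


variable {Λ : Type} [DecidableEq Λ] [LabelSys Λ] {M : Type*} [MonoidWithZero M]
variable (m : Model (step (Λ := Λ)) M)

theorem g_fetch (φ : Ph) (h : Λ) :
    m.f (el (.G φ) z) * m.f (bl true (xin φ, h)) = m.f (el (.K φ) h) * m.f (bl true (xout φ, z)) := by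
  apply m.rel_some (p := (el (.K φ) h, bl true (xout φ, z)))
  simp [step, el, bl, rule_G_in, RD.eval, AC.eval]


theorem k_out_zero (φ : Ph) (h : Λ) {c : Λ} (hc : c ≠ z) :
    m.f (el (.K φ) h) * m.f (bl true (xout φ, c)) = 0 := by
  apply m.rel_none
  simp [step, el, bl, rule_K_out, RD.eval, hc]

theorem p_put (φ : Ph) (h : Λ) :
    m.f (el (.P φ) h) * m.f (bl true (xout φ, z)) = m.f (el (.R φ) z) * m.f (bl true (xback φ, h)) := by
  apply m.rel_some (p := (el (.R φ) z, bl true (xback φ, h)))
  simp [step, el, bl, rule_P_out, RD.eval, AC.eval]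

theorem p_put_zero (φ : Ph) (h : Λ) {c : Λ} (hc : c ≠ z) :
    m.f (el (.P φ) h) * m.f (bl true (xout φ, c)) = 0 := by
  apply m.rel_none
  simp [step, el, bl, rule_P_out, RD.eval, hc]


/-! ### home -/

theorem wk_zero {φ : Ph} {d : Data} {a b : Λ} (ha : a ≠ z) :
    m.f (wl (.A φ d) a) * m.f (el (.K φ) b) = 0 := by
  apply m.rel_none
  simp [step, wl, el, rule, ruleWE, RD.eval, ha]

theorem cn_zero {φ : Ph} {d : Data} {a b : Λ} (hb : b ≠ z) :
    m.f (wl (.C φ d) a) * m.f (el (.N φ) b) = 0 := by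
  apply m.rel_none
  simp [step, wl, el, rule, ruleWE, RD.eval, hb]

theorem cn_step (φ : Ph) (d : Data) (a : Λ) :
    m.f (wl (.C φ d) a) * m.f (el (.N φ) z) = m.f (wl (.A φ d) z) * m.f (el (.K φ) a) := by
  apply m.rel_some (p := (wl (.A φ d) z, el (.K φ) a))
  simp [step, wl, el, rule, ruleWE, RD.eval, AC.eval]

theorem dn_zero {φ : Ph} {d : Data} {a b : Λ} (hb : b ≠ z) :
    m.f (wl (.D φ d) a) * m.f (el (.N φ) b) = 0 := by
  apply m.rel_none
  simp [step, wl, el, rule, ruleWE, RD.eval, hb]

theorem dn_step (φ : Ph) (d : Data) (a : Λ) :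
    m.f (wl (.D φ d) a) * m.f (el (.N φ) z) = m.f (wl (.B φ d) z) * m.f (el (.P φ) a) := by
  apply m.rel_some (p := (wl (.B φ d) z, el (.P φ) a))
  simp [step, wl, el, rule, ruleWE, RD.eval, AC.eval]

theorem bp_zero {φ : Ph} {d : Data} {a b : Λ} (ha : a ≠ z) :
    m.f (wl (.B φ d) a) * m.f (el (.P φ) b) = 0 := by
  apply m.rel_none
  simp [step, wl, el, rule, ruleWE, RD.eval, ha]


/-- the context of a wall mark: `none` idle, `some (φ, d)` busy with next contact `φ` -/
def ctxOf : WK → Option (Ph × Data)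
  | .w0 => none
  | .A φ d => if φ = 0 then none else some (φ, d)
  | .C φ d => if φ = 0 then none else some (φ, d)
  | .D φ d => if φ = 10 then none else some (φ + 1, d)
  | .B φ d => if φ = 10 then none else some (φ + 1, d)
  | .S _ c => c

theorem br_step (φ : Ph) (d : Data) :
    m.f (wl (.B φ d) z) * m.f (el (.R φ) z) =
      m.f (wl (homeW (ctxOf (.B φ d))) z) * m.f (el (homeE (ctxOf (.B φ d))) z) := by
  apply m.rel_some (p := (wl (homeW (ctxOf (.B φ d))) z, el (homeE (ctxOf (.B φ d))) z))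
  by_cases h : φ = 10 <;>
  simp [step, wl, el, rule, ruleWE, RD.eval, AC.eval, h, ctxOf, homeW, homeE]

theorem ag_step (φ : Ph) (d : Data) :
    m.f (wl (.A φ d) z) * m.f (el (.G φ) z) =
      m.f (wl (homeW (ctxOf (.A φ d))) z) * m.f (el (homeE (ctxOf (.A φ d))) z) := by
  by_cases h : φ = 0
  · apply m.rel_some (p := (wl (homeW (ctxOf (.A φ d))) z, el (homeE (ctxOf (.A φ d))) z))
    simp [step, wl, el, rule, ruleWE, RD.eval, AC.eval, h, ctxOf, homeW, homeE]
  · simp [ctxOf, h, homeW, homeE]

theorem st_zero {t t' : TT} {c : Option (Ph × Data)} {busy : Bool} {a b : Λ}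
    (h : ¬ (t = t' ∧ ctxOK c busy = true)) :
    m.f (wl (.S t c) a) * m.f (el (.T t' busy) b) = 0 := by
  apply m.rel_none
  simp [step, wl, el, rule, ruleWE, RD.eval, h, Rule.zero]

theorem st_zero_label {t t' : TT} {c : Option (Ph × Data)} {busy : Bool} {a b : Λ}
    (ha : a ≠ z) :
    m.f (wl (.S t c) a) * m.f (el (.T t' busy) b) = 0 := by
  by_cases h : t = t' ∧ ctxOK c busy = true
  · apply m.rel_none
    obtain ⟨rfl, h⟩ := h
    by_cases hX : t = .X
    · simp [step, wl, el, rule, ruleWE, RD.eval, h, ha, hX]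
    · simp [step, wl, el, rule, ruleWE, RD.eval, h, ha, hX]
  · exact st_zero m h

theorem st_zero_label' {t t' : TT} {c : Option (Ph × Data)} {busy : Bool} {a b : Λ}
    (ht : t ≠ .X) (hb : b ≠ z) :
    m.f (wl (.S t c) a) * m.f (el (.T t' busy) b) = 0 := by
  by_cases h : t = t' ∧ ctxOK c busy = true
  · apply m.rel_none
    obtain ⟨rfl, h⟩ := h
    simp [step, wl, el, rule, ruleWE, RD.eval, h, hb, ht]
  · exact st_zero m h

theorem home_zero {a b : Λ} (h : ¬ (a = z ∧ b = z)) : m.f (wl .w0 a) * m.f (el .home b) = 0 := by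
  apply m.rel_none
  have h' : a ≠ z ∨ b ≠ z := by
    by_contra hn
    push Not at hn
    exact h hn
  simp only [step, wl, el, rule, ruleWE, RD.eval, h', decide_true, if_true, Option.map_none]

theorem ag_zero {φ : Ph} {d : Data} {a b : Λ} (h : ¬ (a = z ∧ b = z)) :
    m.f (wl (.A φ d) a) * m.f (el (.G φ) b) = 0 := by
  apply m.rel_none
  have h' : a ≠ z ∨ b ≠ z := by
    by_contra hn
    push Not at hn
    exact h hn
  by_cases hφ : φ = 0
  · simp only [step, wl, el, rule, ruleWE, RD.eval, h', hφ, decide_true, if_true, Option.map_none]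
  · simp only [step, wl, el, rule, ruleWE, RD.eval, h', hφ, decide_true, if_true, if_false,
      Option.map_none]

theorem br_zero2 {φ : Ph} {d : Data} {a b : Λ} (h : ¬ (a = z ∧ b = z)) :
    m.f (wl (.B φ d) a) * m.f (el (.R φ) b) = 0 := by
  apply m.rel_none
  have h' : a ≠ z ∨ b ≠ z := by
    by_contra hn
    push Not at hn
    exact h hn
  by_cases hφ : φ = 10
  · simp only [step, wl, el, rule, ruleWE, RD.eval, h', hφ, decide_true, if_true, Option.map_none]
  · simp only [step, wl, el, rule, ruleWE, RD.eval, h', hφ, decide_true, if_true, if_false,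
      Option.map_none]

/-- the possible walls and heads at the wall -/
inductive WE (w : WK) (a : Λ) (e : EK) (b : Λ) : Prop
  | rest (hw : w = .w0) (he : e = .home) (ha : a = z) (hb : b = z)
  | G (φ : Ph) (d : Data) (hw : w = .A φ d) (he : e = .G φ) (ha : a = z) (hb : b = z)
  | K (φ : Ph) (d : Data) (hw : w = .A φ d) (he : e = .K φ) (ha : a = z)
  | C (φ : Ph) (d : Data) (hw : w = .C φ d) (he : e = .N φ) (hb : b = z)
  | D (φ : Ph) (d : Data) (hw : w = .D φ d) (he : e = .N φ) (hb : b = z)
  | P (φ : Ph) (d : Data) (hw : w = .B φ d) (he : e = .P φ) (ha : a = z)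
  | R (φ : Ph) (d : Data) (hw : w = .B φ d) (he : e = .R φ) (ha : a = z) (hb : b = z)
  | T (t : TT) (c : Option (Ph × Data)) (busy : Bool) (hw : w = .S t c) (he : e = .T t busy)
      (hc : ctxOK c busy = true) (ha : a = z) (hb : t ≠ .X → b = z)

theorem we_cases {w : WK} {a : Λ} {e : EK} {b : Λ} (h : m.f (wl w a) * m.f (el e b) ≠ 0) :
    WE w a e b := by
  have hφ : ∀ (w : WK) (e : EK), (rule (.W w) (.E e)) = Rule.zero →
      m.f (wl w a) * m.f (el e b) = 0 := by
    intro w e hr
    apply m.rel_none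
    simp [step, wl, el, hr, Rule.zero, RD.eval]
  rcases w with _ | ⟨φ, d⟩ | ⟨φ, d⟩ | ⟨φ, d⟩ | ⟨φ, d⟩ | ⟨t, c⟩ <;>
    rcases e with _ | ψ | ψ | ψ | ψ | ψ | ⟨t', busy⟩ <;>
    (try exact absurd (hφ _ _ rfl) h)
  · by_cases hab : a = z ∧ b = z
    · exact .rest rfl rfl hab.1 hab.2
    · exact absurd (home_zero m hab) h
  · by_cases hp : φ = ψ
    · subst hp
      by_cases hab : a = z ∧ b = z
      · exact .G φ d rfl rfl hab.1 hab.2
      · exact absurd (ag_zero m hab) h
    · exact absurd (hφ _ _ (by simp [rule, ruleWE, hp])) h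
  · by_cases hp : φ = ψ
    · subst hp
      by_cases ha : a = z
      · exact .K φ d rfl rfl ha
      · exact absurd (wk_zero m ha) h
    · exact absurd (hφ _ _ (by simp [rule, ruleWE, hp])) h
  · by_cases hp : φ = ψ
    · subst hp
      by_cases hb : b = z
      · exact .C φ d rfl rfl hb
      · exact absurd (cn_zero m hb) h
    · exact absurd (hφ _ _ (by simp [rule, ruleWE, hp])) h
  · by_cases hp : φ = ψ
    · subst hp
      by_cases hb : b = z
      · exact .D φ d rfl rfl hb
      · exact absurd (dn_zero m hb) h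
    · exact absurd (hφ _ _ (by simp [rule, ruleWE, hp])) h
  · by_cases hp : φ = ψ
    · subst hp
      by_cases ha : a = z
      · exact .P φ d rfl rfl ha
      · exact absurd (bp_zero m ha) h
    · exact absurd (hφ _ _ (by simp [rule, ruleWE, hp])) h
  · by_cases hp : φ = ψ
    · subst hp
      by_cases hab : a = z ∧ b = z
      · exact .R φ d rfl rfl hab.1 hab.2
      · exact absurd (br_zero2 m hab) h
    · exact absurd (hφ _ _ (by simp [rule, ruleWE, hp])) h
  · by_cases hp : t = t' ∧ ctxOK c busy = true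
    · obtain ⟨rfl, hc⟩ := hp
      by_cases ha : a = z
      · by_cases hb : t ≠ .X → b = z
        · exact .T t c busy rfl rfl hc ha hb
        · push Not at hb
          exact absurd (st_zero_label' m hb.1 hb.2) h
      · exact absurd (st_zero_label m ha) h
    · exact absurd (st_zero m hp) h

theorem st_X {c : Option (Ph × Data)} {busy : Bool} (h : ctxOK c busy = true) (b : Λ) :
    m.f (wl (.S .X c) z) * m.f (el (.T .X busy) b) =
      m.f (wl (homeW c) z) * m.f (el (homeE c) z) := by
  apply m.rel_some (p := (wl (homeW c) z, el (homeE c) z))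
  simp [step, wl, el, rule, ruleWE, RD.eval, AC.eval, h]

theorem st_ne_X {t : TT} (ht : t ≠ .X) {c : Option (Ph × Data)} {busy : Bool}
    (h : ctxOK c busy = true) (b : Λ) (hb : b = z) :
    m.f (wl (.S t c) z) * m.f (el (.T t busy) b) =
      m.f (wl (homeW c) z) * m.f (el (homeE c) b) := by
  apply m.rel_some (p := (wl (homeW c) z, el (homeE c) b))
  simp [step, wl, el, rule, ruleWE, RD.eval, AC.eval, h, ht, hb]

end Crest.Agent.R176.Machine
private theorem rz_42bf3ec24a : type_of% @_root_.Crest.Agent.R176.Machine.ctxOf.eq_1 := @_root_.Crest.Agent.R176.Machine.ctxOf.eq_1 -- L137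
end

-- ▼ part R176/Machine/Own977C
section

/-!
# Row 176, part A, block (3): configurations are equal to their home form (helper977)

`conf_ev` : `Conf s B` implies `m.ev B = m.ev (hword s)`, `hword s` = wall, head at home, all letters.
-/

set_option autoImplicit false

namespace Crest.Agent.R176.Machine

open Gen

variable {Λ : Type}

theorem blk_eq_bword (w : WK) (a : Λ) (P : List (BL Λ)) (e : EK) (b : Λ) (U : List (BL Λ)) :
    blk w a P e b U = bword w a P e b U := rfl

/-- all letters `X_a` -/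
noncomputable def xs (Λ : Type) [Fintype Λ] : List (BL Λ) :=
  (Finset.univ : Finset Λ).toList.map fun a => (.X, a)

/-- the bag letters of a full block as a list -/
noncomputable def bagO [Fintype Λ] [LabelSys Λ] (c : Cont Λ) (hm : HM) (o : Option TT) :
    List (BL Λ) :=
  letH c hm o :: letY c false o :: letY c true o :: xs Λ

theorem bagO_coe [Fintype Λ] [LabelSys Λ] (c : Cont Λ) (hm : HM) (o : Option TT) :
    ((bagO c hm o : List (BL Λ)) : Multiset (BL Λ)) = bagM c hm o := by
  unfold bagO bagM xs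
  rw [← Multiset.cons_coe, ← Multiset.cons_coe, ← Multiset.cons_coe, ← Multiset.map_coe,
    Finset.coe_toList]

theorem mem_xs [Fintype Λ] {x : BL Λ} : x ∈ xs Λ ↔ x.1 = .X := by
  unfold xs
  constructor
  · intro h
    obtain ⟨a, _, rfl⟩ := List.mem_map.mp h
    rfl
  · intro h
    obtain ⟨k, a⟩ := x
    simp only at h
    subst h
    exact List.mem_map.mpr ⟨a, by simp, rfl⟩

theorem nodup_xs [Fintype Λ] : (xs Λ).Nodup := by
  unfold xs
  apply List.Nodup.map
  · intro a b h
    exact (Prod.mk.inj h).2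
  · exact Finset.nodup_toList _

/-- letter of type `tz φ` with mark `hm` if it is `H` -/
def tg (φ : Ph) (hm : HM) : BK :=
  match tz φ with
  | .H => .H hm
  | .Y j => .Y j false
  | .X => .X

/-- mark before the phase -/
def mB (φ : Ph) : HM := if φ = 0 then .f else .b
/-- mark after the phase -/
def mA (φ : Ph) : HM := if φ = 10 then .f else .b

theorem tg_mB : ∀ φ : Ph, tg φ (mB φ) = xin φ := by decide
theorem tg_mA : ∀ φ : Ph, tg φ (mA φ) = xback φ := by decide

theorem hmark_cur (φ : Ph) (d : Data) : hmark (cur φ d) false = mB φ := by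
  unfold cur mB
  by_cases h : φ = 0 <;> simp [h, hmark]

theorem hmark_nxt (φ : Ph) (d : Data) : hmark (nxt φ d) false = mA φ := by
  unfold nxt mA
  by_cases h : φ = 10 <;> simp [h, hmark]


section oth
variable [Fintype Λ] [LabelSys Λ]

/-- the non-target letters of phase `φ` -/
noncomputable def oth (φ : Ph) (hm : HM) (c : Cont Λ) : List (BL Λ) :=
  match tz φ with
  | .X => []
  | .H => (.Y false false, c.y1) :: (.Y true false, c.y2) :: xs Λ
  | .Y false => (.H hm, c.h) :: (.Y true false, c.y2) :: xs Λ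
  | .Y true => (.H hm, c.h) :: (.Y false false, c.y1) :: xs Λ

theorem bagO_none (φ : Ph) (hm : HM) (c : Cont Λ) :
    (bagO c hm none).Perm ((tg φ hm, c.get (tz φ)) :: oth φ hm c) := by
  have h := tz_ne_X φ
  unfold bagO letH letY oth tg
  cases ht : tz φ with
  | X => exact absurd ht h
  | H => simp [Cont.get]
  | Y j =>
    cases j
    · simp only [Cont.get]
      exact List.Perm.swap _ _ _
    · simp only [Cont.get]
      refine List.Perm.trans (List.Perm.cons _ (List.Perm.swap _ _ _)) ?_
      exact List.Perm.swap _ _ _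


theorem bagO_some (φ : Ph) (hm : HM) (c : Cont Λ) :
    (bagO c hm (some (tz φ))).Perm ((xout φ, z) :: oth φ hm c) := by
  have h := tz_ne_X φ
  unfold bagO letH letY oth xout xin
  cases ht : tz φ with
  | X => exact absurd ht h
  | H => simp [BK.out, Cont.get]
  | Y j =>
    cases j
    · simp only [BK.out, Cont.get]
      simp only [Option.some.injEq, reduceCtorEq, if_false, if_true, TT.Y.injEq]
      exact List.Perm.swap _ _ _
    · simp only [BK.out, Cont.get]
      simp only [Option.some.injEq, reduceCtorEq, if_false, if_true, TT.Y.injEq]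
      refine List.Perm.trans (List.Perm.cons _ (List.Perm.swap _ _ _)) ?_
      exact List.Perm.swap _ _ _


end oth

variable [DecidableEq Λ] [LabelSys Λ] {M : Type*} [MonoidWithZero M]
variable (m : Model (step (Λ := Λ)) M)

/-- value of a block whose head is at the wall -/
def hv (w : WK) (a : Λ) (e : EK) (b : Λ) (V : List (BL Λ)) : M :=
  m.f (wl w a) * m.f (el e b) * m.ev (bls true V)

theorem ev_blk_hv {w : WK} {a : Λ} {P : List (BL Λ)} {e : EK} {b : Λ} {U : List (BL Λ)}
    (h : ∀ x ∈ P, canPass e b x) : m.ev (blk w a P e b U) = hv m w a e b (P ++ U) := by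
  rw [blk_home m h, ev_blk]
  simp [hv, mul_assoc]

theorem hv_perm {w : WK} {a : Λ} {e : EK} {b : Λ} {V V' : List (BL Λ)} (h : V.Perm V') :
    hv m w a e b V = hv m w a e b V' := by
  unfold hv; rw [ev_bls_perm m _ h]

theorem hv_we {w w1 : WK} {a a1 : Λ} {e e1 : EK} {b b1 : Λ} (V : List (BL Λ))
    (h : m.f (wl w a) * m.f (el e b) = m.f (wl w1 a1) * m.f (el e1 b1)) :
    hv m w a e b V = hv m w1 a1 e1 b1 V := by
  unfold hv; rw [h]

theorem hv_eb {w : WK} {a : Λ} {e e1 : EK} {b b1 : Λ} {x x1 : BL Λ} (V : List (BL Λ))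
    (h : m.f (el e b) * m.f (bl true x) = m.f (el e1 b1) * m.f (bl true x1)) :
    hv m w a e b (x :: V) = hv m w a e1 b1 (x1 :: V) := by
  unfold hv
  rw [bls_cons, Model.ev_cons, bls_cons, Model.ev_cons, mul_assoc, mul_assoc,
    ← mul_assoc (m.f (el e b)), h, mul_assoc]

theorem hv_we_zero {w : WK} {a : Λ} {e : EK} {b : Λ} (V : List (BL Λ))
    (h : m.f (wl w a) * m.f (el e b) = 0) : hv m w a e b V = 0 := by
  unfold hv; rw [h, zero_mul]

theorem hv_eb_zero {w : WK} {a : Λ} {e : EK} {b : Λ} {x : BL Λ} (V : List (BL Λ))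
    (h : m.f (el e b) * m.f (bl true x) = 0) : hv m w a e b (x :: V) = 0 := by
  unfold hv
  rw [bls_cons, Model.ev_cons, mul_assoc, ← mul_assoc (m.f (el e b)), h, zero_mul, mul_zero]

theorem hv_sweep {w : WK} {a : Λ} {e : EK} {b : Λ} {V : List (BL Λ)}
    (h : ∀ x ∈ V, canPass e b x) (w' : WK) (a' : Λ) :
    hv m w a e b V * m.f (wl w' a') = 0 := by
  unfold hv
  rw [mul_assoc, mul_assoc, ← mul_assoc (m.f (el e b)), eu_sweep m h, mul_zero]

theorem hv_cons {w : WK} {a : Λ} {e : EK} {b : Λ} {V : List (BL Λ)}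
    (h : hv m w a e b V ≠ 0) : ∀ x ∈ V, cons e x.1 = true := by
  by_contra hV
  apply h
  unfold hv
  rw [mul_assoc, eu_incons m hV, mul_zero]

theorem hv_nodup {w : WK} {a : Λ} {e : EK} {b : Λ} {V : List (BL Λ)}
    (h : hv m w a e b V ≠ 0) : (V.map slot).Nodup := by
  apply ev_bls_nodup m true
  intro h0
  apply h
  unfold hv
  rw [h0, mul_zero]

/-! ### the chain to home, forward (labels `z`) -/

theorem hv_K (φ : Ph) (d : Data) (a v : Λ) (V : List (BL Λ)) :
    hv m (.A φ d) a (.K φ) v ((xout φ, z) :: V) = hv m (.A φ d) a (.G φ) z ((xin φ, v) :: V) :=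
  hv_eb m V (g_fetch m φ v).symm

theorem hv_P (φ : Ph) (d : Data) (a v : Λ) (V : List (BL Λ)) :
    hv m (.B φ d) a (.P φ) v ((xout φ, z) :: V) = hv m (.B φ d) a (.R φ) z ((xback φ, v) :: V) :=
  hv_eb m V (p_put m φ v)

theorem hv_C (φ : Ph) (d : Data) (v : Λ) (V : List (BL Λ)) :
    hv m (.C φ d) v (.N φ) z V = hv m (.A φ d) z (.K φ) v V :=
  hv_we m V (cn_step m φ d v)

theorem hv_D (φ : Ph) (d : Data) (v : Λ) (V : List (BL Λ)) :
    hv m (.D φ d) v (.N φ) z V = hv m (.B φ d) z (.P φ) v V :=
  hv_we m V (dn_step m φ d v)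

theorem hv_G (φ : Ph) (d : Data) (V : List (BL Λ)) :
    hv m (.A φ d) z (.G φ) z V = hv m (homeW (cur φ d)) z (homeE (cur φ d)) z V :=
  hv_we m V (ag_step m φ d)

theorem hv_R (φ : Ph) (d : Data) (V : List (BL Λ)) :
    hv m (.B φ d) z (.R φ) z V = hv m (homeW (nxt φ d)) z (homeE (nxt φ d)) z V :=
  hv_we m V (br_step m φ d)

section fin
variable [Fintype Λ]

theorem hv_K' (φ : Ph) (d : Data) (c : Cont Λ) :
    hv m (.A φ d) z (.K φ) (c.get (tz φ)) (bagO c (mB φ) (some (tz φ))) =
      hv m (homeW (cur φ d)) z (homeE (cur φ d)) z (bagO c (mB φ) none) := by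
  rw [hv_perm m (bagO_some φ (mB φ) c), hv_K, hv_G, hv_perm m (bagO_none φ (mB φ) c), tg_mB]

theorem hv_P' (φ : Ph) (d : Data) (c : Cont Λ) :
    hv m (.B φ d) z (.P φ) (c.get (tz φ)) (bagO c (mA φ) (some (tz φ))) =
      hv m (homeW (nxt φ d)) z (homeE (nxt φ d)) z (bagO c (mA φ) none) := by
  rw [hv_perm m (bagO_some φ (mA φ) c), hv_P, hv_R, hv_perm m (bagO_none φ (mA φ) c), tg_mA]

/-- home word of an abstract state -/
noncomputable def hword (s : BSt Λ) : List (Let Λ) :=
  bword (homeW s.st) z [] (homeE s.st) z (bagO s.c (hmark s.st s.lk) none)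

theorem ev_hword (s : BSt Λ) :
    m.ev (hword s) = hv m (homeW s.st) z (homeE s.st) z (bagO s.c (hmark s.st s.lk) none) := by
  unfold hword
  rw [← blk_eq_bword, ev_blk_hv m (by simp)]
  simp

omit [DecidableEq Λ] in
/-- all letters of a full block are consistent with the head mode -/
theorem own_cons {c : Cont Λ} {st : Option (Ph × Data)} {lk : Bool} {w : WK} {a : Λ} {e : EK}
    {b : Λ} {o : Option TT} (h : Own c st lk w a e b o) :
    ∀ x ∈ bagO c (hmark st lk) o, cons e x.1 = true := by
  have hx : ∀ x ∈ xs Λ, ∀ e, cons e x.1 = true := by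
    intro x hx e
    rw [mem_xs.mp hx]; rfl
  have key : ∀ e, cons e (letH c (hmark st lk) o).1 = true →
      cons e (letY c false o).1 = true → cons e (letY c true o).1 = true →
      ∀ x ∈ bagO c (hmark st lk) o, cons e x.1 = true := by
    intro e h1 h2 h3 x hx'
    unfold bagO at hx'
    simp only [List.mem_cons] at hx'
    rcases hx' with rfl | rfl | rfl | hx'
    · exact h1
    · exact h2
    · exact h3
    · exact hx x hx' e
  have hN : ∀ (φ : Ph) (hm : HM), (tz φ = .H ∨ hm = .b) → ∀ e : EK, e = .N φ ∨ e = .K φ ∨ e = .P φ →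
      (cons e (letH c hm (some (tz φ))).1 = true ∧
      cons e (letY c false (some (tz φ))).1 = true ∧
      cons e (letY c true (some (tz φ))).1 = true) := by
    intro φ hm hh e he
    have : ∀ φ : Ph, tz φ = .H ∨ tz φ = .Y false ∨ tz φ = .Y true := by decide
    rcases this φ with ht | ht | ht
    · rcases he with rfl | rfl | rfl <;>
      simp [letH, letY, ht, cons, EK.idle, EK.outPh]
    · have hb : hm = .b := by
        rcases hh with hh | hh
        · rw [ht] at hh; exact absurd hh (by decide)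
        · exact hh
      rcases he with rfl | rfl | rfl <;>
      simp [letH, letY, ht, cons, EK.idle, EK.outPh, hb]
    · have hb : hm = .b := by
        rcases hh with hh | hh
        · rw [ht] at hh; exact absurd hh (by decide)
        · exact hh
      rcases he with rfl | rfl | rfl <;>
      simp [letH, letY, ht, cons, EK.idle, EK.outPh, hb]
  have hcur : ∀ φ d, (tz φ = .H ∨ hmark (cur φ d) false = .b) := by
    intro φ d
    rw [hmark_cur]
    have : ∀ φ : Ph, (tz φ = .H ∨ mB φ = .b) := by decide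
    exact this φ
  have hnxt : ∀ φ d, (tz φ = .H ∨ hmark (nxt φ d) false = .b) := by
    intro φ d
    rw [hmark_nxt]
    have : ∀ φ : Ph, (tz φ = .H ∨ mA φ = .b) := by decide
    exact this φ
  cases h with
  | rest => apply key <;> cases lk <;> simp [letH, letY, cons, EK.idle, EK.outPh, hmark]
  | G φ d lk h =>
    have : ∀ φ : Ph, φ ≠ 0 → EK.idle (.G φ) = false := by decide
    by_cases hφ : φ = 0
    · subst hφ
      apply key <;> cases lk <;> simp [letH, letY, cons, EK.idle, EK.outPh, hmark, cur]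
    · have hl : lk = false := by
        cases lk
        · rfl
        · exact absurd (h rfl) hφ
      apply key <;> simp [letH, letY, cons, EK.idle, EK.outPh, hmark, cur, hφ, hl]
  | K φ d =>
    obtain ⟨h1, h2, h3⟩ := hN φ _ (hcur φ d) (.K φ) (by simp)
    exact key _ h1 h2 h3
  | C φ d =>
    obtain ⟨h1, h2, h3⟩ := hN φ _ (hcur φ d) (.N φ) (by simp)
    exact key _ h1 h2 h3
  | D φ d =>
    obtain ⟨h1, h2, h3⟩ := hN φ _ (hnxt φ d) (.N φ) (by simp)
    exact key _ h1 h2 h3
  | P φ d =>
    obtain ⟨h1, h2, h3⟩ := hN φ _ (hnxt φ d) (.P φ) (by simp)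
    exact key _ h1 h2 h3
  | R φ d lk h =>
    by_cases hφ : φ = 10
    · subst hφ
      apply key <;> cases lk <;> simp [letH, letY, cons, EK.idle, EK.outPh, hmark, nxt]
    · have hl : lk = false := by
        cases lk
        · rfl
        · exact absurd (h rfl) hφ
      apply key <;> simp [letH, letY, cons, EK.idle, EK.outPh, hmark, nxt, hφ, hl]
  | Ti t b lk h => apply key <;> cases lk <;> simp [letH, letY, cons, EK.idle, EK.outPh, hmark]
  | Tb t b φ d hφ h => apply key <;> simp [letH, letY, cons, EK.idle, EK.outPh, hmark]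

omit [DecidableEq Λ] [LabelSys Λ] [Fintype Λ] in
theorem canPass_of_Passable {e : EK} {b : Λ} {x : BL Λ} (h : Passable e b x)
    (hc : cons e x.1 = true) : canPass e b x := by
  obtain ⟨h1, h2, h3⟩ := h
  refine ⟨h1, hc, fun ht => ?_⟩
  by_cases hX : e.target = some .X
  · have hx : x.1 = .X := by
      rw [ht] at hX
      exact ty_eq_X.mp (Option.some.inj hX)
    refine ⟨hx, fun hb => ?_⟩
    apply h2 hX
    exact Prod.ext hx hb
  · exact absurd ht (h3 hX)

omit [DecidableEq Λ] [LabelSys Λ] [Fintype Λ] in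
theorem Passable_of_canPass {e : EK} {b : Λ} {x : BL Λ} (h : canPass e b x) :
    Passable e b x := by
  obtain ⟨h1, h2, h3⟩ := h
  refine ⟨h1, fun ht hx => ?_, fun ht hx => ?_⟩
  · subst hx
    exact (h3 ht).2 rfl
  · exact ht (by rw [hx, ty_eq_X.mpr (h3 hx).1])

theorem own_hv {c : Cont Λ} {st : Option (Ph × Data)} {lk : Bool} {w : WK} {a : Λ} {e : EK}
    {b : Λ} {o : Option TT} (h : Own c st lk w a e b o) :
    hv m w a e b (bagO c (hmark st lk) o) =
      hv m (homeW st) z (homeE st) z (bagO c (hmark st lk) none) := by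
  cases h with
  | rest => rfl
  | G φ d lk h => exact hv_G m φ d _
  | K φ d => rw [hmark_cur]; exact hv_K' m φ d c
  | C φ d => rw [hmark_cur, hv_C]; exact hv_K' m φ d c
  | D φ d => rw [hmark_nxt, hv_D]; exact hv_P' m φ d c
  | P φ d => rw [hmark_nxt]; exact hv_P' m φ d c
  | R φ d lk h => exact hv_R m φ d _
  | Ti t b lk h =>
    by_cases ht : t = .X
    · subst ht; exact hv_we m _ (st_X m (by rfl) b)
    · have hb := h ht
      subst hb
      exact hv_we m _ (st_ne_X m ht (by rfl) _ rfl)
  | Tb t b φ d hφ h =>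
    by_cases ht : t = .X
    · subst ht; exact hv_we m _ (st_X m (by simp [ctxOK, hφ]) b)
    · have hb := h ht
      subst hb
      exact hv_we m _ (st_ne_X m ht (by simp [ctxOK, hφ]) _ rfl)

/-- **every configuration is equal to its home word** -/
theorem conf_ev {s : BSt Λ} {B : List (Let Λ)} (h : Conf s B) : m.ev B = m.ev (hword s) := by
  obtain ⟨w, a, e, b, o, P, U, rfl, hO, hM, hP⟩ := h
  have hperm : (P ++ U).Perm (bagO s.c (hmark s.st s.lk) o) := by
    rw [← Multiset.coe_eq_coe, hM, bagO_coe]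
  have hc : ∀ x ∈ P ++ U, cons e x.1 = true := fun x hx => own_cons hO x (hperm.mem_iff.mp hx)
  have hcan : ∀ x ∈ P, canPass e b x := fun x hx =>
    canPass_of_Passable (hP x hx) (hc x (List.mem_append_left _ hx))
  rw [← blk_eq_bword, ev_blk_hv m hcan, hv_perm m hperm, own_hv m hO, ev_hword]

end fin

end Crest.Agent.R176.Machine
end

-- ▼ part R176/Machine/Own977D
section

/-!
# Row 176, part A, block (3): garbage (helper977)

`garbage` : a wall-free word between two walls in a nonzero product is a full block (`Conf`).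
-/

set_option autoImplicit false

namespace Crest.Agent.R176.Machine

open Gen

variable {Λ : Type} [Fintype Λ] [DecidableEq Λ] [LabelSys Λ] {M : Type*} [MonoidWithZero M]
variable (m : Model (step (Λ := Λ)) M)

omit [Fintype Λ] [DecidableEq Λ] [LabelSys Λ] in
theorem slot_H {x : BL Λ} (h : slot x = .H) : ∃ hm a, x = (.H hm, a) := by
  obtain ⟨x, a⟩ := x
  rcases x with _ | hm | ⟨j, o⟩ <;> simp [slot] at h
  exact ⟨hm, a, rfl⟩

omit [Fintype Λ] [DecidableEq Λ] [LabelSys Λ] in
theorem slot_Y {x : BL Λ} {j : Bool} (h : slot x = .Y j) : ∃ o a, x = (.Y j o, a) := by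
  obtain ⟨x, a⟩ := x
  rcases x with _ | hm | ⟨j', o⟩ <;> simp [slot] at h
  subst h
  exact ⟨o, a, rfl⟩

omit [Fintype Λ] [DecidableEq Λ] [LabelSys Λ] in
theorem slot_X {x : BL Λ} {c : Λ} (h : slot x = .X c) : x = (.X, c) := by
  obtain ⟨x, a⟩ := x
  rcases x with _ | hm | ⟨j', o⟩ <;> simp [slot] at h
  subst h
  rfl

omit [Fintype Λ] [LabelSys Λ] in
/-- extract the letter of a slot -/
theorem ex_slot {V : List (BL Λ)} {σ : Slot Λ} (h : σ ∈ V.map slot) :
    ∃ x V', slot x = σ ∧ V.Perm (x :: V') := by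
  obtain ⟨x, hx, rfl⟩ := List.mem_map.mp h
  exact ⟨x, V.erase x, rfl, List.perm_cons_erase hx⟩

omit [LabelSys Λ] in
/-- a bag with every slot exactly once -/
theorem full_perm {V : List (BL Λ)} (hf : ∀ σ : Slot Λ, σ ∈ V.map slot) (hn : (V.map slot).Nodup) :
    ∃ (hm : HM) (h : Λ) (o1 : Bool) (y1 : Λ) (o2 : Bool) (y2 : Λ),
      V.Perm ((.H hm, h) :: (.Y false o1, y1) :: (.Y true o2, y2) :: xs Λ) := by
  obtain ⟨xh, V1, hxh, h1⟩ := ex_slot (hf .H)
  have hn1 := (h1.map slot).nodup_iff.mp hn
  have hf1 : ∀ σ : Slot Λ, σ = .H ∨ σ ∈ V1.map slot := by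
    intro σ
    have := (h1.map slot).mem_iff.mp (hf σ)
    rw [List.map_cons, List.mem_cons, hxh] at this
    exact this
  rw [List.map_cons, List.nodup_cons, hxh] at hn1
  obtain ⟨xy, V2, hxy, h2⟩ := ex_slot (V := V1) (σ := .Y false)
    ((hf1 (.Y false)).resolve_left (by simp))
  have hn2 := (h2.map slot).nodup_iff.mp hn1.2
  have hf2 : ∀ σ : Slot Λ, σ = .H ∨ σ = .Y false ∨ σ ∈ V2.map slot := by
    intro σ
    rcases hf1 σ with h | h
    · exact Or.inl h
    · have := (h2.map slot).mem_iff.mp h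
      rw [List.map_cons, List.mem_cons, hxy] at this
      exact Or.inr this
  rw [List.map_cons, List.nodup_cons, hxy] at hn2
  obtain ⟨xw, V3, hxw, h3⟩ := ex_slot (V := V2) (σ := .Y true)
    (((hf2 (.Y true)).resolve_left (by simp)).resolve_left (by simp))
  have hn3 := (h3.map slot).nodup_iff.mp hn2.2
  have hf3 : ∀ c : Λ, .X c ∈ V3.map slot := by
    intro c
    have h := ((hf2 (.X c)).resolve_left (by simp)).resolve_left (by simp)
    have := (h3.map slot).mem_iff.mp h
    rw [List.map_cons, List.mem_cons, hxw] at this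
    exact this.resolve_left (by simp)
  rw [List.map_cons, List.nodup_cons, hxw] at hn3
  have hX3 : ∀ x ∈ V3, x.1 = .X := by
    intro x hx
    have hm3 : slot x ∈ V3.map slot := List.mem_map_of_mem hx
    have hm2 : slot x ∈ V2.map slot := (h3.map slot).mem_iff.mpr (by
      rw [List.map_cons]; exact List.mem_cons_of_mem _ hm3)
    have hm1 : slot x ∈ V1.map slot := (h2.map slot).mem_iff.mpr (by
      rw [List.map_cons]; exact List.mem_cons_of_mem _ hm2)
    obtain ⟨x, a⟩ := x
    rcases x with _ | hm | ⟨j, o⟩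
    · rfl
    · exact absurd hm1 hn1.1
    · cases j
      · exact absurd hm2 hn2.1
      · exact absurd hm3 hn3.1
  have hp3 : V3.Perm (xs Λ) := by
    refine (List.perm_ext_iff_of_nodup (List.Nodup.of_map _ hn3.2) nodup_xs).mpr ?_
    intro x
    rw [mem_xs]
    constructor
    · exact hX3 x
    · intro hx
      obtain ⟨y, hy, hyx⟩ := List.mem_map.mp (hf3 x.2)
      have := slot_X hyx
      have hxy' : x = y := by
        rw [this]; exact Prod.ext hx rfl
      rw [hxy']; exact hy
  obtain ⟨hm, h, rfl⟩ := slot_H hxh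
  obtain ⟨o1, y1, rfl⟩ := slot_Y hxy
  obtain ⟨o2, y2, rfl⟩ := slot_Y hxw
  exact ⟨hm, h, o1, y1, o2, y2, h1.trans (List.Perm.cons _ (h2.trans (List.Perm.cons _
    (h3.trans (List.Perm.cons _ hp3)))))⟩

/-- marks allowed in the mode `e` (no label out) -/
theorem inv_none {e : EK} (he : e.outPh = none) {V : List (BL Λ)}
    (hf : ∀ σ : Slot Λ, σ ∈ V.map slot) (hn : (V.map slot).Nodup)
    (hc : ∀ x ∈ V, cons e x.1 = true) :
    ∃ (c : Cont Λ) (hm : HM), V.Perm (bagO c hm none) ∧
      (e.idle = true → hm = .f ∨ hm = .l) ∧ (e.idle = false → hm = .b) := by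
  obtain ⟨hm, h, o1, y1, o2, y2, hp⟩ := full_perm hf hn
  have c1 := hc _ (hp.mem_iff.mpr (List.mem_cons_self (a := (BK.H hm, h))))
  have c2 := hc _ (hp.mem_iff.mpr (List.mem_cons_of_mem _ (List.mem_cons_self (a := (BK.Y false o1, y1)))))
  have c3 := hc _ (hp.mem_iff.mpr (List.mem_cons_of_mem _ (List.mem_cons_of_mem _
    (List.mem_cons_self (a := (BK.Y true o2, y2))))))
  have e1 : o1 = false := by
    simpa [cons, he] using c2
  have e2 : o2 = false := by
    simpa [cons, he] using c3
  subst e1 e2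
  refine ⟨⟨h, y1, y2⟩, hm, ?_, ?_, ?_⟩
  · simpa [bagO, letH, letY, Cont.get] using hp
  · intro hi
    simpa [cons, he, hi] using c1
  · intro hi
    simpa [cons, he, hi] using c1

section
variable {m}
variable {w : WK} {a : Λ} {e : EK} {b : Λ} {V : List (BL Λ)} {w' : WK} {a' : Λ}

omit [Fintype Λ] in
theorem sweep_ex (h : hv m w a e b V * m.f (wl w' a') ≠ 0) (he : e.moving = true) :
    ∃ x ∈ V, e.target = some x.1.ty ∧ (x.1 = .X → x.2 = b) := by
  have hv0 : hv m w a e b V ≠ 0 := by
    intro h0; apply h; rw [h0, zero_mul]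
  by_contra hn
  push Not at hn
  apply h
  apply hv_sweep
  intro x hx
  refine ⟨he, hv_cons m hv0 x hx, fun ht => ?_⟩
  exact hn x hx ht

omit [Fintype Λ] in
/-- tests: all slots are present -/
theorem full_of_home {c : Option (Ph × Data)} (hc : ctxOK c c.isSome = true)
    (h : hv m (homeW c) z (homeE c) z V * m.f (wl w' a') ≠ 0) : ∀ σ : Slot Λ, σ ∈ V.map slot := by
  intro σ
  cases σ with
  | X a0 =>
    have e1 : hv m (homeW c) z (homeE c) z V = hv m (.S .X c) z (.T .X c.isSome) a0 V :=
      hv_we m V (st_X m hc a0).symm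
    rw [e1] at h
    obtain ⟨x, hx, ht, hb⟩ := sweep_ex h rfl
    have hX : x.1 = .X := by
      have : x.1.ty = .X := by simpa [EK.target] using ht.symm
      exact ty_eq_X.mp this
    have : slot x = .X a0 := by
      unfold slot; rw [hX]; simp [hb hX]
    rw [← this]
    exact List.mem_map_of_mem hx
  | H =>
    have e1 : hv m (homeW c) z (homeE c) z V = hv m (.S .H c) z (.T .H c.isSome) z V :=
      hv_we m V (st_ne_X m (by decide) hc z rfl).symm
    rw [e1] at h
    obtain ⟨x, hx, ht, hb⟩ := sweep_ex h rfl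
    have hX : x.1.ty = .H := by simpa [EK.target] using ht.symm
    have : slot x = .H := by
      obtain ⟨x, a⟩ := x
      rcases x with _ | hm | ⟨j, o⟩ <;> simp [BK.ty] at hX
      rfl
    rw [← this]
    exact List.mem_map_of_mem hx
  | Y j =>
    have e1 : hv m (homeW c) z (homeE c) z V = hv m (.S (.Y j) c) z (.T (.Y j) c.isSome) z V :=
      hv_we m V (st_ne_X m (by simp) hc z rfl).symm
    rw [e1] at h
    obtain ⟨x, hx, ht, hb⟩ := sweep_ex h rfl
    have hX : x.1.ty = .Y j := by simpa [EK.target] using ht.symm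
    have : slot x = .Y j := by
      obtain ⟨x, a⟩ := x
      rcases x with _ | hm | ⟨j', o⟩ <;> simp [BK.ty] at hX
      subst hX
      rfl
    rw [← this]
    exact List.mem_map_of_mem hx

end

theorem cur_OK (φ : Ph) (d : Data) : ctxOK (cur φ d) (cur φ d).isSome = true := by
  unfold cur
  by_cases h : φ = 0 <;> simp [h, ctxOK]

theorem nxt_OK (φ : Ph) (d : Data) : ctxOK (nxt φ d) (nxt φ d).isSome = true := by
  have : ∀ φ : Ph, φ ≠ 10 → φ + 1 ≠ 0 := by decide
  unfold nxt
  by_cases h : φ = 10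
  · simp [h, ctxOK]
  · simp [h, ctxOK, this φ h]

omit [DecidableEq Λ] in
/-- comparison of two decompositions with the target letter in front -/
theorem tgt_eq {φ : Ph} {hm hm' : HM} {v : Λ} {V : List (BL Λ)} {c : Cont Λ}
    (hp : ((tg φ hm', v) :: V).Perm (bagO c hm none))
    (hn : (((tg φ hm', v) :: V).map slot).Nodup) :
    (tg φ hm', v) = (tg φ hm, c.get (tz φ)) ∧ V.Perm (oth φ hm c) := by
  have h1 := hp.trans (bagO_none φ hm c)
  have hs : ∀ (k k' : HM) (v v' : Λ), slot ((tg φ k, v) : BL Λ) = slot ((tg φ k', v') : BL Λ) := by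
    intro k k' v v'
    unfold tg
    have h := tz_ne_X φ
    cases ht : tz φ with
    | X => exact absurd ht h
    | H => simp [slot]
    | Y j => simp [slot]
  have he : (tg φ hm', v) = (tg φ hm, c.get (tz φ)) := by
    have hmem := h1.mem_iff.mp (List.mem_cons_self (a := ((tg φ hm', v) : BL Λ)))
    rcases List.mem_cons.mp hmem with h | h
    · exact h
    · exfalso
      have hn' := (h1.map slot).nodup_iff.mp hn
      rw [List.map_cons, List.nodup_cons] at hn'
      apply hn'.1
      rw [hs hm hm' _ v]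
      exact List.mem_map_of_mem h
  refine ⟨he, ?_⟩
  rw [he] at h1
  exact h1.cons_inv

theorem own_of_hv {w : WK} {a : Λ} {e : EK} {b : Λ} {V : List (BL Λ)} {w' : WK} {a' : Λ}
    (h : hv m w a e b V * m.f (wl w' a') ≠ 0) :
    ∃ (c : Cont Λ) (st : Option (Ph × Data)) (lk : Bool) (o : Option TT),
      Own c st lk w a e b o ∧ V.Perm (bagO c (hmark st lk) o) := by
  have hv0 : hv m w a e b V ≠ 0 := by
    intro h0; apply h; rw [h0, zero_mul]
  have hwe : m.f (wl w a) * m.f (el e b) ≠ 0 := by
    intro h0; apply hv0; exact hv_we_zero m V h0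
  have hlk : ∀ hm : HM, (hm = .f ∨ hm = .l) → ∃ lk : Bool, hmark none lk = hm := by
    intro hm hh
    rcases hh with rfl | rfl
    · exact ⟨false, rfl⟩
    · exact ⟨true, rfl⟩
  cases we_cases m hwe with
  | rest hw he ha hb =>
    subst hw he ha hb
    have hf := full_of_home (m := m) (w' := w') (a' := a') (c := none) (V := V) (by rfl) h
    obtain ⟨c, hm, hp, hi, _⟩ := inv_none (e := .home) rfl hf (hv_nodup m hv0) (hv_cons m hv0)
    obtain ⟨lk, rfl⟩ := hlk hm (hi rfl)
    exact ⟨c, none, lk, none, .rest lk, hp⟩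
  | G φ d hw he ha hb =>
    subst hw he ha hb
    have hf := full_of_home (m := m) (w' := w') (a' := a') (c := cur φ d) (V := V) (cur_OK φ d) (by rw [← hv_G]; exact h)
    obtain ⟨c, hm, hp, hi, hi'⟩ := inv_none (e := .G φ) rfl hf (hv_nodup m hv0) (hv_cons m hv0)
    by_cases hφ : φ = 0
    · obtain ⟨lk, rfl⟩ := hlk hm (hi (by simp [EK.idle, hφ]))
      refine ⟨c, cur φ d, lk, none, .G φ d lk (fun _ => hφ), ?_⟩
      simpa [cur, hφ] using hp
    · have := hi' (by simp [EK.idle, hφ])
      subst this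
      refine ⟨c, cur φ d, false, none, .G φ d false (by simp), ?_⟩
      simpa [cur, hφ, hmark] using hp
  | K φ d hw he ha =>
    subst hw he ha
    obtain ⟨x, hx, ht, -⟩ := sweep_ex h rfl
    have hty : x.1.ty = tz φ := by simpa [EK.target] using ht.symm
    have hx1 : x.1 = xout φ := K_tgt φ x.1 (hv_cons m hv0 x hx) hty
    obtain ⟨V1, hV1⟩ : ∃ V1, V.Perm (x :: V1) := ⟨V.erase x, List.perm_cons_erase hx⟩
    have hx2 : x.2 = z := by
      by_contra hne
      apply hv0
      rw [hv_perm m hV1]
      apply hv_eb_zero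
      have : x = (xout φ, x.2) := Prod.ext hx1 rfl
      rw [this]
      exact k_out_zero m φ b hne
    have hxe : x = (xout φ, z) := Prod.ext hx1 hx2
    subst hxe
    have e1 : hv m (.A φ d) z (.K φ) b V = hv m (.A φ d) z (.G φ) z ((xin φ, b) :: V1) := by
      rw [hv_perm m hV1, hv_K]
    rw [e1] at h hv0
    have hf := full_of_home (m := m) (w' := w') (a' := a') (c := cur φ d) (V := (xin φ, b) :: V1) (cur_OK φ d)
      (by rw [← hv_G]; exact h)
    have hn := hv_nodup m hv0
    obtain ⟨c, hm, hp, hi, hi'⟩ := inv_none (e := .G φ) rfl hf hn (hv_cons m hv0)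
    rw [← tg_mB] at hp hn
    obtain ⟨he1, he2⟩ := tgt_eq hp hn
    have hb : b = c.get (tz φ) := (Prod.mk.inj he1).2
    have hmk : hm = mB φ := by
      have h1 : tg φ (mB φ) = tg φ hm := (Prod.mk.inj he1).1
      have key : ∀ (φ : Ph) (hm : HM), tg φ (mB φ) = tg φ hm → (φ ≠ 0 → hm = .b) →
          hm = mB φ := by decide
      exact key φ hm h1 (fun h0 => hi' (by simp [EK.idle, h0]))
    refine ⟨c, cur φ d, false, some (tz φ), ?_, ?_⟩
    · rw [hb]; exact .K φ d
    · rw [hmark_cur]
      rw [hmk] at he2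
      exact hV1.trans ((List.Perm.cons _ he2).trans (bagO_some φ (mB φ) c).symm)
  | C φ d hw he hb =>
    subst hw he hb
    rw [hv_C] at h hv0
    obtain ⟨x, hx, ht, -⟩ := sweep_ex h rfl
    have hty : x.1.ty = tz φ := by simpa [EK.target] using ht.symm
    have hx1 : x.1 = xout φ := K_tgt φ x.1 (hv_cons m hv0 x hx) hty
    obtain ⟨V1, hV1⟩ : ∃ V1, V.Perm (x :: V1) := ⟨V.erase x, List.perm_cons_erase hx⟩
    have hx2 : x.2 = z := by
      by_contra hne
      apply hv0
      rw [hv_perm m hV1]
      apply hv_eb_zero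
      have : x = (xout φ, x.2) := Prod.ext hx1 rfl
      rw [this]
      exact k_out_zero m φ a hne
    have hxe : x = (xout φ, z) := Prod.ext hx1 hx2
    subst hxe
    have e1 : hv m (.A φ d) z (.K φ) a V = hv m (.A φ d) z (.G φ) z ((xin φ, a) :: V1) := by
      rw [hv_perm m hV1, hv_K]
    rw [e1] at h hv0
    have hf := full_of_home (m := m) (w' := w') (a' := a') (c := cur φ d) (V := (xin φ, a) :: V1) (cur_OK φ d)
      (by rw [← hv_G]; exact h)
    have hn := hv_nodup m hv0
    obtain ⟨c, hm, hp, hi, hi'⟩ := inv_none (e := .G φ) rfl hf hn (hv_cons m hv0)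
    rw [← tg_mB] at hp hn
    obtain ⟨he1, he2⟩ := tgt_eq hp hn
    have hb : a = c.get (tz φ) := (Prod.mk.inj he1).2
    have hmk : hm = mB φ := by
      have h1 : tg φ (mB φ) = tg φ hm := (Prod.mk.inj he1).1
      have key : ∀ (φ : Ph) (hm : HM), tg φ (mB φ) = tg φ hm → (φ ≠ 0 → hm = .b) →
          hm = mB φ := by decide
      exact key φ hm h1 (fun h0 => hi' (by simp [EK.idle, h0]))
    refine ⟨c, cur φ d, false, some (tz φ), ?_, ?_⟩
    · rw [hb]; exact .C φ d
    · rw [hmark_cur]
      rw [hmk] at he2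
      exact hV1.trans ((List.Perm.cons _ he2).trans (bagO_some φ (mB φ) c).symm)
  | D φ d hw he hb =>
    subst hw he hb
    rw [hv_D] at h hv0
    obtain ⟨x, hx, ht, -⟩ := sweep_ex h rfl
    have hty : x.1.ty = tz φ := by simpa [EK.target] using ht.symm
    have hx1 : x.1 = xout φ := P_tgt φ x.1 (hv_cons m hv0 x hx) hty
    obtain ⟨V1, hV1⟩ : ∃ V1, V.Perm (x :: V1) := ⟨V.erase x, List.perm_cons_erase hx⟩
    have hx2 : x.2 = z := by
      by_contra hne
      apply hv0
      rw [hv_perm m hV1]
      apply hv_eb_zero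
      have : x = (xout φ, x.2) := Prod.ext hx1 rfl
      rw [this]
      exact p_put_zero m φ a hne
    have hxe : x = (xout φ, z) := Prod.ext hx1 hx2
    subst hxe
    have e1 : hv m (.B φ d) z (.P φ) a V = hv m (.B φ d) z (.R φ) z ((xback φ, a) :: V1) := by
      rw [hv_perm m hV1, hv_P]
    rw [e1] at h hv0
    have hf := full_of_home (m := m) (w' := w') (a' := a') (c := nxt φ d) (V := (xback φ, a) :: V1) (nxt_OK φ d)
      (by rw [← hv_R]; exact h)
    have hn := hv_nodup m hv0
    obtain ⟨c, hm, hp, hi, hi'⟩ := inv_none (e := .R φ) rfl hf hn (hv_cons m hv0)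
    rw [← tg_mA] at hp hn
    obtain ⟨he1, he2⟩ := tgt_eq hp hn
    have hb : a = c.get (tz φ) := (Prod.mk.inj he1).2
    have hmk : hm = mA φ := by
      have h1 : tg φ (mA φ) = tg φ hm := (Prod.mk.inj he1).1
      have key : ∀ (φ : Ph) (hm : HM), tg φ (mA φ) = tg φ hm → (φ ≠ 10 → hm = .b) →
          hm = mA φ := by decide
      exact key φ hm h1 (fun h0 => hi' (by simp [EK.idle, h0]))
    refine ⟨c, nxt φ d, false, some (tz φ), ?_, ?_⟩
    · rw [hb]; exact .D φ d
    · rw [hmark_nxt]
      rw [hmk] at he2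
      exact hV1.trans ((List.Perm.cons _ he2).trans (bagO_some φ (mA φ) c).symm)
  | P φ d hw he ha =>
    subst hw he ha
    obtain ⟨x, hx, ht, -⟩ := sweep_ex h rfl
    have hty : x.1.ty = tz φ := by simpa [EK.target] using ht.symm
    have hx1 : x.1 = xout φ := P_tgt φ x.1 (hv_cons m hv0 x hx) hty
    obtain ⟨V1, hV1⟩ : ∃ V1, V.Perm (x :: V1) := ⟨V.erase x, List.perm_cons_erase hx⟩
    have hx2 : x.2 = z := by
      by_contra hne
      apply hv0
      rw [hv_perm m hV1]
      apply hv_eb_zero
      have : x = (xout φ, x.2) := Prod.ext hx1 rfl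
      rw [this]
      exact p_put_zero m φ b hne
    have hxe : x = (xout φ, z) := Prod.ext hx1 hx2
    subst hxe
    have e1 : hv m (.B φ d) z (.P φ) b V = hv m (.B φ d) z (.R φ) z ((xback φ, b) :: V1) := by
      rw [hv_perm m hV1, hv_P]
    rw [e1] at h hv0
    have hf := full_of_home (m := m) (w' := w') (a' := a') (c := nxt φ d) (V := (xback φ, b) :: V1) (nxt_OK φ d)
      (by rw [← hv_R]; exact h)
    have hn := hv_nodup m hv0
    obtain ⟨c, hm, hp, hi, hi'⟩ := inv_none (e := .R φ) rfl hf hn (hv_cons m hv0)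
    rw [← tg_mA] at hp hn
    obtain ⟨he1, he2⟩ := tgt_eq hp hn
    have hb : b = c.get (tz φ) := (Prod.mk.inj he1).2
    have hmk : hm = mA φ := by
      have h1 : tg φ (mA φ) = tg φ hm := (Prod.mk.inj he1).1
      have key : ∀ (φ : Ph) (hm : HM), tg φ (mA φ) = tg φ hm → (φ ≠ 10 → hm = .b) →
          hm = mA φ := by decide
      exact key φ hm h1 (fun h0 => hi' (by simp [EK.idle, h0]))
    refine ⟨c, nxt φ d, false, some (tz φ), ?_, ?_⟩
    · rw [hb]; exact .P φ d
    · rw [hmark_nxt]
      rw [hmk] at he2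
      exact hV1.trans ((List.Perm.cons _ he2).trans (bagO_some φ (mA φ) c).symm)
  | R φ d hw he ha hb =>
    subst hw he ha hb
    have hf := full_of_home (m := m) (w' := w') (a' := a') (c := nxt φ d) (V := V) (nxt_OK φ d) (by rw [← hv_R]; exact h)
    obtain ⟨c, hm, hp, hi, hi'⟩ := inv_none (e := .R φ) rfl hf (hv_nodup m hv0) (hv_cons m hv0)
    by_cases hφ : φ = 10
    · obtain ⟨lk, rfl⟩ := hlk hm (hi (by simp [EK.idle, hφ]))
      refine ⟨c, nxt φ d, lk, none, .R φ d lk (fun _ => hφ), ?_⟩
      simpa [nxt, hφ] using hp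
    · have := hi' (by simp [EK.idle, hφ])
      subst this
      refine ⟨c, nxt φ d, false, none, .R φ d false (by simp), ?_⟩
      simpa [nxt, hφ, hmark] using hp
  | T t c busy hw he hc ha hb =>
    subst hw he ha
    have e1 : hv m (.S t c) z (.T t busy) b V = hv m (homeW c) z (homeE c) z V := by
      by_cases ht : t = .X
      · subst ht; exact hv_we m _ (st_X m hc b)
      · have hb' := hb ht
        subst hb'
        exact hv_we m _ (st_ne_X m ht hc _ rfl)
    have hbusy : busy = c.isSome := by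
      rcases c with _ | ⟨φ, d⟩
      · simpa [ctxOK] using hc
      · have := hc
        simp only [ctxOK, Bool.and_eq_true] at this
        simpa using this.1
    subst hbusy
    have hf := full_of_home (m := m) (w' := w') (a' := a') (c := c) (V := V) hc (by rw [← e1]; exact h)
    obtain ⟨q, hm, hp, hi, hi'⟩ := inv_none (e := .T t c.isSome) rfl hf (hv_nodup m hv0)
      (hv_cons m hv0)
    rcases c with _ | ⟨φ, d⟩
    · obtain ⟨lk, rfl⟩ := hlk hm (hi rfl)
      exact ⟨q, none, lk, none, .Ti t b lk hb, hp⟩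
    · have := hi' rfl
      subst this
      have hφ : φ ≠ 0 := by
        simp only [ctxOK, Bool.and_eq_true, decide_eq_true_eq] at hc
        exact hc.2
      exact ⟨q, some (φ, d), false, none, .Tb t b φ d hφ hb, hp⟩

/-- a block word followed by a wall in a nonzero product is a configuration -/
theorem conf_of_blk {w : WK} {a : Λ} {P : List (BL Λ)} {e : EK} {b : Λ} {U : List (BL Λ)}
    {w' : WK} {a' : Λ} (h : m.ev (blk w a P e b U ++ [wl w' a']) ≠ 0) :
    ∃ s, Conf s (blk w a P e b U) := by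
  rw [Model.ev_append, Model.ev_singleton] at h
  have hB : m.ev (blk w a P e b U) ≠ 0 := by
    intro h0; apply h; rw [h0, zero_mul]
  have hP := blk_canPass m hB
  rw [ev_blk_hv m hP] at h
  obtain ⟨c, st, lk, o, hO, hp⟩ := own_of_hv m h
  refine ⟨⟨c, st, lk⟩, w, a, e, b, o, P, U, rfl, hO, ?_, fun x hx => Passable_of_canPass (hP x hx)⟩
  rw [← bagO_coe]
  exact Multiset.coe_eq_coe.mpr hp

/-- **GARBAGE**: a wall-free word between two walls in a nonzero product is a full block -/
theorem garbage (w : WK) (a : Λ) (t : List (Let Λ)) (ht : ∀ x ∈ t, Key309.isWb x = false)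
    (w' : WK) (a' : Λ) (h : m.ev ((.W w, a) :: t ++ [(.W w', a')]) ≠ 0) :
    ∃ s, Conf s ((.W w, a) :: t) := by
  have h1 : m.ev ((.W w, a) :: t) ≠ 0 := by
    intro h0; apply h; rw [Model.ev_append, h0, zero_mul]
  have h2 : m.ev t ≠ 0 := by
    intro h0; apply h1; rw [Model.ev_cons, h0, mul_zero]
  obtain ⟨P, U, hPU⟩ := Key309.parse m t ht h2
  rcases hPU with ⟨rfl, hPU⟩ | ⟨e, b, rfl⟩
  · exfalso
    apply h
    rcases hPU with rfl | rfl
    · cases U with
      | nil =>
        simp only [List.map_nil, List.append_nil, List.nil_append, Model.ev_cons, Model.ev_nil,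
          mul_one, List.cons_append]
        exact ww_zero m w w' a a'
      | cons x U =>
        simp only [List.map_nil, List.nil_append, List.map_cons, List.cons_append, Model.ev_cons]
        rw [← mul_assoc]
        have := wb_true_zero m w a x
        unfold wl bl at this
        unfold Key309.ul
        rw [this, zero_mul]
    · rcases List.eq_nil_or_concat P with rfl | ⟨P', x, rfl⟩
      · simp only [List.map_nil, List.append_nil, List.nil_append, Model.ev_cons, Model.ev_nil,
          mul_one, List.cons_append]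
        exact ww_zero m w w' a a'
      · have := bw_false_zero m w' a' x
        unfold wl bl at this
        simp only [List.map_nil, List.append_nil, List.map_append, List.map_cons,
          List.cons_append, Model.ev_cons, Model.ev_append, Model.ev_nil, mul_one, List.append_assoc,
          List.nil_append, List.concat_eq_append]
        unfold Key309.pl
        rw [this, mul_zero, mul_zero]
  · exact conf_of_blk m (w' := w') (a' := a') h

end Crest.Agent.R176.Machine
end

-- ▼ part R176/Machine/Own977E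

/-!
# Row 176, part A, block (3): NormQ / NormP (helper977)
-/

set_option autoImplicit false

namespace Crest.Agent.R176.Machine

open Gen

variable {Λ : Type} [Fintype Λ] [DecidableEq Λ] [LabelSys Λ]

omit [DecidableEq Λ] in
/-- the home word is the standard home block -/
theorem hword_eq_blkL (s : BSt Λ) : hword s = Key.blkL s.st (hmark s.st s.lk) s.c := by
  unfold hword bword Key.blkL bagO Key.xs xs letH letY bg
  simp [Cont.get, Function.comp_def]

omit [Fintype Λ] [DecidableEq Λ] in
theorem own_locked {c : Cont Λ} {st : Option (Ph × Data)} {lk : Bool} {w : WK} {a : Λ} {e : EK}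
    {b : Λ} {o : Option TT} (h : Own c st lk w a e b o) :
    (st = none ∧ locked w = false ∧ (a = z ∨ (a = c.h ∧ lk = false))) ∨
      (∃ φ d, φ ≠ 0 ∧ st = some (φ, d) ∧ locked w = true) := by
  have h10 : ∀ φ : Ph, φ ≠ 10 → φ + 1 ≠ 0 := by decide
  cases h with
  | rest => exact Or.inl ⟨rfl, rfl, Or.inl rfl⟩
  | G φ d lk h =>
    by_cases hφ : φ = 0
    · exact Or.inl ⟨by simp [cur, hφ], by simp [locked, hφ], Or.inl rfl⟩
    · exact Or.inr ⟨φ, d, hφ, by simp [cur, hφ], by simp [locked, hφ]⟩
  | K φ d =>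
    by_cases hφ : φ = 0
    · exact Or.inl ⟨by simp [cur, hφ], by simp [locked, hφ], Or.inl rfl⟩
    · exact Or.inr ⟨φ, d, hφ, by simp [cur, hφ], by simp [locked, hφ]⟩
  | C φ d =>
    by_cases hφ : φ = 0
    · subst hφ
      exact Or.inl ⟨by simp [cur], by simp [locked], Or.inr ⟨rfl, rfl⟩⟩
    · exact Or.inr ⟨φ, d, hφ, by simp [cur, hφ], by simp [locked, hφ]⟩
  | D φ d =>
    by_cases hφ : φ = 10
    · subst hφ
      exact Or.inl ⟨by simp [nxt], by simp [locked], Or.inr ⟨rfl, rfl⟩⟩
    · exact Or.inr ⟨φ + 1, d, h10 φ hφ, by simp [nxt, hφ], by simp [locked, hφ]⟩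
  | P φ d =>
    by_cases hφ : φ = 10
    · exact Or.inl ⟨by simp [nxt, hφ], by simp [locked, hφ], Or.inl rfl⟩
    · exact Or.inr ⟨φ + 1, d, h10 φ hφ, by simp [nxt, hφ], by simp [locked, hφ]⟩
  | R φ d lk h =>
    by_cases hφ : φ = 10
    · exact Or.inl ⟨by simp [nxt, hφ], by simp [locked, hφ], Or.inl rfl⟩
    · exact Or.inr ⟨φ + 1, d, h10 φ hφ, by simp [nxt, hφ], by simp [locked, hφ]⟩
  | Ti t b lk h => exact Or.inl ⟨rfl, rfl, Or.inl rfl⟩
  | Tb t b φ d hφ h => exact Or.inr ⟨φ, d, hφ, rfl, by simp [locked, hφ]⟩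

omit [DecidableEq Λ] in
theorem conf_length {s : BSt Λ} {B : List (Let Λ)} (h : Conf s B) :
    B.length = Fintype.card Λ + 5 := by
  obtain ⟨w, a, e, b, o, P, U, rfl, hO, hM, hP⟩ := h
  have h1 := congrArg Multiset.card hM
  rw [← bagO_coe, Multiset.coe_card, Multiset.coe_card] at h1
  simp only [bagO, xs, List.length_cons, List.length_map, Finset.length_toList,
    Finset.card_univ, List.length_append] at h1
  simp only [bword, List.length_cons, List.length_append, List.length_map]
  omega

variable {M : Type*} [MonoidWithZero M] (m : Model (step (Λ := Λ)) M)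

/-- **NORM** -/
theorem normQ : Key309.NormQ m := by
  intro w a t ht
  by_cases h : ∀ (w' : WK) (b : Λ), m.ev ((((.W w, a) : Let Λ) :: t) ++ [(.W w', b)]) = 0
  · exact Or.inl h
  right
  push Not at h
  obtain ⟨w', b, h⟩ := h
  have ht' : ∀ x ∈ t, Key309.isWb x = false := by
    intro x hx
    have := ht x hx
    obtain ⟨κ, c⟩ := x
    rcases κ with ⟨s, x⟩ | e | w
    · rfl
    · rfl
    · exact absurd ⟨w, rfl⟩ this
  obtain ⟨s, hs⟩ := garbage m w a t ht' w' b h
  have hl := conf_length hs
  refine ⟨s.st, hmark s.st s.lk, s.c, ?_, ?_, ?_⟩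
  · simpa using hl
  · intro w' b
    rw [Model.ev_append, Model.ev_append, conf_ev m hs, hword_eq_blkL]
  · obtain ⟨w1, a1, e, b1, o, P, U, hB, hO, hM, hP⟩ := hs
    have hw : ((.W w, a) : Let Λ) = (.W w1, a1) := (List.cons.inj hB).1
    obtain ⟨hw1, hw2⟩ := Prod.mk.inj hw
    obtain rfl : w = w1 := by injection hw1
    obtain rfl : a = a1 := hw2
    rcases own_locked hO with ⟨h1, h2, h3⟩ | ⟨φ, d, h1, h2, h3⟩
    · left
      refine ⟨h1, h2, ?_, ?_⟩
      · rcases h3 with h3 | ⟨h3, h4⟩
        · exact Or.inl h3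
        · exact Or.inr ⟨h3, by rw [h1, h4]; rfl⟩
      · rw [h1]
        cases s.lk
        · exact Or.inl rfl
        · exact Or.inr rfl
    · right
      exact ⟨φ, d, h1, h2, h3, by rw [h2]; rfl⟩

theorem normP : Key.NormP m := (normQ m).normP

end Crest.Agent.R176.Machine
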