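import Crest.Agent.R176.StDef
import Crest.Agent.R176.Cover294Two
import Crest.Agent.R176.Fpt396
import Crest.Agent.R176.Tits370
import Crest.Agent.R176.Ph396
import Crest.Agent.R176.Cover294Cyc
import Crest.Agent.R176.Final313C
import Crest.Agent.R176.Machine.Key309B
import Crest.Agent.R176.Machine.Sim291C
import Crest.Agent.R176.Gen.Mon206

-- ▼ part R176/Exc275A
section

/-! Row 176, part B, block EXC (helper275), step (B): the symbols `[E_ij(w), H_ji(a)]`. -/

set_option autoImplicit false

namespace Crest.Agent.R176.Exc275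

open St
open scoped commutatorElement

/-! ### group lemmas -/

section grp

variable {G : Type*} [Group G]

theorem yx_of_comm {x y e : G} (h : ⁅x, y⁆ = e) : y * x * y⁻¹ = e⁻¹ * x := by
  rw [← h, commutatorElement_def]; group




theorem comm_mul_left (a b c : G) : ⁅a * b, c⁆ = a * ⁅b, c⁆ * a⁻¹ * ⁅a, c⁆ := by
  simp only [commutatorElement_def]; group

theorem comm_mul_right (a b c : G) : ⁅a, b * c⁆ = ⁅a, b⁆ * (b * ⁅a, c⁆ * b⁻¹) := by
  simp only [commutatorElement_def]; group

theorem comm_mul_left' {a b c : G} (h : Commute a ⁅b, c⁆) : ⁅a * b, c⁆ = ⁅b, c⁆ * ⁅a, c⁆ := by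
  rw [comm_mul_left, h.eq, mul_inv_cancel_right]

theorem comm_mul_right' {a b c : G} (h : Commute b ⁅a, c⁆) : ⁅a, b * c⁆ = ⁅a, b⁆ * ⁅a, c⁆ := by
  rw [comm_mul_right, h.eq, mul_inv_cancel_right]

/-- If `g` commutes with `x` and `y` then it commutes with `[x,y]`. -/
theorem commute_comm {g x y : G} (h1 : Commute g x) (h2 : Commute g y) : Commute g ⁅x, y⁆ := by
  rw [commutatorElement_def]
  exact ((h1.mul_right h2).mul_right h1.inv_right).mul_right h2.inv_right

/-- Hall-Witt identity in the special case needed. -/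
theorem hallWitt {x y z c e : G} (hxz : Commute x z) (hc : ⁅y, z⁆ = c) (he : ⁅x, y⁆ = e)
    (hcy : Commute c y) (hcz : Commute c z) (hec : Commute e c) : ⁅e, z⁆ = ⁅x, c⁆ := by
  have h1 : y * z = c * z * y := by rw [← hc, commutatorElement_def]; group
  have h2 : x * y = e * y * x := by rw [← he, commutatorElement_def]; group
  -- e z = [x,c] z e
  have key : e * z * e⁻¹ = ⁅x, c⁆ * z := by
    have e1 : e = x * y * x⁻¹ * y⁻¹ := by rw [← he, commutatorElement_def]
    -- y⁻¹ z y = z c⁻¹
    have e2 : y⁻¹ * z * y = z * c⁻¹ := by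
      have : z * y = y * (z * c⁻¹) := by
        rw [← mul_assoc, h1, mul_assoc (c * z), ← hcy.inv_left.eq, ← mul_assoc, hcz.eq,
          mul_inv_cancel_right]
      rw [mul_assoc, this, inv_mul_cancel_left]
    have e3 : y * x⁻¹ * y⁻¹ = x⁻¹ * e := by
      have : y * x * y⁻¹ = e⁻¹ * x := yx_of_comm he
      have h4 := congrArg (fun g => g⁻¹) this
      simp only [mul_inv_rev, inv_inv] at h4
      rw [← h4]; group
    have e4 : y * x⁻¹ * c⁻¹ * x * y⁻¹ = x⁻¹ * c⁻¹ * x := by
      have a1 : y * x⁻¹ * c⁻¹ * x * y⁻¹ =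
          (y * x⁻¹ * y⁻¹) * (y * c⁻¹ * y⁻¹) * (y * x⁻¹ * y⁻¹)⁻¹ := by group
      rw [a1, e3, ← hcy.inv_left.eq, mul_inv_cancel_right, mul_inv_rev, inv_inv]
      rw [mul_assoc x⁻¹ e, hec.inv_right.eq]
      group
    calc e * z * e⁻¹ = x * y * x⁻¹ * (y⁻¹ * z * y) * x * y⁻¹ * x⁻¹ := by
            rw [e1]; group
      _ = x * y * (x⁻¹ * z) * c⁻¹ * x * y⁻¹ * x⁻¹ := by rw [e2]; group
      _ = x * (y * z) * x⁻¹ * c⁻¹ * x * y⁻¹ * x⁻¹ := by rw [hxz.inv_left.eq]; group
      _ = x * c * z * (y * x⁻¹ * c⁻¹ * x * y⁻¹) * x⁻¹ := by rw [h1]; group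
      _ = x * c * (z * x⁻¹) * c⁻¹ := by rw [e4]; group
      _ = x * c * x⁻¹ * (z * c⁻¹) := by rw [← hxz.inv_left.eq]; group
      _ = x * c * x⁻¹ * (c⁻¹ * z) := by rw [hcz.inv_left.eq]
      _ = ⁅x, c⁆ * z := by rw [commutatorElement_def]; group
  rw [commutatorElement_def, key, mul_inv_cancel_right]

end grp

/-! ### the two families `H`, `E` -/

variable {I S Q : Type*} [Ring S] [Ring Q]

/-- Compatibility of the additive maps `h` (ring homomorphism on `A`) and `e`. -/
structure HE (A : AddSubgroup S) (h e : S →+ Q) : Prop where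
  mul_mem : ∀ a ∈ A, ∀ b ∈ A, a * b ∈ A
  hh : ∀ a ∈ A, ∀ b ∈ A, h a * h b = h (a * b)
  he : ∀ a ∈ A, ∀ b ∈ A, h a * e b = 0
  eh : ∀ a ∈ A, ∀ b ∈ A, e a * h b = e (a * b)
  ee : ∀ a ∈ A, ∀ b ∈ A, e a * e b = 0

/-- The additive subgroup generated by products. -/
def Sq (A : AddSubgroup S) : AddSubgroup S :=
  AddSubgroup.closure {w | ∃ a ∈ A, ∃ b ∈ A, w = a * b}

theorem mul_mem_Sq {A : AddSubgroup S} {a b : S} (ha : a ∈ A) (hb : b ∈ A) : a * b ∈ Sq A :=
  AddSubgroup.subset_closure ⟨a, ha, b, hb, rfl⟩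

section DE

variable {A : AddSubgroup S} {h e : S →+ Q} (hHE : HE A h e)
include hHE

theorem HE.Sq_le : Sq A ≤ A := by
  rw [Sq, AddSubgroup.closure_le]
  rintro _ ⟨a, ha, b, hb, rfl⟩
  exact hHE.mul_mem a ha b hb

theorem HE.comm_EH {i j k : I} (hij : i ≠ j) (hjk : j ≠ k) (hik : i ≠ k) {w a : S} (hw : w ∈ A)
    (ha : a ∈ A) : ⁅x i j hij (e w), x j k hjk (h a)⁆ = x i k hik (e (w * a)) := by
  rw [x_comm i j k hij hjk hik, hHE.eh w hw a ha]

theorem HE.comm_HH {i j k : I} (hij : i ≠ j) (hjk : j ≠ k) (hik : i ≠ k) {w a : S} (hw : w ∈ A)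
    (ha : a ∈ A) : ⁅x i j hij (h w), x j k hjk (h a)⁆ = x i k hik (h (w * a)) := by
  rw [x_comm i j k hij hjk hik, hHE.hh w hw a ha]

theorem HE.cHE {i j k : I} (hij : i ≠ j) (hjk : j ≠ k) (hik : i ≠ k) {w a : S} (hw : w ∈ A)
    (ha : a ∈ A) : Commute (x i j hij (h a)) (x j k hjk (e w)) := by
  rw [← commutatorElement_eq_one_iff_commute, x_comm i j k hij hjk hik, hHE.he a ha w hw, x_zero]

theorem HE.cEE {i j k : I} (hij : i ≠ j) (hjk : j ≠ k) (hik : i ≠ k) {w a : S} (hw : w ∈ A)
    (ha : a ∈ A) : Commute (x i j hij (e a)) (x j k hjk (e w)) := by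
  rw [← commutatorElement_eq_one_iff_commute, x_comm i j k hij hjk hik, hHE.ee a ha w hw, x_zero]

/-- opposite `E`'s commute for `w ∈ A²`. -/
theorem HE.cOpp (h3 : ∀ a b : I, ∃ d, d ≠ a ∧ d ≠ b) {i j : I} (hij : i ≠ j) {w w' : S}
    (hw : w ∈ Sq A) (hw' : w' ∈ A) :
    Commute (x i j hij (e w)) (x j i hij.symm (e w')) := by
  obtain ⟨k, hki, hkj⟩ := h3 i j
  induction hw using AddSubgroup.closure_induction with
  | mem w hw =>
    obtain ⟨b, hb, c, hc, rfl⟩ := hw
    rw [← hHE.comm_EH hki.symm hkj hij hb hc]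
    apply Commute.symm
    apply commute_comm
    · exact hHE.cEE hij.symm hki.symm hkj.symm hb hw'
    · exact (hHE.cHE hkj hij.symm hki hw' hc).symm
  | zero => rw [map_zero, x_zero]; exact Commute.one_left _
  | add a b _ _ iha ihb => rw [map_add, x_add]; exact iha.mul_left ihb
  | neg a _ iha => rw [map_neg, x_neg]; exact iha.inv_left

/-- All `E`'s commute (one of them from `A²`). -/
theorem HE.cE (h3 : ∀ a b : I, ∃ d, d ≠ a ∧ d ≠ b) {i j k l : I} (hij : i ≠ j) (hkl : k ≠ l)
    {w w' : S} (hw : w ∈ Sq A) (hw' : w' ∈ A) :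
    Commute (x i j hij (e w)) (x k l hkl (e w')) := by
  have hwA := hHE.Sq_le hw
  by_cases hjk : j = k
  · subst hjk
    by_cases hil : i = l
    · subst hil
      exact hHE.cOpp h3 hij hw hw'
    · exact hHE.cEE hij hkl hil hw' hwA
  · by_cases hil : i = l
    · subst hil
      exact (hHE.cEE hkl hij (fun hh => hjk hh.symm) hwA hw').symm
    · exact x_commute _ _ _ _ _ _ hjk hil _ _

/-- the symbol `D_ij(w,a) = [E_ij(w), H_ji(a)]` -/
abbrev D (h e : S →+ Q) (i j : I) (hij : i ≠ j) (w a : S) : St I Q :=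
  ⁅x i j hij (e w), x j i hij.symm (h a)⁆

/-- `D_ij(wb,a) = D_ik(w,ba)` -/
theorem HE.D_shift {i j k : I} (hij : i ≠ j) (hjk : j ≠ k) (hik : i ≠ k) {w b a : S}
    (hw : w ∈ A) (hb : b ∈ A) (ha : a ∈ A) :
    D h e i j hij (w * b) a = D h e i k hik w (b * a) := by
  apply hallWitt (x := x i k hik (e w)) (y := x k j hjk.symm (h b)) (z := x j i hij.symm (h a))
  · exact (hHE.cHE hij.symm hik hjk hw ha).symm
  · exact hHE.comm_HH hjk.symm hij.symm hik.symm hb ha
  · exact hHE.comm_EH hik hjk.symm hij hw hb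
  · exact x_commute _ _ _ _ _ _ hik hjk.symm _ _
  · exact x_commute _ _ _ _ _ _ hij hik.symm _ _
  · exact (hHE.cHE hik.symm hij hjk.symm (hHE.mul_mem w hw b hb) (hHE.mul_mem b hb a ha)).symm

/-- commutation with `E_ik`, `k ≠ j` -/
theorem HE.cED_row {i j k : I} (hij : i ≠ j) (hjk : j ≠ k) (hik : i ≠ k) {w a w' : S}
    (hw : w ∈ A) (ha : a ∈ A) (hw' : w' ∈ A) :
    Commute (x i k hik (e w')) (D h e i j hij w a) := by
  apply commute_comm
  · exact x_commute _ _ _ _ _ _ hik.symm hij _ _
  · exact (hHE.cHE hij.symm hik hjk hw' ha).symm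

end DE

theorem inv_conj_of_comm {G : Type*} [Group G] {X H c : G} (h : ⁅X, H⁆ = c) (hc : Commute c H) :
    H⁻¹ * X * H = c * X := by
  have h1 : X * H = c * H * X := by rw [← h, commutatorElement_def]; group
  rw [mul_assoc, h1, hc.eq]; group

theorem comm_inv_left' {G : Type*} [Group G] {a c : G} (h : Commute a ⁅a, c⁆) :
    ⁅a⁻¹, c⁆ = ⁅a, c⁆⁻¹ := by
  have h1 : ⁅a⁻¹, c⁆ = a⁻¹ * ⁅a, c⁆⁻¹ * a := by simp only [commutatorElement_def]; group
  rw [h1, h.inv_inv.eq, inv_mul_cancel_right]

section DE2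

variable {A : AddSubgroup S} {h e : S →+ Q} (hHE : HE A h e)
  (h4 : ∀ a b c : I, ∃ d, d ≠ a ∧ d ≠ b ∧ d ≠ c)
include hHE h4

/-- for `w ∈ A²`: `D_ij` does not depend on `j`, and commutes with `E_ij`. -/
theorem HE.D_indep {i j l : I} (hij : i ≠ j) (hil : i ≠ l) {w a : S}
    (hw : w ∈ Sq A) (ha : a ∈ A) :
    D h e i j hij w a = D h e i l hil w a ∧
      (∀ w' ∈ A, Commute (x i j hij (e w')) (D h e i j hij w a)) ∧
      (∀ w' ∈ A, Commute (x i l hil (e w')) (D h e i l hil w a)) := by
  obtain ⟨k, hki, hkj, hkl⟩ := h4 i j l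
  induction hw using AddSubgroup.closure_induction with
  | mem w hw =>
    obtain ⟨w1, hw1, b, hb, rfl⟩ := hw
    have e1 := hHE.D_shift hij hkj.symm hki.symm hw1 hb ha
    have e2 := hHE.D_shift hil hkl.symm hki.symm hw1 hb ha
    refine ⟨e1.trans e2.symm, fun w' hw' => ?_, fun w' hw' => ?_⟩
    · rw [e1]
      exact hHE.cED_row hki.symm hkj hij hw1 (hHE.mul_mem b hb a ha) hw'
    · rw [e2]
      exact hHE.cED_row hki.symm hkl hil hw1 (hHE.mul_mem b hb a ha) hw'
  | zero =>
    have e0 : ∀ (j : I) (hij : i ≠ j), D h e i j hij 0 a = 1 := by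
      intro j hij
      simp only [D, map_zero, x_zero, commutatorElement_one_left]
    rw [e0 j hij, e0 l hil]
    exact ⟨rfl, fun _ _ => Commute.one_right _, fun _ _ => Commute.one_right _⟩
  | add u v hu hv ihu ihv =>
    have huA := hHE.Sq_le hu
    obtain ⟨a1, a2, a3⟩ := ihu
    obtain ⟨b1, b2, b3⟩ := ihv
    have e1 : D h e i j hij (u + v) a = D h e i j hij v a * D h e i j hij u a := by
      simp only [D, map_add, x_add]
      exact comm_mul_left' (b2 u huA)
    have e2 : D h e i l hil (u + v) a = D h e i l hil v a * D h e i l hil u a := by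
      simp only [D, map_add, x_add]
      exact comm_mul_left' (b3 u huA)
    refine ⟨by rw [e1, e2, a1, b1], fun w' hw' => ?_, fun w' hw' => ?_⟩
    · rw [e1]; exact (b2 w' hw').mul_right (a2 w' hw')
    · rw [e2]; exact (b3 w' hw').mul_right (a3 w' hw')
  | neg u hu ihu =>
    have huA := hHE.Sq_le hu
    obtain ⟨a1, a2, a3⟩ := ihu
    have e1 : D h e i j hij (-u) a = (D h e i j hij u a)⁻¹ := by
      simp only [D, map_neg, x_neg]
      exact comm_inv_left' (a2 u huA)
    have e2 : D h e i l hil (-u) a = (D h e i l hil u a)⁻¹ := by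
      simp only [D, map_neg, x_neg]
      exact comm_inv_left' (a3 u huA)
    refine ⟨by rw [e1, e2, a1], fun w' hw' => ?_, fun w' hw' => ?_⟩
    · rw [e1]; exact (a2 w' hw').inv_right
    · rw [e2]; exact (a3 w' hw').inv_right

theorem HE.D_eq {i j l : I} (hij : i ≠ j) (hil : i ≠ l) {w a : S}
    (hw : w ∈ Sq A) (ha : a ∈ A) : D h e i j hij w a = D h e i l hil w a :=
  (hHE.D_indep h4 hij hil hw ha).1

/-- `E_kl` commutes with `D_i(w,a)`, `w ∈ A²`. -/
theorem HE.cED {i j k l : I} (hij : i ≠ j) (hkl : k ≠ l) {w a w' : S}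
    (hw : w ∈ Sq A) (ha : a ∈ A) (hw' : w' ∈ A) :
    Commute (x k l hkl (e w')) (D h e i j hij w a) := by
  obtain ⟨j', hi, hk, hl⟩ := h4 i k l
  rw [hHE.D_eq h4 hij hi.symm hw ha]
  have hwA := hHE.Sq_le hw
  by_cases hki : k = i
  · subst hki
    exact hHE.cED_row hi.symm hl hkl hwA ha hw'
  · by_cases hli : l = i
    · subst hli
      apply commute_comm
      · exact hHE.cEE hkl hi.symm hk.symm hwA hw'
      · exact x_commute _ _ _ _ _ _ hi.symm hkl _ _
    · apply commute_comm
      · exact x_commute _ _ _ _ _ _ hli hk.symm _ _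
      · exact x_commute _ _ _ _ _ _ hl.symm hki _ _

/-- `H_kl`, `k ≠ i`, commutes with `D_i(w,a)`, `w ∈ A²`. -/
theorem HE.cHD {i j k l : I} (hij : i ≠ j) (hkl : k ≠ l) (hki : k ≠ i) {w a b : S}
    (hw : w ∈ Sq A) (ha : a ∈ A) (hb : b ∈ A) :
    Commute (x k l hkl (h b)) (D h e i j hij w a) := by
  obtain ⟨j', hi, hk, hl⟩ := h4 i k l
  rw [hHE.D_eq h4 hij hi.symm hw ha]
  have hwA := hHE.Sq_le hw
  by_cases hli : l = i
  · subst hli
    apply commute_comm
    · exact hHE.cHE hkl hi.symm hk.symm hwA hb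
    · exact x_commute _ _ _ _ _ _ hi.symm hkl _ _
  · apply commute_comm
    · exact x_commute _ _ _ _ _ _ hli hk.symm _ _
    · exact x_commute _ _ _ _ _ _ hl.symm hki _ _

/-- the `D`'s commute. -/
theorem HE.cDD {i j k l : I} (hij : i ≠ j) (hkl : k ≠ l) {w a w' a' : S}
    (hw : w ∈ Sq A) (ha : a ∈ A) (hw' : w' ∈ Sq A) (ha' : a' ∈ A) :
    Commute (D h e k l hkl w' a') (D h e i j hij w a) := by
  obtain ⟨l', hk, hi, -⟩ := h4 k i i
  rw [hHE.D_eq h4 hkl hk.symm hw' ha']
  apply Commute.symm
  apply commute_comm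
  · exact (hHE.cED h4 hij hk.symm hw ha (hHE.Sq_le hw')).symm
  · exact (hHE.cHD h4 hij hk hi hw ha ha').symm

theorem HE.D_add_left {i j : I} (hij : i ≠ j) {w w' a : S}
    (hw : w ∈ Sq A) (hw' : w' ∈ Sq A) (ha : a ∈ A) :
    D h e i j hij (w + w') a = D h e i j hij w a * D h e i j hij w' a := by
  have : D h e i j hij (w + w') a = D h e i j hij w' a * D h e i j hij w a := by
    simp only [D, map_add, x_add]
    exact comm_mul_left' (hHE.cED h4 hij hij hw' ha (hHE.Sq_le hw))
  rw [this, (hHE.cDD h4 hij hij hw ha hw' ha).eq]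

theorem HE.D_add_right {i j : I} (hij : i ≠ j) {w a a' : S}
    (hw : w ∈ Sq A) (ha : a ∈ A) (ha' : a' ∈ A) :
    D h e i j hij w (a + a') = D h e i j hij w a * D h e i j hij w a' := by
  simp only [D, map_add, x_add]
  exact comm_mul_right' (hHE.cHD h4 hij hij.symm hij.symm hw ha' ha)

theorem HE.D_bal {i j : I} (hij : i ≠ j) {w b a : S}
    (hw : w ∈ Sq A) (hb : b ∈ A) (ha : a ∈ A) :
    D h e i j hij (w * b) a = D h e i j hij w (b * a) := by
  obtain ⟨k, hki, hkj, -⟩ := h4 i j j
  rw [hHE.D_shift hij hkj.symm hki.symm (hHE.Sq_le hw) hb ha]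
  exact hHE.D_eq h4 _ _ hw (hHE.mul_mem b hb a ha)

/-- the action of `H_il` on `D_i`. -/
theorem HE.actD {i j l : I} (hij : i ≠ j) (hil : i ≠ l) {w a b : S}
    (hw : w ∈ Sq A) (ha : a ∈ A) (hb : b ∈ A) :
    (x i l hil (h b))⁻¹ * D h e i j hij w a * x i l hil (h b) =
      D h e i j hij w a * x i l hil (e (w * a * b)) := by
  obtain ⟨k, hki, hkl, -⟩ := h4 i l l
  have hwA := hHE.Sq_le hw
  rw [hHE.D_eq h4 hij hki.symm hw ha]
  have e1 : (x i l hil (h b))⁻¹ * D h e i k hki.symm w a * x i l hil (h b) =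
      ⁅(x i l hil (h b))⁻¹ * x i k hki.symm (e w) * x i l hil (h b),
        (x i l hil (h b))⁻¹ * x k i hki (h a) * x i l hil (h b)⁆ := by
    simp only [D, commutatorElement_def]; group
  have e2 : (x i l hil (h b))⁻¹ * x i k hki.symm (e w) * x i l hil (h b) =
      x i k hki.symm (e w) := by
    have : Commute (x i l hil (h b)) (x i k hki.symm (e w)) :=
      x_commute _ _ _ _ _ _ hil.symm hki.symm _ _
    rw [this.inv_left.eq, inv_mul_cancel_right]
  have e3 : (x i l hil (h b))⁻¹ * x k i hki (h a) * x i l hil (h b) =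
      x k l hkl (h (a * b)) * x k i hki (h a) := by
    apply inv_conj_of_comm
    · exact hHE.comm_HH hki hil hkl ha hb
    · exact x_commute _ _ _ _ _ _ hil.symm hkl _ _
  rw [e1, e2, e3, comm_mul_right, hHE.comm_EH hki.symm hkl hil hwA (hHE.mul_mem a ha b hb)]
  have hc := hHE.cHD h4 hki.symm hkl hki hw ha (hHE.mul_mem a ha b hb)
  change _ * (_ * D h e i k hki.symm w a * _) = _
  rw [hc.eq, mul_inv_cancel_right, mul_assoc w a b]
  have hwab : w * (a * b) ∈ A := hHE.mul_mem w hwA _ (hHE.mul_mem a ha b hb)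
  exact (hHE.cED h4 hki.symm hil hw ha hwab).eq

/-- the action of `H_kl` on `E_ij`, `j ≠ k` -/
theorem HE.actE_ne {i j k l : I} (hij : i ≠ j) (hkl : k ≠ l) (hjk : j ≠ k) {w b : S}
    (hw : w ∈ A) (hb : b ∈ A) :
    (x k l hkl (h b))⁻¹ * x i j hij (e w) * x k l hkl (h b) = x i j hij (e w) := by
  have : Commute (x k l hkl (h b)) (x i j hij (e w)) := by
    by_cases hil : i = l
    · subst hil
      exact hHE.cHE hkl hij hjk.symm hw hb
    · exact x_commute _ _ _ _ _ _ (fun hh => hil hh.symm) (fun hh => hjk hh.symm) _ _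
  rw [this.inv_left.eq, inv_mul_cancel_right]

omit h4 in
/-- the action of `H_kl` on `E_ik`, `i ≠ l` -/
theorem HE.actE_eq {i k l : I} (hik : i ≠ k) (hkl : k ≠ l) (hil : i ≠ l) {w b : S}
    (hw : w ∈ A) (hb : b ∈ A) :
    (x k l hkl (h b))⁻¹ * x i k hik (e w) * x k l hkl (h b) =
      x i l hil (e (w * b)) * x i k hik (e w) := by
  apply inv_conj_of_comm
  · exact hHE.comm_EH hik hkl hil hw hb
  · exact x_commute _ _ _ _ _ _ hkl.symm hil _ _

/-- the action of `H_ki` on `E_ik` -/
theorem HE.actE_opp {i k : I} (hik : i ≠ k) {w b : S}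
    (hw : w ∈ Sq A) (hb : b ∈ A) :
    (x k i hik.symm (h b))⁻¹ * x i k hik (e w) * x k i hik.symm (h b) =
      D h e i k hik w b * x i k hik (e w) := by
  apply inv_conj_of_comm
  · rfl
  · exact (hHE.cHD h4 hik hik.symm hik.symm hw hb hb).symm

end DE2

end Crest.Agent.R176.Exc275
end

-- ▼ part R176/Exc275B
section

/-! Row 176, part B, block EXC (helper275), step (B), conclusion. -/

set_option autoImplicit false

namespace Crest.Agent.R176.Exc275

open St
open scoped commutatorElement IsMulCommutative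

/-- Extension property ("finite presentation in high degrees"): every map `f`, additive in both
variables on `W × A` and balanced over `A`, with values in a commutative group, is induced by an
additive map on `A'`. -/
def FP (S : Type) [Ring S] (W A A' : AddSubgroup S) : Prop :=
  ∀ (M : Type) [CommGroup M] (f : S → S → M),
    (∀ w ∈ W, ∀ w' ∈ W, ∀ a ∈ A, f (w + w') a = f w a * f w' a) →
    (∀ w ∈ W, ∀ a ∈ A, ∀ a' ∈ A, f w (a + a') = f w a * f w a') →
    (∀ w ∈ W, ∀ b ∈ A, ∀ a ∈ A, f (w * b) a = f w (b * a)) →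
    ∃ g : S → M, (∀ u ∈ A', ∀ u' ∈ A', g (u + u') = g u * g u') ∧
      (∀ w ∈ A', ∀ a ∈ A', g (w * a) = f w a) ∧
      (∀ P : S → M → Prop, P 0 1 → (∀ w ∈ W, ∀ a ∈ A, P (w * a) (f w a)) →
        (∀ u m u' m', P u m → P u' m' → P (u + u') (m * m')) → ∀ u ∈ A', P u (g u))

variable {I S Q : Type} [Ring S] [Ring Q]

/-- evaluation of a word, coefficients mapped by `f` -/
def ev (f : S → Q) (l : List (StGen I S)) : St I Q :=
  (l.map fun t => x t.1.1.1 t.1.1.2 t.1.2 (f t.2)).prod

@[simp] theorem ev_nil (f : S → Q) : ev (I := I) f [] = 1 := rfl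

@[simp] theorem ev_cons (f : S → Q) (t : StGen I S) (l : List (StGen I S)) :
    ev f (t :: l) = x t.1.1.1 t.1.1.2 t.1.2 (f t.2) * ev f l := by
  simp [ev]

@[simp] theorem ev_append (f : S → Q) (l l' : List (StGen I S)) :
    ev f (l ++ l') = ev f l * ev f l' := by
  simp [ev]

/-- the matrix of a word -/
def mt [Fintype I] [DecidableEq I] (l : List (StGen I S)) : Matrix I I S :=
  (l.map fun t => (1 + Matrix.single t.1.1.1 t.1.1.2 t.2 : Matrix I I S)).prod

@[simp] theorem mt_nil [Fintype I] [DecidableEq I] : mt ([] : List (StGen I S)) = 1 := rfl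

@[simp] theorem mt_cons [Fintype I] [DecidableEq I] (t : StGen I S) (l : List (StGen I S)) :
    mt (t :: l) = (1 + Matrix.single t.1.1.1 t.1.1.2 t.2) * mt l := by
  simp [mt]

@[simp] theorem mt_append [Fintype I] [DecidableEq I] (l l' : List (StGen I S)) :
    mt (l ++ l') = mt l * mt l' := by
  simp [mt]

section T

variable {A : AddSubgroup S} {h e : S →+ Q} 

/-- generators of the commutative subgroup `T` -/
def Tset (I : Type) (A : AddSubgroup S) (h e : S →+ Q) : Set (St I Q) :=
  {g | (∃ i j, ∃ hij : i ≠ j, ∃ w ∈ Sq A, g = x i j hij (e w)) ∨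
    (∃ i j, ∃ hij : i ≠ j, ∃ w ∈ Sq A, ∃ a ∈ A, g = D h e i j hij w a)}

/-- the commutative subgroup `T` -/
def T (I : Type) (A : AddSubgroup S) (h e : S →+ Q) : Subgroup (St I Q) :=
  Subgroup.closure (Tset I A h e)

theorem E_mem_T {i j : I} (hij : i ≠ j) {w : S} (hw : w ∈ Sq A) :
    x i j hij (e w) ∈ T I A h e := Subgroup.subset_closure (Or.inl ⟨i, j, hij, w, hw, rfl⟩)

theorem D_mem_T {i j : I} (hij : i ≠ j) {w a : S} (hw : w ∈ Sq A) (ha : a ∈ A) :
    D h e i j hij w a ∈ T I A h e :=
  Subgroup.subset_closure (Or.inr ⟨i, j, hij, w, hw, a, ha, rfl⟩)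

theorem h3_of_h4 (h4 : ∀ a b c : I, ∃ d, d ≠ a ∧ d ≠ b ∧ d ≠ c) :
    ∀ a b : I, ∃ d, d ≠ a ∧ d ≠ b := by
  intro a b
  obtain ⟨d, h1, h2, -⟩ := h4 a b b
  exact ⟨d, h1, h2⟩

theorem HE.T_comm (hHE : HE A h e) (h4 : ∀ a b c : I, ∃ d, d ≠ a ∧ d ≠ b ∧ d ≠ c) :
    IsMulCommutative (T I A h e) := by
  apply Subgroup.isMulCommutative_closure
  rintro g (⟨i, j, hij, w, hw, rfl⟩ | ⟨i, j, hij, w, hw, a, ha, rfl⟩) g'
    (⟨k, l, hkl, w', hw', rfl⟩ | ⟨k, l, hkl, w', hw', a', ha', rfl⟩)
  · exact (hHE.cE (h3_of_h4 h4) hij hkl hw (hHE.Sq_le hw')).eq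
  · exact (hHE.cED h4 hkl hij hw' ha' (hHE.Sq_le hw)).eq
  · exact (hHE.cED h4 hij hkl hw ha (hHE.Sq_le hw')).symm.eq
  · exact (hHE.cDD h4 hkl hij hw' ha' hw ha).eq

theorem HE.Sq_mul (hHE : HE A h e) {w a : S} (hw : w ∈ Sq A) (ha : a ∈ A) : w * a ∈ Sq A :=
  mul_mem_Sq (hHE.Sq_le hw) ha

/-- conjugation by `H_kl(b)⁻¹` preserves `T`. -/
theorem HE.conj_T (hHE : HE A h e) (h4 : ∀ a b c : I, ∃ d, d ≠ a ∧ d ≠ b ∧ d ≠ c)
    {k l : I} (hkl : k ≠ l) {b : S} (hb : b ∈ A) (g : St I Q) (hg : g ∈ T I A h e) :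
    (x k l hkl (h b))⁻¹ * g * x k l hkl (h b) ∈ T I A h e := by
  induction hg using Subgroup.closure_induction with
  | mem g hg =>
    rcases hg with (⟨i, j, hij, w, hw, rfl⟩ | ⟨i, j, hij, w, hw, a, ha, rfl⟩)
    · by_cases hjk : j = k
      · subst hjk
        by_cases hil : i = l
        · subst hil
          rw [hHE.actE_opp h4 hij hw hb]
          exact (T I A h e).mul_mem (D_mem_T hij hw hb) (E_mem_T hij hw)
        · rw [hHE.actE_eq hij hkl hil (hHE.Sq_le hw) hb]
          exact (T I A h e).mul_mem (E_mem_T hil (hHE.Sq_mul hw hb)) (E_mem_T hij hw)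
      · rw [hHE.actE_ne h4 hij hkl hjk (hHE.Sq_le hw) hb]
        exact E_mem_T hij hw
    · by_cases hik : i = k
      · subst hik
        rw [hHE.actD h4 hij hkl hw ha hb]
        exact (T I A h e).mul_mem (D_mem_T hij hw ha)
          (E_mem_T hkl (hHE.Sq_mul (hHE.Sq_mul hw ha) hb))
      · have := hHE.cHD h4 hij hkl (fun hh => hik hh.symm) hw ha hb
        rw [this.inv_left.eq, inv_mul_cancel_right]
        exact D_mem_T hij hw ha
  | one => simp
  | mul a c _ _ iha ihc =>
    have : (x k l hkl (h b))⁻¹ * (a * c) * x k l hkl (h b) =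
        ((x k l hkl (h b))⁻¹ * a * x k l hkl (h b)) * ((x k l hkl (h b))⁻¹ * c * x k l hkl (h b)) := by
      group
    rw [this]
    exact (T I A h e).mul_mem iha ihc
  | inv a _ iha =>
    have : (x k l hkl (h b))⁻¹ * a⁻¹ * x k l hkl (h b) =
        ((x k l hkl (h b))⁻¹ * a * x k l hkl (h b))⁻¹ := by
      group
    rw [this]
    exact (T I A h e).inv_mem iha

/-- conjugation by `g⁻¹` as an endomorphism of a subgroup stable under it -/
def conjHom {G : Type} [Group G] (T : Subgroup G) (y : G) (hy : ∀ g ∈ T, y⁻¹ * g * y ∈ T) :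
    T →* T where
  toFun t := ⟨y⁻¹ * t * y, hy t t.2⟩
  map_one' := Subtype.ext (by simp)
  map_mul' a b := Subtype.ext (by simp only [Subgroup.coe_mul]; group)

end T

section tau

variable {A W A' : AddSubgroup S} {h e : S →+ Q}

open Classical in
/-- Existence of the family `τ_ij`. -/
theorem HE.exists_tau (hHE : HE A h e) (h4 : ∀ a b c : I, ∃ d, d ≠ a ∧ d ≠ b ∧ d ≠ c)
    (hW : W ≤ Sq A) (hA'W : A' ≤ W) (hA'A : ∀ u ∈ A', ∀ a ∈ A', u * a ∈ A')
    (hFP : FP S W A A') :
    ∃ τ : I → I → S → T I A h e,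
      (∀ i j, ∀ u ∈ A', ∀ u' ∈ A', τ i j (u + u') = τ i j u * τ i j u') ∧
      (∀ i j (hij : i ≠ j), ∀ u ∈ A', (τ i j u : St I Q) = x i j hij (e u)) ∧
      (∀ i j k l (hkl : k ≠ l), ∀ u ∈ A', ∀ b ∈ A',
        (x k l hkl (h b))⁻¹ * (τ i j u : St I Q) * x k l hkl (h b) =
          τ i j u * (if j = k then (τ i l (u * b) : St I Q) else 1)) := by
  have : IsMulCommutative (T I A h e) := hHE.T_comm h4
  have hex : ∀ i : I, ∃ j, i ≠ j := fun i => by
    obtain ⟨d, h1, -⟩ := h4 i i i
    exact ⟨d, h1.symm⟩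
  choose o ho using hex
  -- the maps `f_i`
  let f : I → S → S → T I A h e := fun i w a =>
    if hwa : w ∈ Sq A ∧ a ∈ A then ⟨D h e i (o i) (ho i) w a, D_mem_T (ho i) hwa.1 hwa.2⟩ else 1
  have hf : ∀ i w a, w ∈ Sq A → a ∈ A → ((f i w a : T I A h e) : St I Q) =
      D h e i (o i) (ho i) w a := by
    intro i w a hw ha
    simp only [f]
    rw [dif_pos ⟨hw, ha⟩]
  have hFPi : ∀ i : I, ∃ g : S → T I A h e, (∀ u ∈ A', ∀ u' ∈ A', g (u + u') = g u * g u') ∧
      (∀ w ∈ A', ∀ a ∈ A', g (w * a) = f i w a) ∧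
      (∀ P : S → T I A h e → Prop, P 0 1 → (∀ w ∈ W, ∀ a ∈ A, P (w * a) (f i w a)) →
        (∀ u m u' m', P u m → P u' m' → P (u + u') (m * m')) → ∀ u ∈ A', P u (g u)) := by
    intro i
    apply hFP (T I A h e) (f i)
    · intro w hw w' hw' a ha
      apply Subtype.ext
      rw [Subgroup.coe_mul, hf i _ _ (hW hw) ha, hf i _ _ (hW hw') ha,
        hf i _ _ ((Sq A).add_mem (hW hw) (hW hw')) ha]
      exact hHE.D_add_left h4 (ho i) (hW hw) (hW hw') ha
    · intro w hw a ha a' ha'
      apply Subtype.ext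
      rw [Subgroup.coe_mul, hf i _ _ (hW hw) ha, hf i _ _ (hW hw) ha',
        hf i _ _ (hW hw) (A.add_mem ha ha')]
      exact hHE.D_add_right h4 (ho i) (hW hw) ha ha'
    · intro w hw b hb a ha
      apply Subtype.ext
      rw [hf i _ _ (hHE.Sq_mul (hW hw) hb) ha, hf i _ _ (hW hw) (hHE.mul_mem b hb a ha)]
      exact hHE.D_bal h4 (ho i) (hW hw) hb ha
  choose g hg1 hg2 hg3 using hFPi
  let τ : I → I → S → T I A h e := fun i j u =>
    if hij : i = j then g i u else if hu : u ∈ A' then ⟨x i j hij (e u), E_mem_T hij (hW (hA'W hu))⟩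
      else 1
  have hτ0 : ∀ i u, τ i i u = g i u := by
    intro i u; simp [τ]
  have hτ1 : ∀ i j (hij : i ≠ j), ∀ u ∈ A', (τ i j u : St I Q) = x i j hij (e u) := by
    intro i j hij u hu
    simp only [τ]
    rw [dif_neg hij, dif_pos hu]
  refine ⟨τ, ?_, hτ1, ?_⟩
  · intro i j u hu u' hu'
    by_cases hij : i = j
    · subst hij
      rw [hτ0, hτ0, hτ0, hg1 i u hu u' hu']
    · apply Subtype.ext
      rw [Subgroup.coe_mul, hτ1 i j hij u hu, hτ1 i j hij u' hu',
        hτ1 i j hij _ (A'.add_mem hu hu'), map_add, x_add]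
  · intro i j k l hkl u hu b hb'
    have hb : b ∈ A := hHE.Sq_le (hW (hA'W hb'))
    have huS : u ∈ Sq A := hW (hA'W hu)
    have huA : u ∈ A := hHE.Sq_le huS
    have hub : u * b ∈ A' := hA'A u hu b hb'
    by_cases hij : i = j
    · subst hij
      rw [hτ0]
      by_cases hik : i = k
      · subst hik
        rw [if_pos rfl, hτ1 i l hkl _ hub]
        -- induction property (iii)
        have := hg3 i (fun u m => u ∈ Sq A ∧ (x i l hkl (h b))⁻¹ * (m : St I Q) * x i l hkl (h b) =
          m * x i l hkl (e (u * b))) ?_ ?_ ?_ u hu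
        · exact this.2
        · refine ⟨(Sq A).zero_mem, ?_⟩
          rw [zero_mul, map_zero, x_zero, Subgroup.coe_one]
          group
        · intro w hw a ha
          refine ⟨hHE.Sq_mul (hW hw) ha, ?_⟩
          rw [hf i w a (hW hw) ha]
          exact hHE.actD h4 (ho i) hkl (hW hw) ha hb
        · rintro u m u' m' ⟨hu1, e1⟩ ⟨hu2, e2⟩
          refine ⟨(Sq A).add_mem hu1 hu2, ?_⟩
          rw [Subgroup.coe_mul, add_mul, map_add, x_add]
          have e3 : (x i l hkl (h b))⁻¹ * ((m : St I Q) * m') * x i l hkl (h b) =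
              ((x i l hkl (h b))⁻¹ * (m : St I Q) * x i l hkl (h b)) *
              ((x i l hkl (h b))⁻¹ * (m' : St I Q) * x i l hkl (h b)) := by group
          rw [e3, e1, e2]
          have hcm : Commute (x i l hkl (e (u * b))) (m' : St I Q) := by
            have h1 : x i l hkl (e (u * b)) ∈ T I A h e := E_mem_T hkl (hHE.Sq_mul hu1 hb)
            have h2 := mul_comm (⟨_, h1⟩ : T I A h e) m'
            exact congrArg Subtype.val h2
          calc (m : St I Q) * x i l hkl (e (u * b)) * (m' * x i l hkl (e (u' * b)))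
              = m * (x i l hkl (e (u * b)) * m') * x i l hkl (e (u' * b)) := by group
            _ = m * (m' * x i l hkl (e (u * b))) * x i l hkl (e (u' * b)) := by rw [hcm.eq]
            _ = m * m' * (x i l hkl (e (u * b)) * x i l hkl (e (u' * b))) := by group
      · rw [if_neg hik, mul_one]
        have := hg3 i (fun _ m => (x k l hkl (h b))⁻¹ * (m : St I Q) * x k l hkl (h b) = m)
          ?_ ?_ ?_ u hu
        · exact this
        · rw [Subgroup.coe_one]; group
        · intro w hw a ha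
          rw [hf i w a (hW hw) ha]
          have := hHE.cHD h4 (ho i) hkl (fun hh => hik hh.symm) (hW hw) ha hb
          rw [this.inv_left.eq, inv_mul_cancel_right]
        · intro u m u' m' e1 e2
          rw [Subgroup.coe_mul]
          have e3 : (x k l hkl (h b))⁻¹ * ((m : St I Q) * m') * x k l hkl (h b) =
              ((x k l hkl (h b))⁻¹ * (m : St I Q) * x k l hkl (h b)) *
              ((x k l hkl (h b))⁻¹ * (m' : St I Q) * x k l hkl (h b)) := by group
          rw [e3, e1, e2]
    · rw [hτ1 i j hij u hu]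
      by_cases hjk : j = k
      · subst hjk
        rw [if_pos rfl]
        by_cases hil : i = l
        · subst hil
          rw [hτ0, hg2 i u hu b hb', hf i u b huS hb, hHE.actE_opp h4 hij huS hb,
            hHE.D_eq h4 hij (ho i) huS hb]
          exact ((hHE.cED h4 (ho i) hij huS hb huA).eq).symm
        · rw [hτ1 i l hil _ hub, hHE.actE_eq hij hkl hil huA hb]
          exact (x_commute _ _ _ _ _ _ (fun hh => hil hh.symm) hij _ _).eq
      · rw [if_neg hjk, mul_one]
        exact hHE.actE_ne h4 hij hkl hjk huA hb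

/-- **Step (B).** -/
theorem HE.stepB [Fintype I] [DecidableEq I] (hHE : HE A h e)
    (h4 : ∀ a b c : I, ∃ d, d ≠ a ∧ d ≠ b ∧ d ≠ c)
    (hW : W ≤ Sq A) (hA'W : A' ≤ W) (hA'A : ∀ u ∈ A', ∀ a ∈ A', u * a ∈ A')
    (hFP : FP S W A A') (l : List (StGen I S)) (hl : ∀ t ∈ l, t.2 ∈ A') (hm : mt l = 1) :
    ev (fun a => h a + e a) l = ev h l := by
  classical
  obtain ⟨τ, hτ1, hτ2, hτ3⟩ := hHE.exists_tau h4 hW hA'W hA'A hFP
  have : IsMulCommutative (T I A h e) := hHE.T_comm h4
  have hA'A0 : A' ≤ A := fun u hu => hHE.Sq_le (hW (hA'W hu))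
  have hτ0 : ∀ i j, τ i j 0 = 1 := by
    intro i j
    have := hτ1 i j 0 A'.zero_mem 0 A'.zero_mem
    rw [add_zero] at this
    exact left_eq_mul.mp this
  let Tau : Matrix I I S → T I A h e := fun M => ∏ i, ∏ j, τ i j (M i j)
  have hTau0 : Tau 0 = 1 := by
    simp only [Tau, Matrix.zero_apply, hτ0, Finset.prod_const_one]
  have hTau_add : ∀ M N : Matrix I I S, (∀ i j, M i j ∈ A') → (∀ i j, N i j ∈ A') →
      Tau (M + N) = Tau M * Tau N := by
    intro M N hM hN
    simp only [Tau, ← Finset.prod_mul_distrib]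
    exact Finset.prod_congr rfl fun i _ => Finset.prod_congr rfl fun j _ =>
      hτ1 i j _ (hM i j) _ (hN i j)
  have hTau_single : ∀ i j (hij : i ≠ j), ∀ u ∈ A',
      (Tau (Matrix.single i j u) : St I Q) = x i j hij (e u) := by
    intro i j hij u hu
    rw [← hτ2 i j hij u hu]
    congr 1
    simp only [Tau]
    rw [Finset.prod_eq_single i, Finset.prod_eq_single j]
    · rw [Matrix.single_apply_same]
    · intro j' _ hj'
      rw [Matrix.single_apply_of_ne, hτ0]
      rintro ⟨-, rfl⟩; exact hj' rfl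
    · intro hh; exact absurd (Finset.mem_univ _) hh
    · intro i' _ hi'
      apply Finset.prod_eq_one
      intro j' _
      rw [Matrix.single_apply_of_ne, hτ0]
      rintro ⟨rfl, -⟩; exact hi' rfl
    · intro hh; exact absurd (Finset.mem_univ _) hh
  -- the action
  have hact : ∀ (k l : I) (hkl : k ≠ l), ∀ b ∈ A', ∀ M : Matrix I I S, (∀ i j, M i j ∈ A') →
      (x k l hkl (h b))⁻¹ * (Tau M : St I Q) * x k l hkl (h b) =
        Tau (M * (1 + Matrix.single k l b)) := by
    intro k l hkl b hb M hM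
    let c : T I A h e →* T I A h e := conjHom (T I A h e) (x k l hkl (h b))
      (hHE.conj_T h4 hkl (hA'A0 hb))
    have hc : ∀ t : T I A h e, (c t : St I Q) = (x k l hkl (h b))⁻¹ * (t : St I Q) *
      x k l hkl (h b) := fun t => rfl
    rw [← hc]
    congr 1
    have h1 : ∀ i j, c (τ i j (M i j)) = τ i j (M i j) *
        (if j = k then τ i l (M i j * b) else 1) := by
      intro i j
      apply Subtype.ext
      rw [hc, hτ3 i j k l hkl _ (hM i j) b hb, Subgroup.coe_mul]
      split_ifs <;> rfl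
    have hN : ∀ i j, (M * Matrix.single k l b) i j ∈ A' := by
      intro i j
      by_cases hj : j = l
      · subst hj
        rw [Matrix.mul_single_apply_same]
        exact hA'A _ (hM _ _) _ hb
      · rw [Matrix.mul_single_apply_of_ne (hbj := hj)]
        exact A'.zero_mem
    rw [mul_add, mul_one, hTau_add _ _ hM hN]
    have h2 : c (Tau M) = Tau M * ∏ i, τ i l (M i k * b) := by
      simp only [Tau]
      rw [map_prod, ← Finset.prod_mul_distrib]
      refine Finset.prod_congr rfl fun i _ => ?_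
      rw [map_prod, Finset.prod_congr rfl (fun j _ => h1 i j), Finset.prod_mul_distrib]
      congr 1
      rw [Finset.prod_ite_eq' Finset.univ k, if_pos (Finset.mem_univ _)]
    rw [h2]
    congr 1
    simp only [Tau]
    refine Finset.prod_congr rfl fun i _ => ?_
    rw [Finset.prod_eq_single l]
    · rw [Matrix.mul_single_apply_same]
    · intro j _ hj
      rw [Matrix.mul_single_apply_of_ne (hbj := hj), hτ0]
    · intro hh; exact absurd (Finset.mem_univ _) hh
  -- induction on the word, from the right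
  have key : ∀ l : List (StGen I S), (∀ t ∈ l, t.2 ∈ A') → 
      (∀ i j, (mt l - 1) i j ∈ A') ∧
      ev (fun a => h a + e a) l = ev h l * Tau (mt l - 1) := by
    intro l
    induction l using List.reverseRecOn with
    | nil =>
      intro _
      refine ⟨fun i j => ?_, ?_⟩
      · rw [mt_nil, sub_self]; exact A'.zero_mem
      · rw [mt_nil, sub_self, hTau0]; simp
    | append_singleton l t ih =>
      intro hl
      obtain ⟨ih1, ih2⟩ := ih (fun t ht => hl t (List.mem_append_left _ ht))
      have ht : t.2 ∈ A' := hl t (List.mem_append_right _ (List.mem_singleton.mpr rfl))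
      obtain ⟨⟨⟨k, l'⟩, hkl⟩, a⟩ := t
      change a ∈ A' at ht
      change k ≠ l' at hkl
      have e1 : mt (l ++ [(⟨(k, l'), hkl⟩, a)]) - 1 =
          (mt l - 1) * (1 + Matrix.single k l' a) + Matrix.single k l' a := by
        rw [mt_append, mt_cons, mt_nil, mul_one]
        noncomm_ring
      have hm1 : ∀ i j, ((mt l - 1) * (1 + Matrix.single k l' a)) i j ∈ A' := by
        intro i j
        rw [mul_add, mul_one, Matrix.add_apply]
        apply A'.add_mem (ih1 i j)
        by_cases hj : j = l'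
        · subst hj
          rw [Matrix.mul_single_apply_same]
          exact hA'A _ (ih1 _ _) _ ht
        · rw [Matrix.mul_single_apply_of_ne (hbj := hj)]
          exact A'.zero_mem
      have hm2 : ∀ i j, (Matrix.single k l' a) i j ∈ A' := by
        intro i j
        rw [Matrix.single_apply]
        split_ifs
        · exact ht
        · exact A'.zero_mem
      refine ⟨fun i j => ?_, ?_⟩
      · rw [e1, Matrix.add_apply]
        exact A'.add_mem (hm1 i j) (hm2 i j)
      · rw [e1, hTau_add _ _ hm1 hm2, Subgroup.coe_mul, hTau_single k l' hkl a ht,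
          ← hact k l' hkl a ht _ ih1, ev_append, ev_append, ih2]
        simp only [ev_cons, ev_nil, mul_one, x_add]
        group
  have := (key l hl).2
  rw [hm, sub_self, hTau0, Subgroup.coe_one, mul_one] at this
  exact this

end tau

end Crest.Agent.R176.Exc275
end

-- ▼ part R176/Exc275C
section

/-! Row 176, part B, block EXC (helper275): multiplier pairs and the glue of steps (A), (B), (C). -/

set_option autoImplicit false

namespace Crest.Agent.R176.Exc275

open St Cover294
open scoped commutatorElement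

/-- A multiplier pair `(L, R)` on the (non-unital) ring `A ⊆ S`: `L a = T a`, `R a = a T⁻¹`. -/
structure Mult {S : Type} [Ring S] (A : AddSubgroup S) (L R : S →+ S) : Prop where
  mul_mem : ∀ a ∈ A, ∀ b ∈ A, a * b ∈ A
  L_mem : ∀ a ∈ A, L a ∈ A
  R_mem : ∀ a ∈ A, R a ∈ A
  L_mul : ∀ a ∈ A, ∀ b ∈ A, L (a * b) = L a * b
  R_mul : ∀ a ∈ A, ∀ b ∈ A, R (a * b) = a * R b
  RL : ∀ a ∈ A, ∀ b ∈ A, R a * L b = a * b
  LR : ∀ a ∈ A, L (R a) = R (L a)

/-- (X2): moving only `q` does not change the value of a word with trivial matrix. -/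
def StepAC (I : Type) [Fintype I] [DecidableEq I] (S : Type) [Ring S] : Prop :=
  ∀ (A : AddSubgroup S), (∀ a ∈ A, ∀ b ∈ A, a * b ∈ A) → ∀ (f v : S →+ S),
    (∀ a ∈ A, ∀ b ∈ A, f (a * b) = f a * f b) → (∀ a ∈ A, ∀ b ∈ A, v (a * b) = f a * v b) →
    ∀ (s t : Fin 2), s ≠ t → ∀ (l : List (StGen I S)), (∀ t ∈ l, t.2 ∈ A) → mt l = 1 →
      Blk I (Fin 2) S (ev (fun a => Matrix.single s s (f a) + Matrix.single s t (v a)) l) =
        Blk I (Fin 2) S (ev (fun a => Matrix.single s s (f a)) l)

section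

variable {S : Type} [Ring S]

/-- `a ↦ p₀ a q₁` -/
def hmap (R : S →+ S) : S →+ Matrix (Fin 2) (Fin 2) S where
  toFun a := Matrix.single 0 0 a + Matrix.single 0 1 (R a)
  map_zero' := by simp
  map_add' a b := by
    rw [map_add, Matrix.single_add, Matrix.single_add]; abel

/-- `a ↦ δ a q₁` -/
def emap (L R : S →+ S) : S →+ Matrix (Fin 2) (Fin 2) S where
  toFun a := Matrix.single 0 0 a + Matrix.single 0 1 (R a) +
    (Matrix.single 1 1 (L (R a)) + Matrix.single 1 0 (L a))
  map_zero' := by simp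
  map_add' a b := by
    simp only [map_add, Matrix.single_add]; abel

theorem hmap_apply (R : S →+ S) (a : S) : hmap R a = !![a, R a; 0, 0] := by
  ext i j
  fin_cases i <;> fin_cases j <;> simp [hmap, Matrix.single]

theorem emap_apply (L R : S →+ S) (a : S) : emap L R a = !![a, R a; L a, L (R a)] := by
  ext i j
  fin_cases i <;> fin_cases j <;> simp [emap, Matrix.single]

variable {A : AddSubgroup S} {L R : S →+ S}

theorem Mult.hE (hM : Mult A L R) (h2 : ∀ a : S, a + a = 0) : HE A (hmap R) (emap L R) where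
  mul_mem := hM.mul_mem
  hh a ha b hb := by
    rw [hmap_apply, hmap_apply, hmap_apply, hM.R_mul a ha b hb]
    ext i j
    fin_cases i <;> fin_cases j <;> simp [Matrix.mul_apply, Fin.sum_univ_two]
  he a ha b hb := by
    rw [hmap_apply, emap_apply]
    ext i j
    fin_cases i <;> fin_cases j <;> simp [Matrix.mul_apply, Fin.sum_univ_two]
    · rw [hM.RL a ha b hb, h2]
    · rw [hM.RL a ha _ (hM.R_mem b hb), h2]
  eh a ha b hb := by
    rw [hmap_apply, emap_apply, emap_apply]
    ext i j
    fin_cases i <;> fin_cases j <;> simp [Matrix.mul_apply, Fin.sum_univ_two]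
    · rw [hM.R_mul a ha b hb]
    · rw [hM.L_mul a ha b hb]
    · rw [hM.R_mul a ha b hb, hM.L_mul a ha _ (hM.R_mem b hb)]
  ee a ha b hb := by
    rw [emap_apply, emap_apply]
    have h1 : L (R a) * L b = L a * b := by
      rw [← hM.L_mul _ (hM.R_mem a ha) _ (hM.L_mem b hb), hM.RL a ha b hb, hM.L_mul a ha b hb]
    have h3 : L (R a) * L (R b) = L a * R b := by
      rw [← hM.L_mul _ (hM.R_mem a ha) _ (hM.L_mem _ (hM.R_mem b hb)),
        hM.RL a ha _ (hM.R_mem b hb), hM.L_mul a ha _ (hM.R_mem b hb)]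
    ext i j
    fin_cases i <;> fin_cases j <;> simp [Matrix.mul_apply, Fin.sum_univ_two]
    · rw [hM.RL a ha b hb, h2]
    · rw [hM.RL a ha _ (hM.R_mem b hb), h2]
    · rw [h1, h2]
    · rw [h3, h2]

variable {I : Type}

/-- The block map on diagonal words. -/
theorem Blk_ev_single (s : Fin 2) (f : S → S) (l : List (StGen I S)) :
    Blk I (Fin 2) S (ev (fun a => Matrix.single s s (f a)) l) =
      mapI (eN I s) (ev f l) := by
  induction l with
  | nil => simp
  | cons t l ih =>
    rw [ev_cons, ev_cons, map_mul, map_mul, ih, Blk_x, mapI_x, blk_single]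
    rfl

/-- **Glue of (A), (B), (C).** -/
theorem Mult.main [Fintype I] [DecidableEq I] (hM : Mult A L R) (h2 : ∀ a : S, a + a = 0)
    (hAC : StepAC I S) (h4 : ∀ a b c : I, ∃ d, d ≠ a ∧ d ≠ b ∧ d ≠ c) {W A' : AddSubgroup S}
    (hW : W ≤ Sq A) (hA'W : A' ≤ W) (hA'A : ∀ u ∈ A', ∀ a ∈ A', u * a ∈ A')
    (hFP : FP S W A A') (l : List (StGen I S)) (hl : ∀ t ∈ l, t.2 ∈ A') (hm : mt l = 1) :
    mapI (eN I (0 : Fin 2)) (ev (fun a => a) l) =
      mapI (eN I (1 : Fin 2)) (ev (fun a => L (R a)) l) := by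
  have hHE := hM.hE h2
  have hA'A0 : A' ≤ A := fun u hu => hHE.Sq_le (hW (hA'W hu))
  have hl' : ∀ t ∈ l, t.2 ∈ A := fun t ht => hA'A0 (hl t ht)
  -- step (A)
  have e1 := hAC A hM.mul_mem (AddMonoidHom.id S) R (fun _ _ _ _ => rfl)
    (fun a ha b hb => hM.R_mul a ha b hb) 0 1 (by decide) l hl' hm
  -- step (B)
  have e2 := hHE.stepB h4 hW hA'W hA'A hFP l hl hm
  -- step (C)
  have e3 := hAC A hM.mul_mem (L.comp R) L
    (fun a ha b hb => by
      simp only [AddMonoidHom.comp_apply]
      rw [hM.R_mul a ha b hb, ← hM.L_mul _ (hM.R_mem a ha) _ (hM.L_mem _ (hM.R_mem b hb)),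
        hM.RL a ha _ (hM.R_mem b hb)])
    (fun a ha b hb => by
      simp only [AddMonoidHom.comp_apply]
      rw [← hM.L_mul _ (hM.R_mem a ha) _ (hM.L_mem b hb), hM.RL a ha b hb]) 1 0 (by decide) l hl' hm
  have f1 : ev (fun a => Matrix.single (0 : Fin 2) (0 : Fin 2) (AddMonoidHom.id S a) +
      Matrix.single (0 : Fin 2) (1 : Fin 2) (R a)) l = ev (hmap R) l := rfl
  have f2 : (fun a => hmap R a + emap L R a) =
      fun a => Matrix.single (1 : Fin 2) (1 : Fin 2) ((L.comp R) a) +
        Matrix.single (1 : Fin 2) (0 : Fin 2) (L a) := by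
    funext a
    have h5 : emap L R a = hmap R a + (Matrix.single 1 1 (L (R a)) + Matrix.single 1 0 (L a)) := rfl
    have h3 : ∀ M : Matrix (Fin 2) (Fin 2) S, M + M = 0 := by
      intro M; ext i j; exact h2 _
    rw [h5, ← add_assoc, h3, zero_add]
    rfl
  rw [f1] at e1
  rw [f2] at e2
  rw [e2, e1] at e3
  have g1 := Blk_ev_single (I := I) (0 : Fin 2) (fun a : S => a) l
  have g2 := Blk_ev_single (I := I) (1 : Fin 2) (fun a : S => L (R a)) l
  rw [← g1, ← g2]
  exact e3

end

end Crest.Agent.R176.Exc275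
end

-- ▼ part R176/Exc275AC
section

/-! Row 176, part B, block EXC (helper275): steps (A), (C). -/

set_option autoImplicit false

namespace Crest.Agent.R176.Exc275

open St Cover294
open scoped commutatorElement

variable {I S Q : Type} [Ring S] [Ring Q] [Fintype I] [DecidableEq I]

/-- Matrix of a word after a coefficient change `F`, multiplicative on `A`. -/
theorem toMat_ev_mul {A : AddSubgroup S} (hA : ∀ a ∈ A, ∀ b ∈ A, a * b ∈ A) (F : S →+ Q)
    (hF : ∀ a ∈ A, ∀ b ∈ A, F (a * b) = F a * F b) (l : List (StGen I S))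
    (hl : ∀ t ∈ l, t.2 ∈ A) :
    (∀ i j, (mt l - 1) i j ∈ A) ∧
      (toMat (ev (fun a => F a) l)).val = 1 + (mt l - 1).map F := by
  induction l with
  | nil =>
    refine ⟨fun i j => ?_, ?_⟩
    · rw [mt_nil, sub_self]; exact A.zero_mem
    · rw [mt_nil, sub_self, ev_nil, map_one, Units.val_one]
      ext i j
      simp
  | cons t l ih =>
    obtain ⟨ih1, ih2⟩ := ih (fun t' ht' => hl t' (List.mem_cons_of_mem _ ht'))
    have ht : t.2 ∈ A := hl t List.mem_cons_self
    obtain ⟨⟨⟨k, l'⟩, hkl⟩, a⟩ := t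
    change a ∈ A at ht
    change k ≠ l' at hkl
    have e1 : mt ((⟨(k, l'), hkl⟩, a) :: l) - 1 =
        (mt l - 1) + Matrix.single k l' a + Matrix.single k l' a * (mt l - 1) := by
      rw [mt_cons]
      noncomm_ring
    have e2 : ∀ i j, (Matrix.single k l' a * (mt l - 1)) i j =
        if i = k then a * (mt l - 1) l' j else 0 := by
      intro i j
      by_cases hi : i = k
      · subst hi
        rw [Matrix.single_mul_apply_same, if_pos rfl]
      · rw [Matrix.single_mul_apply_of_ne _ _ _ _ _ hi, if_neg hi]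
    have e3 : ∀ i j, (Matrix.single k l' (F a) * (mt l - 1).map F) i j =
        if i = k then F a * F ((mt l - 1) l' j) else 0 := by
      intro i j
      by_cases hi : i = k
      · subst hi
        rw [Matrix.single_mul_apply_same, if_pos rfl, Matrix.map_apply]
      · rw [Matrix.single_mul_apply_of_ne _ _ _ _ _ hi, if_neg hi]
    refine ⟨fun i j => ?_, ?_⟩
    · rw [e1, Matrix.add_apply, Matrix.add_apply, e2]
      refine A.add_mem (A.add_mem (ih1 i j) ?_) ?_
      · rw [Matrix.single_apply]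
        split_ifs
        · exact ht
        · exact A.zero_mem
      · split_ifs
        · exact hA _ ht _ (ih1 _ _)
        · exact A.zero_mem
    · rw [ev_cons, map_mul, Units.val_mul, ih2, toMat_x, elem_val, e1]
      have e4 : (1 + Matrix.single k l' (F a)) * (1 + (mt l - 1).map F) =
          1 + ((mt l - 1).map F + Matrix.single k l' (F a) +
            Matrix.single k l' (F a) * (mt l - 1).map F) := by
        noncomm_ring
      change (1 + Matrix.single k l' (F a)) * _ = _
      rw [e4]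
      congr 1
      ext i j
      rw [Matrix.add_apply, Matrix.add_apply, e3, Matrix.map_apply, Matrix.map_apply,
        Matrix.add_apply, Matrix.add_apply, map_add, map_add, e2, Matrix.single_apply,
        Matrix.single_apply]
      congr 1
      · congr 1
        split_ifs
        · rfl
        · rw [map_zero]
      · split_ifs
        · rw [hF _ ht _ (ih1 _ _)]
        · rw [map_zero]

theorem toMat_ev_eq_one {A : AddSubgroup S} (hA : ∀ a ∈ A, ∀ b ∈ A, a * b ∈ A) (F : S →+ Q)
    (hF : ∀ a ∈ A, ∀ b ∈ A, F (a * b) = F a * F b) (l : List (StGen I S))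
    (hl : ∀ t ∈ l, t.2 ∈ A) (hm : mt l = 1) : toMat (ev (fun a => F a) l) = 1 := by
  apply Units.ext
  rw [(toMat_ev_mul hA F hF l hl).2, hm, sub_self, Units.val_one]
  ext i j
  simp

/-- the additive map `a ↦ single s s (f a) + single s t (v a)` -/
def Fst (f v : S →+ S) (s t : Fin 2) : S →+ Matrix (Fin 2) (Fin 2) S where
  toFun a := Matrix.single s s (f a) + Matrix.single s t (v a)
  map_zero' := by simp
  map_add' a b := by
    rw [map_add, map_add, Matrix.single_add, Matrix.single_add]; abel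

/-- the additive map `a ↦ single s s (f a)` -/
def Fs (f : S →+ S) (s : Fin 2) : S →+ Matrix (Fin 2) (Fin 2) S where
  toFun a := Matrix.single s s (f a)
  map_zero' := by simp
  map_add' a b := by
    rw [map_add, Matrix.single_add]

/-- **(X2)** -/
theorem stepAC (I : Type) [Fintype I] [DecidableEq I] (S : Type) [Ring S] : StepAC I S := by
  intro A hA f v hf hv s t hst l hl hm
  let P : I × Fin 2 → I × Fin 2 → Prop := fun a b => a.2 = s ∧ b.2 = t
  have htr : ∀ i j k : I × Fin 2, P i j → P j k → P i k := by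
    rintro i j k ⟨h1, h2⟩ ⟨h3, h4⟩
    exact absurd (h3.symm.trans h2) hst
  have hirr : ∀ i : I × Fin 2, ¬ P i i := by
    rintro i ⟨h1, h2⟩
    exact hst (h1.symm.trans h2)
  have hF1 : ∀ a ∈ A, ∀ b ∈ A, Fst f v s t (a * b) = Fst f v s t a * Fst f v s t b := by
    intro a ha b hb
    change Matrix.single s s (f (a * b)) + Matrix.single s t (v (a * b)) =
      (Matrix.single s s (f a) + Matrix.single s t (v a)) *
      (Matrix.single s s (f b) + Matrix.single s t (v b))
    rw [hf a ha b hb, hv a ha b hb, mul_add, add_mul, add_mul, Matrix.single_mul_single_same,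
      Matrix.single_mul_single_same, Matrix.single_mul_single_of_ne _ _ _ _ hst.symm,
      Matrix.single_mul_single_of_ne _ _ _ _ hst.symm, add_zero, add_zero]
  have hF2 : ∀ a ∈ A, ∀ b ∈ A, Fs f s (a * b) = Fs f s a * Fs f s b := by
    intro a ha b hb
    change Matrix.single s s (f (a * b)) = Matrix.single s s (f a) * Matrix.single s s (f b)
    rw [hf a ha b hb, Matrix.single_mul_single_same]
  have m1 : toMat (Blk I (Fin 2) S (ev (fun a => Fst f v s t a) l)) = 1 :=
    toMat_Blk_eq_one _ (toMat_ev_eq_one hA (Fst f v s t) hF1 l hl hm)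
  have m2 : toMat (Blk I (Fin 2) S (ev (fun a => Fs f s a) l)) = 1 :=
    toMat_Blk_eq_one _ (toMat_ev_eq_one hA (Fs f s) hF2 l hl hm)
  have hmem : ∀ l : List (StGen I S), Blk I (Fin 2) S (ev (fun a => Fst f v s t a) l) *
      (Blk I (Fin 2) S (ev (fun a => Fs f s a) l))⁻¹ ∈ Sub S P := by
    intro l
    induction l with
    | nil => simp
    | cons u l ih =>
      obtain ⟨⟨⟨k, l'⟩, hkl⟩, a⟩ := u
      change k ≠ l' at hkl
      rw [ev_cons, ev_cons, map_mul, map_mul, Blk_x, Blk_x]
      change blk k l' hkl (Matrix.single s s (f a) + Matrix.single s t (v a)) * _ *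
        (blk k l' hkl (Matrix.single s s (f a)) * _)⁻¹ ∈ _
      rw [blk_add, blk_single, blk_single]
      have hV : (x (k, s) (l', t) (pne hkl _ _) (v a) : St (I × Fin 2) S) ∈ Sub S P :=
        x_mem_Sub _ ⟨rfl, rfl⟩ _
      have e1 : ∀ (X Y B C : St (I × Fin 2) S), X * Y * B * (X * C)⁻¹ =
          (X * (Y * (B * C⁻¹)) * X⁻¹) := by
        intro X Y B C; group
      rw [e1]
      apply conj_mem_Sub
      · rintro k' ⟨-, h2⟩
        refine ⟨?_, rfl, h2⟩
        rintro rfl
        exact hst h2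
      · rintro k' ⟨-, h2⟩
        exact absurd h2 hst
      · exact (Sub S P).mul_mem hV ih
  have := Sub_inj htr hirr _ (hmem l) (by rw [map_mul, map_inv, m1, m2, inv_one, mul_one])
  exact mul_inv_eq_one.mp this

end Crest.Agent.R176.Exc275
end

-- ▼ part R176/Exc275D
section

/-! Row 176, part B, block EXC (helper275): `FP` for matrices over `J m`; words of phantoms; final
form of EXC modulo (X2) and (X3). -/

set_option autoImplicit false

namespace Crest.Agent.R176.Exc275

open St Cover294 Fpt396 QAlg206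
open scoped commutatorElement

section FPT

variable {L : Type} {step : L → L → Option (L × L)} {n : Type} [Fintype n] [DecidableEq n]

theorem MJ_le_Sq (m : ℕ) : MJ n step (2 * m) ≤ Sq (MJ n step m) := by
  intro U hU
  rw [two_mul] at hU
  refine MJ_induction (P := fun U => U ∈ Sq (MJ n step m)) (AddSubgroup.zero_mem _)
    (fun u v _ _ h h' => AddSubgroup.add_mem _ h h') (fun u v hu hv => mul_mem_Sq hu hv) hU

theorem FP_MJ {m : ℕ} (hm : 1 ≤ m) :
    FP (Matrix n n (QQ step)) (MJ n step (2 * m)) (MJ n step m) (MJ n step (8 * m)) := by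
  intro M _ f hf1 hf2 hf3
  have hle : MJ n step (2 * m) ≤ MJ n step m := MJ_anti (by omega)
  obtain ⟨τ, hτ⟩ := exists_tau_matrix (T := Additive M) (m := 2 * m) (by omega)
    (D := fun U V => Additive.ofMul (f U V)) (n := n) (step := step)
    { addl := fun u u' v hu hu' hv => by
        rw [hf1 u hu u' hu' v (hle hv)]; rfl
      addr := fun u v v' hu hv hv' => by
        rw [hf2 u hu v (hle hv) v' (hle hv')]; rfl
      bal := fun u b v hu hb hv => by
        rw [hf3 u hu b (hle hb) v (hle hv)] }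
  refine ⟨fun u => (τ u).toMul, ?_, ?_, ?_⟩
  · intro u _ u' _
    show (τ (u + u')).toMul = _
    rw [map_add]; rfl
  · intro w hw a ha
    show (τ (w * a)).toMul = _
    rw [hτ (8 * m) (8 * m) (by omega) (by omega) (by omega) w hw a ha]; rfl
  · intro P h0 hmul hadd u hu
    have h8 : 8 * m = 4 * m + 4 * m := by ring
    rw [h8] at hu
    refine MJ_induction (P := fun u => P u (τ u).toMul) ?_ ?_ ?_ hu
    · show P 0 (τ 0).toMul
      rw [map_zero]; exact h0
    · intro u v _ _ h h'
      show P (u + v) (τ (u + v)).toMul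
      rw [map_add]
      exact hadd _ _ _ _ h h'
    · intro u v hu hv
      show P (u * v) (τ (u * v)).toMul
      rw [hτ (4 * m) (4 * m) (by omega) (by omega) (by omega) u hu v hv]
      exact hmul u (MJ_anti (by omega) hu) v (MJ_anti (by omega) hv)

end FPT

section words

variable {I R S : Type} [Ring R] [Ring S]

theorem exists_word {J : AddSubgroup R} {g : St I R} (hg : g ∈ Tits370.E I J) :
    ∃ l : List (StGen I R), (∀ t ∈ l, t.2 ∈ J) ∧ g = ev (fun a => a) l := by
  unfold Tits370.E at hg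
  induction hg using Subgroup.closure_induction_left with
  | one => exact ⟨[], by simp, rfl⟩
  | mul_left a ha b _ ih =>
    obtain ⟨i, j, h, r, hr, rfl⟩ := ha
    obtain ⟨l, hl, rfl⟩ := ih
    refine ⟨stg i j h r :: l, ?_, ?_⟩
    · intro t ht
      rcases List.mem_cons.mp ht with rfl | ht
      · exact hr
      · exact hl t ht
    · rw [ev_cons]; rfl
  | inv_mul_cancel a ha b _ ih =>
    obtain ⟨i, j, h, r, hr, rfl⟩ := ha
    obtain ⟨l, hl, rfl⟩ := ih
    refine ⟨stg i j h (-r) :: l, ?_, ?_⟩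
    · intro t ht
      rcases List.mem_cons.mp ht with rfl | ht
      · exact J.neg_mem hr
      · exact hl t ht
    · rw [ev_cons, ← x_neg]; rfl

/-- change the coefficients of a word -/
def mapW (ψ : R → S) (l : List (StGen I R)) : List (StGen I S) :=
  l.map fun t => (t.1, ψ t.2)

theorem ev_mapW {Q : Type} [Ring Q] (ψ : R → S) (f : S → Q) (l : List (StGen I R)) :
    ev f (mapW ψ l) = ev (fun a => f (ψ a)) l := by
  simp [ev, mapW, Function.comp_def]

theorem map_ev (ψ : R →+* S) (l : List (StGen I R)) :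
    map ψ (ev (fun a => a) l) = ev (fun a => ψ a) l := by
  induction l with
  | nil => simp
  | cons t l ih => rw [ev_cons, ev_cons, map_mul, map_x, ih]

theorem mt_eq_toMat [Fintype I] [DecidableEq I] (l : List (StGen I R)) :
    mt l = (toMat (ev (fun a => a) l)).val := by
  induction l with
  | nil => simp
  | cons t l ih => rw [ev_cons, mt_cons, map_mul, Units.val_mul, toMat_x, elem_val, ih]

theorem mt_mapW [Fintype I] [DecidableEq I] (ψ : R →+* S) (l : List (StGen I R)) :
    mt (mapW ψ l) = ψ.mapMatrix (mt l) := by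
  induction l with
  | nil =>
    show (1 : Matrix I I S) = ψ.mapMatrix 1
    rw [map_one]
  | cons t l ih =>
    show mt ((t.1, ψ t.2) :: mapW ψ l) = _
    rw [mt_cons, mt_cons, map_mul, ih, map_add, map_one]
    congr 2
    ext i j
    simp only [RingHom.mapMatrix_apply, Matrix.map_apply, Matrix.single_apply]
    split_ifs <;> simp

end words

section final

variable {L : Type} {step : L → L → Option (L × L)} {n : Type} [Fintype n] [DecidableEq n]

/-- **EXC**, general form: `ψ : R →+* M_n(R)` preserving the filtration and `T ψ T⁻¹ = scalar` on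
`J m`. -/
theorem exc_general {I : Type} [Fintype I] [DecidableEq I]
    (hAC : StepAC I (Matrix n n (QQ step)))
    (h4 : ∀ a b c : I, ∃ d, d ≠ a ∧ d ≠ b ∧ d ≠ c)
    (ψ : QQ step →+* Matrix n n (QQ step)) (hψ : ∀ m, ∀ r ∈ J step m, ψ r ∈ MJ n step m)
    {m : ℕ} (hm : 1 ≤ m) {Lm Rm : Matrix n n (QQ step) →+ Matrix n n (QQ step)}
    (hM : Mult (MJ n step m) Lm Rm) (hT : ∀ r ∈ J step m, Lm (Rm (ψ r)) = Matrix.scalar n r)
    (g : St I (QQ step)) (hg1 : toMat g = 1) (hg : g ∈ Tits370.E I (J step (8 * m))) :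
    mapI (eN I (0 : Fin 2)) (map ψ g) = mapI (eN I (1 : Fin 2)) (map (Matrix.scalar n) g) := by
  obtain ⟨l, hl, rfl⟩ := exists_word hg
  have h2 : ∀ a : Matrix n n (QQ step), a + a = 0 := by
    intro a; ext i j; exact add_self_eq_zero' _
  have hmain := hM.main h2 hAC h4 (W := MJ n step (2 * m)) (A' := MJ n step (8 * m))
    (MJ_le_Sq m) (MJ_anti (by omega)) (fun u hu a ha => MJ_anti (by omega) (mul_mem_MJ hu ha))
    (FP_MJ hm) (mapW ψ l) (by
      intro t ht
      obtain ⟨t', ht', rfl⟩ := List.mem_map.mp ht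
      exact hψ _ _ (hl t' ht'))
    (by
      rw [mt_mapW, mt_eq_toMat, hg1, Units.val_one, map_one])
  rw [ev_mapW, ev_mapW] at hmain
  rw [map_ev, map_ev, hmain]
  congr 1
  unfold ev
  congr 1
  apply List.map_congr_left
  intro t ht
  have := hT _ (J_anti (show m ≤ 8 * m by omega) (hl t ht))
  simp only [this]

end final

end Crest.Agent.R176.Exc275
end

-- ▼ part R176/Mult396
section

/-!
R176, part B, block (X3) (helper396): the multipliers `T`, `T⁻¹` on matrices over `J m` given by a
phase function modulo `l`, and the four "equivalent" additive maps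
`e0, h, k, e1 : Matrix κ κ R → Matrix (κ ⊕ κ) (κ ⊕ κ) R`.
-/

set_option autoImplicit false
set_option linter.unusedSectionVars false

namespace Crest.Agent.R176.Mult396

open QAlg206 Fpt396 Ph396

variable {L : Type*} {step : L → L → Option (L × L)}

/-! ### Projections onto classes of words -/

/-- a class predicate -/
structure CP (step : L → L → Option (L × L)) where
  P : List L → Prop
  inv : ∀ u v : List L, ¬ IsZ step u → WEq step (some u) (some v) → (P u ↔ P v)

/-- words in the class with the property -/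
def CP.Has (c : CP step) (q : Cl step) : Prop :=
  ∃ w : List L, q = cl (some w) ∧ c.P w

theorem CP.has_iff (c : CP step) {w : List L} (hw : ¬ IsZ step w) :
    c.Has (cl (some w)) ↔ c.P w := by
  constructor
  · rintro ⟨w', e, hP⟩
    exact (c.inv w w' hw (cl_eq_iff.1 e)).2 hP
  · intro hP
    exact ⟨w, rfl, hP⟩

open Classical in
/-- The projection. -/
noncomputable def CP.proj (c : CP step) : QQ step →ₗ[ZMod 2] QQ step :=
  (Finsupp.linearCombination (ZMod 2)
    (fun q : NZ step => if c.Has q.1 then ofCl step (ZMod 2) q.1 else 0)).comp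
    (coord step (ZMod 2))

open Classical in
theorem CP.proj_word (c : CP step) (w : List L) :
    c.proj (wd step w) = if c.P w then wd step w else 0 := by
  by_cases hw : IsZ step w
  · have : wd step w = 0 := word_eq_zero_of_isZ step (ZMod 2) hw
    rw [this, map_zero]
    split_ifs <;> rfl
  · have hc := WPhase.cl_ne_of_not_isZ hw
    have e : c.proj (wd step w) =
        if c.Has (cl (some w)) then ofCl step (ZMod 2) (cl (some w)) else 0 := by
      show Finsupp.linearCombination (ZMod 2) _ (coord step (ZMod 2) (word step (ZMod 2) w)) = _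
      rw [coord_word, sg_of_ne step (ZMod 2) hc, Finsupp.linearCombination_single, one_smul]
    rw [e, ofCl_some]
    by_cases h : c.P w
    · rw [if_pos h, if_pos ((c.has_iff hw).2 h)]
    · rw [if_neg h, if_neg (fun h' => h ((c.has_iff hw).1 h'))]

/-- induction over `J m` -/
theorem J_word_induction {m : ℕ} {P : QQ step → Prop}
    (hw : ∀ w : List L, m ≤ w.length → P (wd step w)) (h0 : P 0)
    (hadd : ∀ u v, P u → P v → P (u + v)) {u : QQ step} (hu : u ∈ J step m) : P u := by
  have hneg : ∀ u : QQ step, -u = u := fun u => by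
    rw [neg_eq_iff_add_eq_zero]; exact add_self_eq_zero' u
  induction hu using AddSubgroup.closure_induction with
  | mem u hu => obtain ⟨w, hl, rfl⟩ := hu; exact hw w hl
  | zero => exact h0
  | add u v _ _ h h' => exact hadd u v h h'
  | neg u _ h => rw [hneg]; exact h

theorem word_induction {P : QQ step → Prop}
    (hw : ∀ w : List L, P (wd step w)) (h0 : P 0)
    (hadd : ∀ u v, P u → P v → P (u + v)) (u : QQ step) : P u :=
  J_word_induction (m := 0) (fun w _ => hw w) h0 hadd (mem_J_zero u)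

theorem CP.proj_mem (c : CP step) {m : ℕ} {u : QQ step} (hu : u ∈ J step m) :
    c.proj u ∈ J step m := by
  refine J_word_induction (P := fun u => c.proj u ∈ J step m) ?_ ?_ ?_ hu
  · intro w hw
    rw [c.proj_word]
    split_ifs
    · exact wd_mem_J hw
    · exact AddSubgroup.zero_mem _
  · rw [map_zero]; exact AddSubgroup.zero_mem _
  · intro u v h h'
    rw [map_add]; exact AddSubgroup.add_mem _ h h'

theorem CP.proj_comm (c d : CP step) (u : QQ step) : c.proj (d.proj u) = d.proj (c.proj u) := by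
  refine word_induction (P := fun u => c.proj (d.proj u) = d.proj (c.proj u)) ?_ ?_ ?_ u
  · intro w
    rw [c.proj_word, d.proj_word]
    by_cases h : c.P w <;> by_cases h' : d.P w <;> simp [h, h', c.proj_word, d.proj_word]
  · simp only [map_zero]
  · intro u v h h'
    simp only [map_add, h, h']

/-! ### Start and end phases -/

variable {l M : ℕ} (p : WPhase step l M)

/-- start phase `q` -/
def cpS (q : ZMod l) : CP step where
  P w := M ≤ w.length ∧ p.ph w = q
  inv u v hu h := by
    have hl := h.length_eq hu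
    constructor
    · rintro ⟨h1, h2⟩
      exact ⟨by omega, by rw [← p.inv u v hu h1 h]; exact h2⟩
    · rintro ⟨h1, h2⟩
      exact ⟨by omega, by rw [p.inv u v hu (by omega) h]; exact h2⟩

/-- end phase `s` -/
def cpE (s : ZMod l) : CP step where
  P w := M ≤ w.length ∧ p.ph w + (w.length : ZMod l) = s
  inv u v hu h := by
    have hl := h.length_eq hu
    constructor
    · rintro ⟨h1, h2⟩
      exact ⟨by omega, by rw [← p.inv u v hu h1 h, ← hl]; exact h2⟩
    · rintro ⟨h1, h2⟩
      exact ⟨by omega, by rw [p.inv u v hu (by omega) h, hl]; exact h2⟩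

/-- projection to the start phase `q` -/
noncomputable def ps (q : ZMod l) : QQ step →ₗ[ZMod 2] QQ step := (cpS p q).proj

/-- projection to the end phase `s` -/
noncomputable def pe (s : ZMod l) : QQ step →ₗ[ZMod 2] QQ step := (cpE p s).proj

open Classical in
theorem ps_word (q : ZMod l) (w : List L) :
    ps p q (wd step w) = if M ≤ w.length ∧ p.ph w = q then wd step w else 0 := by
  refine ((cpS p q).proj_word w).trans ?_
  exact if_congr Iff.rfl rfl rfl

open Classical in
theorem pe_word (s : ZMod l) (w : List L) :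
    pe p s (wd step w) =
      if M ≤ w.length ∧ p.ph w + (w.length : ZMod l) = s then wd step w else 0 := by
  refine ((cpE p s).proj_word w).trans ?_
  exact if_congr Iff.rfl rfl rfl

theorem ps_mem (q : ZMod l) {m : ℕ} {u : QQ step} (hu : u ∈ J step m) : ps p q u ∈ J step m :=
  (cpS p q).proj_mem hu

theorem pe_mem (q : ZMod l) {m : ℕ} {u : QQ step} (hu : u ∈ J step m) : pe p q u ∈ J step m :=
  (cpE p q).proj_mem hu

theorem ps_pe (q s : ZMod l) (u : QQ step) : ps p q (pe p s u) = pe p s (ps p q u) :=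
  (cpS p q).proj_comm (cpE p s) u

theorem wd_append (u v : List L) : wd step (u ++ v) = wd step u * wd step v :=
  word_append step (ZMod 2) u v

theorem wd_zero {w : List L} (h : IsZ step w) : wd step w = 0 :=
  word_eq_zero_of_isZ step (ZMod 2) h

theorem sum_ps [NeZero l] {u : QQ step} (hu : u ∈ J step M) : ∑ q : ZMod l, ps p q u = u := by
  classical
  refine J_word_induction (P := fun u => ∑ q : ZMod l, ps p q u = u) ?_ ?_ ?_ hu
  · intro w hl
    rw [Finset.sum_eq_single (p.ph w)]
    · rw [ps_word, if_pos ⟨by omega, rfl⟩]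
    · intro q _ hq
      rw [ps_word, if_neg (fun h => hq h.2.symm)]
    · intro h; exact absurd (Finset.mem_univ _) h
  · simp
  · intro u v h h'
    simp only [map_add, Finset.sum_add_distrib, h, h']

theorem sum_pe [NeZero l] {u : QQ step} (hu : u ∈ J step M) : ∑ q : ZMod l, pe p q u = u := by
  classical
  refine J_word_induction (P := fun u => ∑ q : ZMod l, pe p q u = u) ?_ ?_ ?_ hu
  · intro w hl
    rw [Finset.sum_eq_single (p.ph w + (w.length : ZMod l))]
    · rw [pe_word, if_pos ⟨by omega, rfl⟩]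
    · intro q _ hq
      rw [pe_word, if_neg (fun h => hq h.2.symm)]
    · intro h; exact absurd (Finset.mem_univ _) h
  · simp
  · intro u v h h'
    simp only [map_add, Finset.sum_add_distrib, h, h']

theorem ps_mul (q : ZMod l) {u : QQ step} (hu : u ∈ J step M) (v : QQ step) :
    ps p q (u * v) = ps p q u * v := by
  classical
  refine J_word_induction (P := fun u => ps p q (u * v) = ps p q u * v) ?_ ?_ ?_ hu
  · intro w hl
    refine word_induction (P := fun v => ps p q (wd step w * v) = ps p q (wd step w) * v)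
      ?_ ?_ ?_ v
    · intro w'
      by_cases hz : IsZ step (w ++ w')
      · have e' : wd step w * wd step w' = 0 := by rw [← wd_append, wd_zero hz]
        rw [e', map_zero, ps_word]
        split_ifs
        · exact e'.symm
        · rw [zero_mul]
      · have e := p.left w w' hz (by omega)
        rw [← wd_append, ps_word, ps_word]
        by_cases h : M ≤ w.length ∧ p.ph w = q
        · rw [if_pos h, if_pos ⟨by simp; omega, by rw [e]; exact h.2⟩]
          exact wd_append w w'
        · rw [if_neg h, if_neg, zero_mul]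
          rintro ⟨-, h2⟩
          exact h ⟨by omega, by rw [← e]; exact h2⟩
    · rw [mul_zero, map_zero, mul_zero]
    · intro r s hr hs
      rw [mul_add, map_add, hr, hs, mul_add]
  · rw [zero_mul, map_zero, zero_mul]
  · intro u u' h h'
    rw [add_mul, map_add, h, h', map_add, add_mul]

theorem pe_mul (s : ZMod l) (u : QQ step) {v : QQ step} (hv : v ∈ J step M) :
    pe p s (u * v) = u * pe p s v := by
  classical
  refine J_word_induction (P := fun v => pe p s (u * v) = u * pe p s v) ?_ ?_ ?_ hv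
  · intro w hl
    refine word_induction (P := fun u => pe p s (u * wd step w) = u * pe p s (wd step w))
      ?_ ?_ ?_ u
    · intro w'
      by_cases hz : IsZ step (w' ++ w)
      · have e' : wd step w' * wd step w = 0 := by rw [← wd_append, wd_zero hz]
        rw [e', map_zero, pe_word]
        split_ifs
        · exact e'.symm
        · rw [mul_zero]
      · have e := p.right w' w hz (by omega)
        have e2 : p.ph (w' ++ w) + ((w' ++ w).length : ZMod l) = p.ph w + (w.length : ZMod l) := by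
          rw [List.length_append, Nat.cast_add, ← add_assoc, e]
        rw [← wd_append, pe_word, pe_word]
        by_cases h : M ≤ w.length ∧ p.ph w + (w.length : ZMod l) = s
        · rw [if_pos h, if_pos ⟨by simp; omega, by rw [e2]; exact h.2⟩]
          exact wd_append w' w
        · rw [if_neg h, if_neg, mul_zero]
          rintro ⟨-, h2⟩
          exact h ⟨by omega, by rw [← e2]; exact h2⟩
    · rw [zero_mul, map_zero, zero_mul]
    · intro r s hr hs
      rw [add_mul, map_add, hr, hs, add_mul]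
  · rw [mul_zero, map_zero, mul_zero]
  · intro u u' h h'
    rw [mul_add, map_add, h, h', map_add, mul_add]

theorem pe_mul_ps (s q : ZMod l) {u v : QQ step} (hu : u ∈ J step M) (hv : v ∈ J step M)
    (hsq : s ≠ q) : pe p s u * ps p q v = 0 := by
  classical
  refine J_word_induction (P := fun u => pe p s u * ps p q v = 0) ?_ ?_ ?_ hu
  · intro w hl
    refine J_word_induction (P := fun v => pe p s (wd step w) * ps p q v = 0) ?_ ?_ ?_ hv
    · intro w' hl'
      rw [pe_word, ps_word]
      by_cases h : M ≤ w.length ∧ p.ph w + (w.length : ZMod l) = s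
      · by_cases h' : M ≤ w'.length ∧ p.ph w' = q
        · rw [if_pos h, if_pos h', ← wd_append]
          apply wd_zero
          by_contra hz
          apply hsq
          have e1 := p.left w w' hz hl
          have e2 := p.right w w' hz hl'
          rw [← h.2, ← h'.2, ← e1, e2]
        · rw [if_neg h', mul_zero]
      · rw [if_neg h, zero_mul]
    · rw [map_zero, mul_zero]
    · intro r s hr hs
      rw [map_add, mul_add, hr, hs, add_zero]
  · rw [map_zero, zero_mul]
  · intro r s hr hs
    rw [map_add, add_mul, hr, hs, add_zero]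

theorem sum_pe_mul_ps [NeZero l] {u v : QQ step} (hu : u ∈ J step M) (hv : v ∈ J step M) :
    ∑ s : ZMod l, pe p s u * ps p s v = u * v := by
  conv_rhs => rw [← sum_pe p hu, ← sum_ps p hv]
  rw [Finset.sum_mul]
  apply Finset.sum_congr rfl
  intro s _
  rw [Finset.mul_sum, Finset.sum_eq_single s]
  · intro q _ hq
    exact pe_mul_ps p s q hu hv hq.symm
  · intro h; exact absurd (Finset.mem_univ _) h

theorem ps_pe_gr (q s : ZMod l) {d : ℕ} {u : QQ step} (hu : u ∈ gr step (ZMod 2) d) :
    ps p q (pe p s u) = if s = q + (d : ZMod l) then ps p q u else 0 := by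
  classical
  refine WPhase.gr_induction (P := fun u => ps p q (pe p s u) =
    if s = q + (d : ZMod l) then ps p q u else 0) ?_ ?_ ?_ hu
  · intro w hl
    rw [pe_word, ps_word]
    by_cases h : M ≤ w.length ∧ p.ph w + (w.length : ZMod l) = s
    · rw [if_pos h, ps_word]
      by_cases h' : p.ph w = q
      · rw [if_pos ⟨h.1, h'⟩, if_pos]
        rw [← h.2, h', hl]
      · rw [if_neg (fun h2 => h' h2.2)]
        split_ifs <;> rfl
    · rw [if_neg h, map_zero]
      by_cases hs : s = q + (d : ZMod l)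
      · rw [if_pos hs, if_neg]
        rintro ⟨h1, h2⟩
        exact h ⟨h1, by rw [hs, h2, hl]⟩
      · rw [if_neg hs]
  · simp
  · intro u v h h'
    rw [map_add, map_add, h, h', map_add]
    split_ifs <;> simp

/-! ### The multipliers -/

section mult

variable {κ : Type*} [Fintype κ] [DecidableEq κ] (e : κ ≃ ZMod l)

/-- shift of the index -/
def sh (q : ZMod l) : κ ≃ κ := (e.trans (Equiv.addRight q)).trans e.symm

theorem e_sh (q : ZMod l) (a : κ) : e (sh e q a) = e a + q := by simp [sh]

variable [NeZero l]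

/-- left multiplication by `T` -/
noncomputable def TL : Matrix κ κ (QQ step) →+ Matrix κ κ (QQ step) where
  toFun A := Matrix.of fun a b => ∑ q : ZMod l, ps p q (A (sh e q a) b)
  map_zero' := by ext a b; simp
  map_add' A B := by ext a b; simp [Finset.sum_add_distrib]

/-- right multiplication by `T⁻¹` -/
noncomputable def TR : Matrix κ κ (QQ step) →+ Matrix κ κ (QQ step) where
  toFun A := Matrix.of fun a b => ∑ s : ZMod l, pe p s (A a (sh e s b))
  map_zero' := by ext a b; simp
  map_add' A B := by ext a b; simp [Finset.sum_add_distrib]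

theorem TL_apply (A : Matrix κ κ (QQ step)) (a b : κ) :
    TL p e A a b = ∑ q : ZMod l, ps p q (A (sh e q a) b) := rfl

theorem TR_apply (A : Matrix κ κ (QQ step)) (a b : κ) :
    TR p e A a b = ∑ s : ZMod l, pe p s (A a (sh e s b)) := rfl

theorem TL_mem {m : ℕ} {A : Matrix κ κ (QQ step)} (hA : A ∈ MJ κ step m) :
    TL p e A ∈ MJ κ step m := fun _ _ =>
  AddSubgroup.sum_mem _ fun q _ => ps_mem p q (hA _ _)

theorem TR_mem {m : ℕ} {A : Matrix κ κ (QQ step)} (hA : A ∈ MJ κ step m) :
    TR p e A ∈ MJ κ step m := fun _ _ =>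
  AddSubgroup.sum_mem _ fun q _ => pe_mem p q (hA _ _)

theorem TL_mul {A : Matrix κ κ (QQ step)} (hA : A ∈ MJ κ step M) (B : Matrix κ κ (QQ step)) :
    TL p e (A * B) = TL p e A * B := by
  ext a b
  rw [TL_apply, Matrix.mul_apply]
  simp only [TL_apply, Matrix.mul_apply, map_sum, Finset.sum_mul]
  rw [Finset.sum_comm]
  apply Finset.sum_congr rfl
  intro c _
  apply Finset.sum_congr rfl
  intro q _
  exact ps_mul p q (hA _ _) _

theorem TR_mul (A : Matrix κ κ (QQ step)) {B : Matrix κ κ (QQ step)} (hB : B ∈ MJ κ step M) :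
    TR p e (A * B) = A * TR p e B := by
  ext a b
  rw [TR_apply, Matrix.mul_apply]
  simp only [TR_apply, Matrix.mul_apply, map_sum, Finset.mul_sum]
  rw [Finset.sum_comm]
  apply Finset.sum_congr rfl
  intro c _
  apply Finset.sum_congr rfl
  intro q _
  exact pe_mul p q _ (hB _ _)

theorem TR_mul_TL {A B : Matrix κ κ (QQ step)} (hA : A ∈ MJ κ step M) (hB : B ∈ MJ κ step M) :
    TR p e A * TL p e B = A * B := by
  ext a b
  rw [Matrix.mul_apply, Matrix.mul_apply]
  have h1 : ∀ c : κ, TR p e A a c * TL p e B c b =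
      ∑ s : ZMod l, pe p s (A a (sh e s c)) * ps p s (B (sh e s c) b) := by
    intro c
    rw [TR_apply, TL_apply, Finset.sum_mul]
    apply Finset.sum_congr rfl
    intro s _
    rw [Finset.mul_sum, Finset.sum_eq_single s]
    · intro q _ hq
      exact pe_mul_ps p s q (hA _ _) (hB _ _) hq.symm
    · intro h; exact absurd (Finset.mem_univ _) h
  rw [Finset.sum_congr rfl fun c _ => h1 c, Finset.sum_comm]
  have h2 : ∀ s : ZMod l, ∑ c : κ, pe p s (A a (sh e s c)) * ps p s (B (sh e s c) b) =
      ∑ c : κ, pe p s (A a c) * ps p s (B c b) := by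
    intro s
    exact Equiv.sum_comp (sh e s) fun c => pe p s (A a c) * ps p s (B c b)
  rw [Finset.sum_congr rfl fun s _ => h2 s, Finset.sum_comm]
  apply Finset.sum_congr rfl
  intro c _
  exact sum_pe_mul_ps p (hA _ _) (hB _ _)

theorem TL_TR (A : Matrix κ κ (QQ step)) : TL p e (TR p e A) = TR p e (TL p e A) := by
  ext a b
  simp only [TL_apply, TR_apply, map_sum]
  rw [Finset.sum_comm]
  apply Finset.sum_congr rfl
  intro s _
  apply Finset.sum_congr rfl
  intro q _
  exact ps_pe p q s _

/-- `θ (ψ u) = u ⊗ 1`, homogeneous version -/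
theorem TL_TR_gr {d : ℕ} {u : QQ step} (hu : u ∈ gr step (ZMod 2) d)
    (huJ : u ∈ J step M) {A : Matrix κ κ (QQ step)}
    (hA : ∀ a b, A a b = if e a + (d : ZMod l) = e b then u else 0) :
    TL p e (TR p e A) = Matrix.scalar κ u := by
  ext a b
  rw [TL_apply]
  simp only [TR_apply, hA, e_sh, map_sum]
  have h1 : ∀ q s : ZMod l, ps p q (pe p s (if e a + q + (d : ZMod l) = e b + s then u else 0)) =
      if s = q + (d : ZMod l) then (if a = b then ps p q u else 0) else 0 := by
    intro q s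
    by_cases hs : s = q + (d : ZMod l)
    · rw [if_pos hs]
      by_cases hab : a = b
      · subst hab
        rw [if_pos (by rw [hs, add_assoc]), if_pos rfl, ps_pe_gr p q s hu, if_pos hs]
      · rw [if_neg hab, if_neg, map_zero, map_zero]
        intro h
        apply hab
        rw [hs, add_assoc] at h
        exact e.injective (add_right_cancel h)
    · rw [if_neg hs]
      split_ifs
      · rw [ps_pe_gr p q s hu, if_neg hs]
      · rw [map_zero, map_zero]
  rw [Finset.sum_congr rfl fun q _ => Finset.sum_congr rfl fun s _ => h1 q s]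
  have h2 : ∀ q : ZMod l, ∑ s : ZMod l, (if s = q + (d : ZMod l) then
      (if a = b then ps p q u else 0) else 0) = if a = b then ps p q u else 0 := by
    intro q
    rw [Finset.sum_ite_eq' Finset.univ, if_pos (Finset.mem_univ _)]
  rw [Finset.sum_congr rfl fun q _ => h2 q, Matrix.scalar_apply, Matrix.diagonal_apply]
  split_ifs
  · exact sum_ps p huJ
  · exact Finset.sum_const_zero

/-! ### The four equivalent maps -/

/-- upper left corner -/
noncomputable def e0 : Matrix κ κ (QQ step) →+ Matrix (κ ⊕ κ) (κ ⊕ κ) (QQ step) where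
  toFun A := Matrix.fromBlocks A 0 0 0
  map_zero' := Matrix.fromBlocks_zero
  map_add' A B := by rw [Matrix.fromBlocks_add]; simp

/-- `(1,0)ᵗ a (1, T⁻¹)` -/
noncomputable def hh : Matrix κ κ (QQ step) →+ Matrix (κ ⊕ κ) (κ ⊕ κ) (QQ step) where
  toFun A := Matrix.fromBlocks A (TR p e A) 0 0
  map_zero' := by rw [map_zero]; exact Matrix.fromBlocks_zero
  map_add' A B := by rw [Matrix.fromBlocks_add]; simp

/-- `(0,T)ᵗ a (1, T⁻¹)` -/
noncomputable def kk : Matrix κ κ (QQ step) →+ Matrix (κ ⊕ κ) (κ ⊕ κ) (QQ step) where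
  toFun A := Matrix.fromBlocks 0 0 (TL p e A) (TL p e (TR p e A))
  map_zero' := by rw [map_zero, map_zero, map_zero]; exact Matrix.fromBlocks_zero
  map_add' A B := by rw [Matrix.fromBlocks_add]; simp

/-- `(0,T)ᵗ a (0, T⁻¹)` -/
noncomputable def e1 : Matrix κ κ (QQ step) →+ Matrix (κ ⊕ κ) (κ ⊕ κ) (QQ step) where
  toFun A := Matrix.fromBlocks 0 0 0 (TL p e (TR p e A))
  map_zero' := by rw [map_zero, map_zero]; exact Matrix.fromBlocks_zero
  map_add' A B := by rw [Matrix.fromBlocks_add]; simp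


variable {A B : Matrix κ κ (QQ step)}















end mult

/-! ### The cyclic twist -/

section twist

variable [NeZero l]

/-- indices -/
def finZ (l : ℕ) [NeZero l] : Fin l ≃ ZMod l := (ZMod.finEquiv l).toEquiv

theorem finZ_apply (l : ℕ) [NeZero l] (a : Fin l) : finZ l a = ((a.val : ℕ) : ZMod l) := by
  obtain _ | n := l
  · exact absurd rfl (NeZero.ne 0)
  · exact (Fin.cast_val_eq_self (n := n + 1) a).symm

theorem finZ_add_eq_iff (a b : Fin l) (d : ℕ) :
    finZ l a + (d : ZMod l) = finZ l b ↔ (a.val + d) % l = b.val := by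
  rw [finZ_apply, finZ_apply, ← Nat.cast_add, ZMod.natCast_eq_natCast_iff, Nat.ModEq,
    Nat.mod_eq_of_lt b.2]

theorem twist_cyc_apply {d : ℕ} {u : QQ step} (hu : u ∈ gr step (ZMod 2) d) (a b : Fin l) :
    Cover294.twist (gr step (ZMod 2)) (Cover294.cycFam l) u a b =
      if finZ l a + (d : ZMod l) = finZ l b then u else 0 := by
  rw [Cover294.twist_apply_mem _ _ hu, Cover294.cycFam_apply]
  by_cases h : (a.val + d) % l = b.val
  · rw [if_pos h, if_pos ((finZ_add_eq_iff a b d).2 h), one_smul]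
  · rw [if_neg h, if_neg (fun h' => h ((finZ_add_eq_iff a b d).1 h')), zero_smul]

theorem twist_mem_MJ {m : ℕ} {u : QQ step} (hu : u ∈ J step m) :
    Cover294.twist (gr step (ZMod 2)) (Cover294.cycFam l) u ∈ MJ (Fin l) step m := by
  refine J_word_induction (P := fun u =>
    Cover294.twist (gr step (ZMod 2)) (Cover294.cycFam l) u ∈ MJ (Fin l) step m) ?_ ?_ ?_ hu
  · intro w hw a b
    rw [twist_cyc_apply (word_mem_gr' step (ZMod 2) rfl)]
    split_ifs
    · exact wd_mem_J hw
    · exact AddSubgroup.zero_mem _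
  · rw [map_zero]; exact AddSubgroup.zero_mem _
  · intro u v h h'
    rw [map_add]; exact AddSubgroup.add_mem _ h h'


/-- **`θ (ψ u) = u ⊗ 1`** -/
theorem theta_twist {u : QQ step} (hu : u ∈ J step M) :
    TL p (finZ l) (TR p (finZ l) (Cover294.twist (gr step (ZMod 2)) (Cover294.cycFam l) u)) =
      Matrix.scalar (Fin l) u := by
  refine J_word_induction (P := fun u => TL p (finZ l) (TR p (finZ l)
    (Cover294.twist (gr step (ZMod 2)) (Cover294.cycFam l) u)) =
      Matrix.scalar (Fin l) u) ?_ ?_ ?_ hu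
  · intro w hw
    exact TL_TR_gr p (finZ l) (word_mem_gr' step (ZMod 2) rfl) (wd_mem_J hw)
      (twist_cyc_apply (word_mem_gr' step (ZMod 2) rfl))
  · simp only [map_zero]
  · intro u v h h'
    rw [map_add, map_add, map_add, h, h', map_add]

end twist

end Crest.Agent.R176.Mult396
end

-- ▼ part R176/Exc275E
section

/-! Row 176, part B, block EXC (helper275): final form. -/

set_option autoImplicit false

namespace Crest.Agent.R176.Exc275

open St Cover294 Fpt396 QAlg206
open scoped commutatorElement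

variable {L : Type} {step : L → L → Option (L × L)}

theorem wd_mem_gr (w : List L) : wd step w ∈ gr step (ZMod 2) w.length :=
  word_mem_gr' step (ZMod 2) rfl

theorem twist_mem_MJ {n : Type} [Fintype n] [DecidableEq n] (F : MFam n) {m : ℕ} {r : QQ step}
    (hr : r ∈ J step m) : twist (gr step (ZMod 2)) F r ∈ MJ n step m := by
  induction hr using AddSubgroup.closure_induction with
  | mem r hr =>
    obtain ⟨w, hw, rfl⟩ := hr
    intro p q
    rw [twist_apply_mem (gr step (ZMod 2)) F (wd_mem_gr w)]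
    exact smul_mem_addSubgroup _ _ (wd_mem_J hw)
  | zero => rw [map_zero]; exact AddSubgroup.zero_mem _
  | add a b _ _ ha hb => rw [map_add]; exact AddSubgroup.add_mem _ ha hb
  | neg a _ ha => rw [map_neg]; exact AddSubgroup.neg_mem _ ha

/-- (X3) -/
def X3 (step : L → L → Option (L × L)) (l M : ℕ) [NeZero l] : Prop :=
  ∀ m, M ≤ m → 1 ≤ m → ∃ Lm Rm : Matrix (Fin l) (Fin l) (QQ step) →+ Matrix (Fin l) (Fin l) (QQ step),
    Mult (MJ (Fin l) step m) Lm Rm ∧
      ∀ r ∈ J step m, Lm (Rm (twist (gr step (ZMod 2)) (cycFam l) r)) = Matrix.scalar (Fin l) r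

/-- **EXC** modulo (X3). -/
theorem exc_of_X3 {l M : ℕ} [NeZero l] (h3 : X3 step l M) {I : Type} [Fintype I] [DecidableEq I]
    (h4 : ∀ a b c : I, ∃ d, d ≠ a ∧ d ≠ b ∧ d ≠ c) :
    ∃ m, ∀ g : St I (QQ step), toMat g = 1 → g ∈ Tits370.E I (J step m) →
      mapI (eN I (0 : Fin 2)) (map (twist (gr step (ZMod 2)) (cycFam l)) g) =
        mapI (eN I (1 : Fin 2)) (map (Matrix.scalar (Fin l)) g) := by
  obtain ⟨Lm, Rm, hM, hT⟩ := h3 (M + 1) (by omega) (by omega)
  refine ⟨8 * (M + 1), fun g hg1 hg => ?_⟩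
  exact exc_general (stepAC _ _) h4 (twist (gr step (ZMod 2)) (cycFam l))
    (fun m r hr => twist_mem_MJ _ hr) (by omega) hM hT g hg1 hg

/-- (X3) from a word-level phase function (helper396). -/
theorem x3 {l M : ℕ} [NeZero l] (p : Ph396.WPhase step l M) : X3 step l M := by
  intro m hm hm1
  have hle : MJ (Fin l) step m ≤ MJ (Fin l) step M := MJ_anti hm
  refine ⟨Mult396.TL p (Mult396.finZ l), Mult396.TR p (Mult396.finZ l), ?_, ?_⟩
  · exact {
      mul_mem := fun a ha b hb => MJ_anti (by omega) (mul_mem_MJ ha hb)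
      L_mem := fun a ha => Mult396.TL_mem p _ ha
      R_mem := fun a ha => Mult396.TR_mem p _ ha
      L_mul := fun a ha b _ => Mult396.TL_mul p _ (hle ha) b
      R_mul := fun a _ b hb => Mult396.TR_mul p _ a (hle hb)
      RL := fun a ha b hb => Mult396.TR_mul_TL p _ (hle ha) (hle hb)
      LR := fun a _ => Mult396.TL_TR p _ a }
  · intro r hr
    exact Mult396.theta_twist p (J_anti hm hr)

/-- **EXC.** -/
theorem exc {l M : ℕ} [NeZero l] (p : Ph396.WPhase step l M) {I : Type} [Fintype I]
    [DecidableEq I] (h4 : ∀ a b c : I, ∃ d, d ≠ a ∧ d ≠ b ∧ d ≠ c) :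
    ∃ m, ∀ g : St I (QQ step), toMat g = 1 → g ∈ Tits370.E I (J step m) →
      mapI (eN I (0 : Fin 2)) (map (twist (gr step (ZMod 2)) (cycFam l)) g) =
        mapI (eN I (1 : Fin 2)) (map (Matrix.scalar (Fin l)) g) :=
  exc_of_X3 (x3 p) h4

end Crest.Agent.R176.Exc275
end

-- ▼ part R176/X5Fin313
section

/-! Row 176, part B, X5 (helper313): no phantoms, from `exc` and `PhaseAll`. -/

set_option autoImplicit false

namespace Crest.Agent.R176.Final313

open Crest.Agent.R176 Crest.Agent.R176.St Crest.Agent.R176.QAlg206 Cover294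

section blkmap

variable {I J N R : Type*} [Ring R] [Fintype N] [DecidableEq N]

/-- the block embedding -/
def pe (N : Type*) (e : I ↪ J) : I × N ↪ J × N := e.prodMap (Function.Embedding.refl N)

theorem mapI_blk (e : I ↪ J) (i j : I) (h : i ≠ j) (A : Matrix N N R) :
    mapI (pe N e) (blk i j h A) = blk (e i) (e j) (e.injective.ne h) A := by
  induction A using blk_induction with
  | h0 => rw [blk_zero, blk_zero, map_one]
  | hadd A B ih ih' => rw [blk_add, map_mul, ih, ih', ← blk_add]
  | hs p q r => rw [blk_single, blk_single, mapI_x]; rfl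

theorem Blk_mapI (e : I ↪ J) (g : St I (Matrix N N R)) :
    Blk J N R (mapI e g) = mapI (pe N e) (Blk I N R g) := by
  have key : (Blk J N R).comp (mapI (R := Matrix N N R) e) =
      (mapI (R := R) (pe N e)).comp (Blk I N R) := by
    apply hom_ext
    intro i j h r
    simp only [MonoidHom.comp_apply, mapI_x, Blk_x, mapI_blk]
  exact DFunLike.congr_fun key g

end blkmap

variable {L : Type} {step : L → L → Option (L × L)}

/-- **X5**: there are no phantoms. -/
theorem noPhantom (hph : Ph396.PhaseAll step) {I : Type} [Fintype I] [DecidableEq I]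
    (h4 : ∀ a b c : I, ∃ d, d ≠ a ∧ d ≠ b ∧ d ≠ c) (hI : 3 ≤ Fintype.card I) {c : ℕ}
    (hst : StabFor c (QA step (ZMod 2))) (hIc : c ≤ Fintype.card I)
    (g : St I (QA step (ZMod 2))) (h1 : toMat g = 1)
    (hg : ∀ m, g ∈ Tits370.E I (Fpt396.J step m)) : g = 1 := by
  have : Nonempty I := Fintype.card_pos_iff.mp (by omega)
  have h0 := map_projZero_eq_one step hI g h1
  obtain ⟨D, hD⟩ := exists_HW (gr step (ZMod 2)) g
  refine eq_one_of_odd (gr step (ZMod 2)) g h1 h0 (fun n p => mapI_injective hst hIc _) ?_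
  intro N₀
  obtain ⟨l, M, hl, hodd, ⟨p⟩⟩ := hph (max N₀ (2 * D))
  have hnz : NeZero l := ⟨by rintro rfl; exact absurd hodd (by decide)⟩
  refine ⟨l, hnz, (le_max_left _ _).trans hl, hodd, ?_⟩
  obtain ⟨m, hm⟩ := Exc275.exc p h4 (I := I)
  have h2 := hm g h1 (hg m)
  have h3 := congrArg (Blk (I × Fin 2) (Fin l) (QA step (ZMod 2))) h2
  rw [Blk_mapI, Blk_mapI, Blk_cyc_eq_one (gr step (ZMod 2)) g h1 h0 hD l
    ((le_max_right _ _).trans hl), map_one] at h3
  rw [Blk_cyc_eq_one (gr step (ZMod 2)) g h1 h0 hD l ((le_max_right _ _).trans hl)]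
  refine (mapI_injective (J := (I × Fin 2) × Fin l) hst ?_ _ (h3.symm.trans (map_one _).symm)).symm
  rw [Fintype.card_prod, Fintype.card_fin]
  exact hIc.trans (Nat.le_mul_of_pos_right _ (Nat.pos_of_neZero l))

theorem four (a b c : Fin 9) : ∃ d : Fin 9, d ≠ a ∧ d ≠ b ∧ d ≠ c := by
  revert a b c; decide

/-- **S0265 from part A and PHASES.** -/
theorem s0265_of_phase [Fintype L]
    (hinf : ∀ n : ℕ, ∃ w : List L, n ≤ w.length ∧ ¬ IsZ step w)
    (hQ : Gen.QAll step) (hph : Ph396.PhaseAll step) :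
    ∃ (G : Type) (_ : Group G),
      Infinite G ∧ Group.IsFinitelyPresented G ∧ Group.ResiduallyFinite G ∧ IsPGroup 2 G :=
  s0265_of_noPhantom step hinf hQ fun hst g h1 hg =>
    noPhantom hph four (by simp) hst (by simp) g h1 hg

end Crest.Agent.R176.Final313
end

-- ▼ part R176/Machine/Phase845

/-!
# Row 176, part A: phases of all levels (block (5P); helper845)

Literal words: every full block `B` of a nonzero word has a chosen home-empty form `nf B` (`NormP`).
`RunsC ps cs` : executing all engaged pairs of the list `ps` gives the contents `cs`.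
-/

set_option autoImplicit false
set_option linter.unusedSectionVars false

namespace Crest.Agent.R176.Machine.Phase

open Crest.Agent.R176.Gen Crest.Agent.R176.Machine.Key Crest.Agent.R176.Machine.Key309

section runs
variable {Λ : Type} [DecidableEq Λ] [LabelSys Λ]

/-- home-empty forms: context, mark of `H`, content -/
abbrev Trip (Λ : Type) := Option (Ph × Data) × HM × Cont Λ

/-- the head of the list is not busy -/
def HdOK (ps : List (Trip Λ)) : Prop := ∀ p ∈ ps.head?, p.1 = none
/-- the last form is not locked -/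
def LstOK (ps : List (Trip Λ)) : Prop := ∀ p ∈ ps.getLast?, p.2.1 ≠ .l

/-- execute all engaged pairs of a list of home-empty forms -/
inductive RunsC : List (Trip Λ) → List (Cont Λ) → Prop
  | nil : RunsC [] []
  | one (a : Cont Λ) (ps : List (Trip Λ)) (cs : List (Cont Λ)) (h : RunsC ps cs) :
      RunsC ((none, .f, a) :: ps) (a :: cs)
  | two (a b : Cont Λ) (φ : Ph) (d : Data) (p : Cont Λ × Cont Λ)
      (hr : runL (allPh.drop φ.val) d a b = some p) (ps : List (Trip Λ)) (cs : List (Cont Λ))
      (h : RunsC ps cs) : RunsC ((none, .l, a) :: (some (φ, d), .b, b) :: ps) (p.1 :: p.2 :: cs)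

theorem RunsC.unique {ps : List (Trip Λ)} {cs cs' : List (Cont Λ)} (h : RunsC ps cs)
    (h' : RunsC ps cs') : cs = cs' := by
  induction h generalizing cs' with
  | nil => cases h'; rfl
  | one a ps cs h ih =>
    cases h' with
    | one _ _ cs'' h'' => rw [ih h'']
  | two a b φ d p hr ps cs h ih =>
    cases h' with
    | two _ _ _ _ p' hr' _ cs'' h'' =>
      rw [hr] at hr'
      cases hr'
      rw [ih h'']

theorem RunsC.length {ps : List (Trip Λ)} {cs : List (Cont Λ)} (h : RunsC ps cs) :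
    cs.length = ps.length := by
  induction h with
  | nil => rfl
  | one a ps cs h ih => simp [ih]
  | two a b φ d p hr ps cs h ih => simp [ih]

theorem RunsC.hd {ps : List (Trip Λ)} {cs : List (Cont Λ)} (h : RunsC ps cs) : HdOK ps := by
  intro p hp
  cases h with
  | nil => simp at hp
  | one a ps cs h => simp at hp; rw [← hp]
  | two a b φ d p hr ps cs h => simp at hp; rw [← hp]

theorem RunsC.lst {ps : List (Trip Λ)} {cs : List (Cont Λ)} (h : RunsC ps cs) : LstOK ps := by
  induction h with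
  | nil => intro p hp; simp at hp
  | one a ps cs h ih =>
    intro p hp
    rcases ps with _ | ⟨q, ps⟩
    · simp at hp; rw [← hp]; simp
    · rw [List.getLast?_cons_cons] at hp
      exact ih p hp
  | two a b φ d p hr ps cs h ih =>
    intro p hp
    rw [List.getLast?_cons_cons] at hp
    rcases ps with _ | ⟨q, ps⟩
    · simp at hp; rw [← hp]; simp
    · rw [List.getLast?_cons_cons] at hp
      exact ih p hp

/-- splitting at a place where the right part does not begin with a busy block -/
theorem RunsC.split {A R : List (Trip Λ)} {cs : List (Cont Λ)} (h : RunsC (A ++ R) cs)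
    (hR : HdOK R) (hR0 : R ≠ []) :
    ∃ cA cR, RunsC A cA ∧ RunsC R cR ∧ cs = cA ++ cR := by
  generalize hX : A ++ R = X at h
  induction h generalizing A with
  | nil => simp at hX; exact absurd hX.2 hR0
  | one a ps cs h ih =>
    rcases A with _ | ⟨x, A⟩
    · simp only [List.nil_append] at hX
      subst hX
      exact ⟨[], a :: cs, .nil, .one a ps cs h, rfl⟩
    · simp only [List.cons_append, List.cons.injEq] at hX
      obtain ⟨rfl, hX⟩ := hX
      obtain ⟨cA, cR, h1, h2, rfl⟩ := ih hX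
      exact ⟨a :: cA, cR, .one a _ _ h1, h2, rfl⟩
  | two a b φ d p hr ps cs h ih =>
    rcases A with _ | ⟨x, A⟩
    · simp only [List.nil_append] at hX
      subst hX
      exact ⟨[], _, .nil, .two a b φ d p hr ps cs h, rfl⟩
    · simp only [List.cons_append, List.cons.injEq] at hX
      obtain ⟨rfl, hX⟩ := hX
      rcases A with _ | ⟨y, A⟩
      · simp only [List.nil_append] at hX
        subst hX
        have := hR (some (φ, d), .b, b) (by simp)
        simp at this
      · simp only [List.cons_append, List.cons.injEq] at hX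
        obtain ⟨rfl, hX⟩ := hX
        obtain ⟨cA, cR, h1, h2, rfl⟩ := ih hX
        exact ⟨p.1 :: p.2 :: cA, cR, .two a b φ d p hr _ _ h1, h2, rfl⟩

end runs

section norm
variable {Λ : Type} [Fintype Λ] [DecidableEq Λ] [LabelSys Λ] {M : Type*} [MonoidWithZero M]

/-- segments -/
abbrev Seg (Λ : Type) := WK × Λ × List (Let Λ)

/-- the word of a segment -/
def seg1 (s : Seg Λ) : List (Let Λ) := (.W s.1, s.2.1) :: s.2.2

theorem segs_cons' (s : Seg Λ) (X : List (Seg Λ)) : segs (s :: X) = seg1 s ++ segs X := rfl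

theorem segs_append (X Y : List (Seg Λ)) : segs (X ++ Y) = segs X ++ segs Y := by
  unfold segs; rw [List.map_append, List.flatten_append]

/-- the word of a home-empty form -/
noncomputable def bl (p : Trip Λ) : List (Let Λ) := Key.blkL p.1 p.2.1 p.2.2

/-- valid home-empty forms -/
def Val (p : Trip Λ) : Prop :=
  (p.1 = none ∧ (p.2.1 = .f ∨ p.2.1 = .l)) ∨ (∃ φ d, φ ≠ 0 ∧ p.1 = some (φ, d) ∧ p.2.1 = .b)

variable (m : Model (step (Λ := Λ)) M)

/-- `p` is a home-empty form of the segment `s` -/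
def Nrm (s : Seg Λ) (p : Trip Λ) : Prop :=
  s.2.2.length = Fintype.card Λ + 4 ∧
    (∀ (w' : WK) (b : Λ), m.ev (seg1 s ++ [(.W w', b)]) = m.ev (bl p ++ [(.W w', b)])) ∧ Val p

open Classical in
/-- the chosen home-empty form of a literal segment -/
noncomputable def nf (s : Seg Λ) : Trip Λ :=
  if h : ∃ p, Nrm m s p then h.choose else (none, .f, ⟨z, z, z⟩)

variable {m}

theorem nf_spec (hN : NormP m) {s : Seg Λ} (hs : ∀ x ∈ s.2.2, ¬ IsW x) {w' : WK} {b : Λ}
    (h : m.ev (seg1 s ++ [(.W w', b)]) ≠ 0) : Nrm m s (nf m s) := by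
  have : ∃ p, Nrm m s p := by
    rcases hN s.1 s.2.1 s.2.2 hs with h0 | ⟨c, hm, q, h1, h2, h3⟩
    · exact absurd (h0 w' b) h
    · refine ⟨(c, hm, q), h1, h2, ?_⟩
      rcases h3 with ⟨h4, -, -, h5⟩ | ⟨φ, d, h4, h5, -, h6⟩
      · exact Or.inl ⟨h4, h5⟩
      · exact Or.inr ⟨φ, d, h4, h5, h6⟩
  unfold nf
  rw [dif_pos this]
  exact this.choose_spec

/-- a word of segments followed by a wall letter begins with a wall letter -/
theorem segs_wall (X : List (Seg Λ)) (w : WK) (a : Λ) (h : List (Let Λ)) :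
    ∃ w' a' h', segs X ++ ((.W w, a) : Let Λ) :: h = (.W w', a') :: h' := by
  rcases X with _ | ⟨s, X⟩
  · exact ⟨w, a, h, rfl⟩
  · exact ⟨s.1, s.2.1, s.2.2 ++ (segs X ++ ((.W w, a) : Let Λ) :: h), by
      rw [segs_cons']; simp [seg1]⟩

/-- normalisation of all segments of a nonzero word -/
theorem norm_ev (hN : NormP m) (X : List (Seg Λ)) (hX : ∀ s ∈ X, ∀ x ∈ s.2.2, ¬ IsW x)
    (w : WK) (a : Λ) (h : List (Let Λ)) (hnz : m.ev (segs X ++ (.W w, a) :: h) ≠ 0) :
    m.ev (segs X ++ (.W w, a) :: h) =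
      m.ev ((X.map fun s => bl (nf m s)).flatten ++ (.W w, a) :: h) ∧
    ∀ s ∈ X, Nrm m s (nf m s) := by
  induction X with
  | nil => exact ⟨rfl, by simp⟩
  | cons s X ih =>
    obtain ⟨w', a', h', hw⟩ := segs_wall X w a h
    have e1 : m.ev (segs (s :: X) ++ (.W w, a) :: h) =
        m.ev (seg1 s ++ [(.W w', a')]) * m.ev h' := by
      rw [segs_cons', List.append_assoc, hw, ← Model.ev_append]
      simp
    have h1 : m.ev (seg1 s ++ [(.W w', a')]) ≠ 0 := by
      intro h0; rw [e1, h0, zero_mul] at hnz; exact hnz rfl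
    have h2 := nf_spec hN (hX s (by simp)) h1
    have h3 : m.ev (segs X ++ (.W w, a) :: h) ≠ 0 := by
      intro h0
      rw [segs_cons', List.append_assoc, Model.ev_append, h0, mul_zero] at hnz
      exact hnz rfl
    obtain ⟨h4, h5⟩ := ih (fun t ht => hX t (by simp [ht])) h3
    refine ⟨?_, ?_⟩
    · have e2 : m.ev (((s :: X).map fun s => bl (nf m s)).flatten ++ (.W w, a) :: h) =
          m.ev (bl (nf m s)) * (m.f (.W w', a') * m.ev h') := by
        rw [List.map_cons, List.flatten_cons, List.append_assoc, Model.ev_append, ← h4, hw,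
          Model.ev_cons]
      rw [e1, e2, h2.2.1 w' a', Model.ev_append, Model.ev_cons, Model.ev_nil, mul_one, mul_assoc]
    · intro t ht
      simp only [List.mem_cons] at ht
      rcases ht with rfl | ht
      · exact h2
      · exact h5 t ht

theorem lock_adj (hL : LockP m) {p p' : Trip Λ} (hV : Val p') (r : List (Let Λ))
    (h : m.ev (bl p ++ (bl p' ++ r)) ≠ 0) : p.2.1 = .l ↔ p'.1 ≠ none := by
  have h1 : m.ev (Key.blkL p.1 p.2.1 p.2.2 ++ [(.W (homeW p'.1), z)]) ≠ 0 := by
    intro h0
    apply h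
    have : bl p ++ (bl p' ++ r) = (Key.blkL p.1 p.2.1 p.2.2 ++ [(.W (homeW p'.1), z)]) ++
        ((bl p').tail ++ r) := by
      simp [bl, Key.blkL]
    rw [this, Model.ev_append, h0, zero_mul]
  have h2 : p.2.1 = .l ↔ locked (homeW p'.1) = true := by
    by_contra hc
    exact h1 (hL _ _ _ _ _ hc)
  rw [h2]
  rcases hV with ⟨h3, -⟩ | ⟨φ, d, h3, h4, -⟩
  · rw [h3]; simp [homeW, locked]
  · rw [h4]; simp [homeW, locked, h3]

theorem runs_exists (hL : LockP m) (hR : RunP m) : ∀ ps : List (Trip Λ), (∀ p ∈ ps, Val p) →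
    HdOK ps → LstOK ps → m.ev (ps.map bl).flatten ≠ 0 →
    ∃ cs, RunsC ps cs ∧ m.ev (ps.map bl).flatten = m.ev (cs.map (Key.blkL none .f)).flatten
  | [], _, _, _, _ => ⟨[], .nil, rfl⟩
  | [p], hV, hd, hl, _ => by
    have h1 : p.1 = none := hd p (by simp)
    have h2 : p.2.1 ≠ .l := hl p (by simp)
    obtain ⟨c, hm, a⟩ := p
    simp only at h1 h2
    subst h1
    rcases hV (none, hm, a) (by simp) with ⟨-, h3⟩ | ⟨φ, d, -, h3, -⟩
    · simp only [h2, or_false] at h3
      subst h3
      exact ⟨[a], .one a [] [] .nil, rfl⟩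
    · simp at h3
  | p :: p' :: ps, hV, hd, hl, hnz => by
    have h1 : p.1 = none := hd p (by simp)
    have hadj : p.2.1 = .l ↔ p'.1 ≠ none := by
      refine lock_adj hL (hV p' (by simp)) (ps.map bl).flatten ?_
      simpa using hnz
    obtain ⟨c, hm, a⟩ := p
    simp only at h1
    subst h1
    have hVp := hV (none, hm, a) (by simp)
    rcases hVp with ⟨-, h3⟩ | ⟨φ, d, -, h3, -⟩
    · simp only at h3 hadj
      rcases h3 with rfl | rfl
      · have h4 : p'.1 = none := by
          by_contra h5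
          exact absurd (hadj.2 h5) (by simp)
        have hnz' : m.ev ((p' :: ps).map bl).flatten ≠ 0 := by
          intro h0; apply hnz
          rw [List.map_cons, List.flatten_cons, Model.ev_append, h0, mul_zero]
        obtain ⟨cs, h5, h6⟩ := runs_exists hL hR (p' :: ps) (fun q hq => hV q (by simp [hq]))
          (fun q hq => by simp at hq; rw [← hq]; exact h4)
          (fun q hq => hl q (by rw [List.getLast?_cons_cons]; exact hq)) hnz'
        refine ⟨a :: cs, .one a _ _ h5, ?_⟩
        rw [List.map_cons, List.flatten_cons, Model.ev_append, h6, List.map_cons,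
          List.flatten_cons, Model.ev_append]
        rfl
      · have h4 : p'.1 ≠ none := hadj.1 rfl
        obtain ⟨c', hm', b⟩ := p'
        rcases hV (c', hm', b) (by simp) with ⟨h5, -⟩ | ⟨φ, d, hφ, h5, h6⟩
        · exact absurd h5 h4
        · simp only at h5 h6
          subst h5 h6
          have hrun := hR φ d a b hφ
          have hsplit : (((none, .l, a) :: (some (φ, d), .b, b) :: ps : List (Trip Λ)).map bl).flatten
              = (Key.blkL none .l a ++ Key.blkL (some (φ, d)) .b b) ++ (ps.map bl).flatten := by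
            simp [bl]
          rw [hsplit, Model.ev_append] at hnz
          cases hr : runL (allPh.drop φ.val) d a b with
          | none =>
            rw [hr] at hrun
            rw [hrun, zero_mul] at hnz
            exact absurd rfl hnz
          | some p =>
            rw [hr] at hrun
            simp only at hrun
            have hnz' : m.ev (ps.map bl).flatten ≠ 0 := by
              intro h0; rw [h0, mul_zero] at hnz; exact hnz rfl
            have hd' : HdOK ps := by
              intro q hq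
              rcases ps with _ | ⟨q', ps⟩
              · simp at hq
              · simp at hq
                subst hq
                by_contra h7
                have h8 := lock_adj (m := m) hL (p := (some (φ, d), .b, b)) (hV q' (by simp))
                  (ps.map bl).flatten (by
                    intro h0
                    apply hnz
                    rw [← Model.ev_append, List.append_assoc, Model.ev_append]
                    have : m.ev (Key.blkL (some (φ, d)) .b b ++ ((q' :: ps).map bl).flatten) = 0 := by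
                      rw [← h0]; simp [bl]
                    rw [this, mul_zero])
                exact absurd (h8.2 h7) (by simp)
            obtain ⟨cs, h7, h8⟩ := runs_exists hL hR ps (fun q hq => hV q (by simp [hq])) hd'
              (fun q hq => hl q (by
                rcases ps with _ | ⟨q', ps⟩
                · simp at hq
                · rw [List.getLast?_cons_cons, List.getLast?_cons_cons]; exact hq)) hnz'
            refine ⟨p.1 :: p.2 :: cs, .two a b φ d p hr ps cs h7, ?_⟩
            rw [hsplit, Model.ev_append, hrun, h8, ← Model.ev_append]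
            simp
    · simp at h3

theorem codes (hS : StartP m) : ∀ cs : List (Cont Λ), 2 ≤ cs.length →
    m.ev (cs.map (Key.blkL none .f)).flatten ≠ 0 → ∀ c ∈ cs, decode c.h ≠ none
  | [], h2, _ => by simp at h2
  | [_], h2, _ => by simp at h2
  | a :: b :: cs, _, hnz => by
    have h1 : m.ev (Key.blkL none .f a ++ Key.blkL none .f b) ≠ 0 := by
      intro h0; apply hnz
      have : ((a :: b :: cs).map (Key.blkL none .f)).flatten =
          (Key.blkL none .f a ++ Key.blkL none .f b) ++ (cs.map (Key.blkL none .f)).flatten := by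
        simp
      rw [this, Model.ev_append, h0, zero_mul]
    have h2 : ∀ d : Data, ¬ (decode b.h = none ∨ decode a.h = none) := by
      intro d hc
      apply h1
      rw [hS d a b, runL_none allPh ten_mem_allPh d a b hc]
    have h3 := h2 (fun _ => false)
    push Not at h3
    intro c hc
    simp only [List.mem_cons] at hc
    rcases hc with rfl | hc
    · exact h3.2
    · rcases cs with _ | ⟨c', cs⟩
      · simp only [List.not_mem_nil, or_false] at hc
        rw [hc]; exact h3.1
      · refine codes hS (b :: c' :: cs) (by simp) ?_ c (by simpa using hc)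
        intro h0; apply hnz
        rw [List.map_cons, List.flatten_cons, Model.ev_append, h0, mul_zero]

theorem exists_word (cs : List (Cont Λ)) (h : ∀ c ∈ cs, decode c.h ≠ none) :
    ∃ v : List (Let (Λ × Λ)), cs = v.map cont := by
  induction cs with
  | nil => exact ⟨[], rfl⟩
  | cons c cs ih =>
    obtain ⟨v, rfl⟩ := ih (fun c' hc' => h c' (by simp [hc']))
    cases hk : decode c.h with
    | none => exact absurd hk (h c (by simp))
    | some κ =>
      refine ⟨(κ, (c.y1, c.y2)) :: v, ?_⟩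
      rw [List.map_cons]
      congr 1
      have := LabelSys.code_decode c.h κ hk
      unfold cont
      rw [← this]

theorem cont_injective : Function.Injective (cont : Let (Λ × Λ) → Cont Λ) := by
  rintro ⟨κ, a⟩ ⟨κ', a'⟩ h
  simp only [cont, Cont.mk.injEq] at h
  obtain ⟨h1, h2, h3⟩ := h
  have h4 : κ = κ' := by
    have := congrArg decode h1
    rw [LabelSys.decode_code, LabelSys.decode_code] at this
    exact Option.some.inj this
  rw [h4, Prod.ext h2 h3]

theorem blkL_eq (c : Option (Ph × Data)) (hm : HM) (q : Cont Λ) :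
    Key.blkL c hm q = Sim.blkL c hm q := by
  simp [Key.blkL, Sim.blkL, Sim.bagL, Sim.xsL, xs]

theorem ev_rest (v : List (Let (Λ × Λ))) :
    m.ev ((v.map cont).map (Key.blkL none .f)).flatten = (Sim.sq m).ev v := by
  rw [← Sim.ev_Phi]
  congr 1
  unfold Sim.Phi
  rw [List.map_map]
  rw [List.flatMap_def]
  congr 2
  funext x
  simp only [Function.comp]
  rw [blkL_eq, Sim.blkL_rest]

/-- the macro word of a range of full segments of a nonzero word -/
theorem macro_exists (hN : NormP m) (hL : LockP m) (hR : RunP m) (hS : StartP m)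
    {t : List (Let Λ)} {X : List (Seg Λ)} (hX : ∀ s ∈ X, ∀ x ∈ s.2.2, ¬ IsW x)
    {w : WK} {a : Λ} {h : List (Let Λ)} (hnz : m.ev (t ++ (segs X ++ (.W w, a) :: h)) ≠ 0)
    (hd : HdOK (X.map (nf m))) (hl : LstOK (X.map (nf m))) (h2 : 2 ≤ X.length) :
    ∃ v : List (Let (Λ × Λ)), RunsC (X.map (nf m)) (v.map cont) ∧ (Sim.sq m).ev v ≠ 0 ∧
      v.length = X.length := by
  have h3 : m.ev (segs X ++ (.W w, a) :: h) ≠ 0 := by
    intro h0; apply hnz; rw [Model.ev_append, h0, mul_zero]
  obtain ⟨h4, h5⟩ := norm_ev hN X hX w a h h3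
  have h6 : m.ev ((X.map (nf m)).map bl).flatten ≠ 0 := by
    intro h0; apply h3
    rw [h4, Model.ev_append]
    rw [List.map_map] at h0
    have : m.ev (X.map fun s => bl (nf m s)).flatten = 0 := h0
    rw [this, zero_mul]
  obtain ⟨cs, h7, h8⟩ := runs_exists hL hR (X.map (nf m)) (by
    intro p hp
    obtain ⟨s, hs, rfl⟩ := List.mem_map.1 hp
    exact (h5 s hs).2.2) hd hl h6
  have hlen : cs.length = X.length := by rw [h7.length, List.length_map]
  rw [h8] at h6
  have h9 := codes hS cs (by omega) h6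
  obtain ⟨v, rfl⟩ := exists_word cs h9
  refine ⟨v, h7, ?_, by simpa using hlen⟩
  rw [← ev_rest]; exact h6

end norm

end Crest.Agent.R176.Machine.Phase

namespace Crest.Agent.R176.Machine.Phase

open Crest.Agent.R176.Gen Crest.Agent.R176.Machine.Key Crest.Agent.R176.Machine.Key309

section uniq
variable {Λ : Type} [Fintype Λ] [DecidableEq Λ] [LabelSys Λ]

theorem RunsC.split_left {R Z : List (Trip Λ)} {cR c : List (Cont Λ)} (h : RunsC R cR)
    (h' : RunsC (R ++ Z) c) : ∃ cZ, RunsC Z cZ ∧ c = cR ++ cZ := by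
  induction h generalizing c with
  | nil => exact ⟨c, h', rfl⟩
  | one a ps cs h ih =>
    cases h' with
    | one _ _ cs' h'' =>
      obtain ⟨cZ, h1, rfl⟩ := ih h''
      exact ⟨cZ, h1, rfl⟩
  | two a b φ d p hr ps cs h ih =>
    cases h' with
    | two _ _ _ _ p' hr' _ cs' h'' =>
      rw [hr] at hr'
      cases hr'
      obtain ⟨cZ, h1, rfl⟩ := ih h''
      exact ⟨cZ, h1, rfl⟩

theorem first_wall {t t' : List (Let Λ)} {y y' : Let Λ} {r r' : List (Let Λ)}
    (ht : ∀ x ∈ t, ¬ IsW x) (ht' : ∀ x ∈ t', ¬ IsW x) (hy : IsW y) (hy' : IsW y')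
    (h : t ++ y :: r = t' ++ y' :: r') : t = t' ∧ y = y' ∧ r = r' := by
  induction t generalizing t' with
  | nil =>
    rcases t' with _ | ⟨x', t'⟩
    · simp only [List.nil_append, List.cons.injEq] at h
      exact ⟨rfl, h.1, h.2⟩
    · simp only [List.nil_append, List.cons_append, List.cons.injEq] at h
      exact absurd (h.1 ▸ hy) (ht' x' (by simp))
  | cons x t ih =>
    rcases t' with _ | ⟨x', t'⟩
    · simp only [List.nil_append, List.cons_append, List.cons.injEq] at h
      exact absurd (h.1 ▸ hy') (ht x (by simp))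
    · simp only [List.cons_append, List.cons.injEq] at h
      obtain ⟨rfl, h2⟩ := h
      obtain ⟨rfl, h3, h4⟩ := ih (fun x hx => ht x (by simp [hx])) (fun x hx => ht' x (by simp [hx])) h2
      exact ⟨rfl, h3, h4⟩

theorem seg_unique {t t' : List (Let Λ)} {X X' : List (Seg Λ)}
    (ht : ∀ x ∈ t, ¬ IsW x) (ht' : ∀ x ∈ t', ¬ IsW x)
    (hX : ∀ s ∈ X, ∀ x ∈ s.2.2, ¬ IsW x) (hX' : ∀ s ∈ X', ∀ x ∈ s.2.2, ¬ IsW x)
    (h : t ++ segs X = t' ++ segs X') : t = t' ∧ X = X' := by
  induction X generalizing t t' X' with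
  | nil =>
    rcases X' with _ | ⟨s', X'⟩
    · simpa using h
    · exfalso
      rw [segs_nil, List.append_nil, segs_cons'] at h
      exact ht (.W s'.1, s'.2.1) (by rw [h]; simp [seg1]) ⟨_, rfl⟩
  | cons s X ih =>
    rcases X' with _ | ⟨s', X'⟩
    · exfalso
      rw [segs_nil, List.append_nil, segs_cons'] at h
      exact ht' (.W s.1, s.2.1) (by rw [← h]; simp [seg1]) ⟨_, rfl⟩
    · rw [segs_cons', segs_cons'] at h
      unfold seg1 at h
      rw [List.cons_append, List.cons_append] at h
      obtain ⟨rfl, h2, h3⟩ := first_wall ht ht' ⟨_, rfl⟩ ⟨_, rfl⟩ h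
      obtain ⟨h4, h5⟩ := ih (hX s (by simp)) (hX' s' (by simp)) (fun r hr => hX r (by simp [hr]))
        (fun r hr => hX' r (by simp [hr])) h3
      refine ⟨rfl, ?_⟩
      obtain ⟨s1, s2, s3⟩ := s
      obtain ⟨s1', s2', s3'⟩ := s'
      simp only [Prod.mk.injEq, KK.W.injEq] at h2 h4
      obtain ⟨rfl, rfl⟩ := h2
      rw [h4, h5]

/-- phase data of a level -/
structure PhD (Λ : Type) [Fintype Λ] [DecidableEq Λ] [LabelSys Λ] (ℓ M : ℕ)
    (ph : List (Let Λ) → ZMod ℓ) : Prop where
  two : 2 ≤ M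
  pre : ∀ u w : List (Let Λ), S.of (step (Λ := Λ)) (u ++ w) ≠ 0 → M ≤ u.length →
    ph (u ++ w) = ph u
  suf : ∀ w u : List (Let Λ), S.of (step (Λ := Λ)) (w ++ u) ≠ 0 → M ≤ u.length →
    ph (w ++ u) + (w.length : ZMod ℓ) = ph u

/-- multiplication by `b` -/
def bet (b ℓ : ℕ) : ZMod ℓ →+ ZMod (b * ℓ) :=
  ZMod.lift ℓ ⟨zmultiplesHom _ (b : ZMod (b * ℓ)), by
    simp only [zmultiplesHom_apply, natCast_zsmul, nsmul_eq_mul]
    rw [← Nat.cast_mul, mul_comm, ZMod.natCast_self]⟩

theorem bet_natCast (b ℓ n : ℕ) : bet b ℓ (n : ZMod ℓ) = (b : ZMod (b * ℓ)) * n := by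
  unfold bet
  have := ZMod.lift_coe ℓ ⟨zmultiplesHom _ (b : ZMod (b * ℓ)), by
    simp only [zmultiplesHom_apply, natCast_zsmul, nsmul_eq_mul]
    rw [← Nat.cast_mul, mul_comm, ZMod.natCast_self]⟩ (n : ℤ)
  rw [Int.cast_natCast] at this
  rw [this]
  simp only [zmultiplesHom_apply, natCast_zsmul, nsmul_eq_mul]
  exact mul_comm _ _

/-- the universal model -/
noncomputable abbrev um : Model (step (Λ := Λ)) (S (step (Λ := Λ))) := S.model _

theorem ne_zero_of_sq {v : List (Let (Λ × Λ))} (h : (Sim.sq (um (Λ := Λ))).ev v ≠ 0) :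
    S.of (step (Λ := Λ × Λ)) v ≠ 0 := by
  intro h0
  apply h
  rw [← S.lift_of, h0, map_zero]

variable {ℓ' M' : ℕ} {ph' : List (Let (Λ × Λ)) → ZMod ℓ'}

theorem sub_range (hP : PhD (Λ × Λ) ℓ' M' ph') {A R Z : List (Seg Λ)}
    {w v : List (Let (Λ × Λ))} (hw : RunsC ((A ++ (R ++ Z)).map (nf um)) (w.map cont))
    (hwnz : S.of (step (Λ := Λ × Λ)) w ≠ 0) (hv : RunsC (R.map (nf um)) (v.map cont))
    (hM : M' ≤ v.length) : ph' v = ph' w + (A.length : ZMod ℓ') := by
  have h2 := hP.two
  have hR0 : R ≠ [] := by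
    rintro rfl
    have := hv.length
    simp at this
    rw [this] at hM
    simp at hM
    omega
  rw [List.map_append] at hw
  obtain ⟨cA, cR, h3, h4, h5⟩ := hw.split (by
      intro p hp
      rcases R with _ | ⟨s, R⟩
      · exact absurd rfl hR0
      · exact hv.hd p (by simpa using hp)) (by simpa using fun h => absurd h hR0)
  rw [List.map_append] at h4
  obtain ⟨cZ, h6, rfl⟩ := hv.split_left h4
  obtain ⟨wA, w2, rfl, h7, h8⟩ := List.map_eq_append_iff.1 h5
  obtain ⟨v', wZ, rfl, h9, h10⟩ := List.map_eq_append_iff.1 h8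
  have hvv : v' = v := List.map_injective_iff.2 cont_injective h9
  subst hvv
  have h11 : wA.length = A.length := by
    have := h3.length
    rw [← h7] at this
    simpa using this
  have h12 := hP.suf wA (v' ++ wZ) hwnz (by simp; omega)
  have h13 : S.of (step (Λ := Λ × Λ)) (v' ++ wZ) ≠ 0 := by
    intro h0; apply hwnz; rw [S.of_append, h0, mul_zero]
  rw [hP.pre v' wZ h13 hM, h11] at h12
  exact h12.symm

theorem bet_add_nat (b : ℕ) (x : ZMod ℓ') (n : ℕ) :
    bet b ℓ' (x + (n : ZMod ℓ')) = bet b ℓ' x + (b : ZMod (b * ℓ')) * n := by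
  rw [map_add, bet_natCast]

theorem segs_length_of {X : List (Seg Λ)} (h : ∀ s ∈ X, s.2.2.length = Fintype.card Λ + 4) :
    (segs X).length = (Fintype.card Λ + 5) * X.length := by
  induction X with
  | nil => rfl
  | cons s X ih =>
    rw [segs_cons', List.length_append, ih (fun s' hs' => h s' (by simp [hs'])), List.length_cons]
    have := h s (by simp)
    simp only [seg1, List.length_cons, this]
    ring

theorem phase_val (hN : NormP (um (Λ := Λ))) (hL : LockP (um (Λ := Λ))) (hR : RunP (um (Λ := Λ)))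
    (hS : StartP (um (Λ := Λ))) (hP : PhD (Λ × Λ) ℓ' M' ph') {t : List (Let Λ)}
    {T X H : List (Seg Λ)} (hwf : ∀ s ∈ X, ∀ x ∈ s.2.2, ¬ IsW x) (hH : H ≠ [])
    (hnz : S.of (step (Λ := Λ)) (t ++ segs (T ++ (X ++ H))) ≠ 0)
    (hd : HdOK (X.map (nf um))) (hl : LstOK (X.map (nf um))) (h2 : 2 ≤ X.length) :
    ∃ c : ZMod ((Fintype.card Λ + 5) * ℓ'), ∀ (A R Z : List (Seg Λ)) (v : List (Let (Λ × Λ))),
      X = A ++ (R ++ Z) → RunsC (R.map (nf um)) (v.map cont) → M' ≤ v.length →
      -(((t ++ segs (T ++ A)).length : ℕ) : ZMod ((Fintype.card Λ + 5) * ℓ')) +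
        bet (Fintype.card Λ + 5) ℓ' (ph' v) = c := by
  rcases H with _ | ⟨s0, H⟩
  · exact absurd rfl hH
  have hnz' : (um (Λ := Λ)).ev ((t ++ segs T) ++ (segs X ++ (.W s0.1, s0.2.1) ::
      (s0.2.2 ++ segs H))) ≠ 0 := by
    rw [S.model_ev]
    convert hnz using 2
    rw [segs_append, segs_append, segs_cons']
    simp [seg1]
  obtain ⟨w, h3, h4, h5⟩ := macro_exists hN hL hR hS hwf hnz' hd hl h2
  have h6 : ∀ s ∈ X, Nrm um s (nf um s) := by
    refine (norm_ev hN X hwf s0.1 s0.2.1 (s0.2.2 ++ segs H) ?_).2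
    intro h0; apply hnz'; rw [Model.ev_append, h0, mul_zero]
  refine ⟨-(((t ++ segs T).length : ℕ) : ZMod ((Fintype.card Λ + 5) * ℓ')) +
    bet (Fintype.card Λ + 5) ℓ' (ph' w), ?_⟩
  intro A R Z v hX hv hM
  subst hX
  have h7 := sub_range hP h3 (ne_zero_of_sq h4) hv hM
  have h8 : (segs A).length = (Fintype.card Λ + 5) * A.length :=
    segs_length_of fun s hs => (h6 s (by simp [hs])).1
  rw [h7, bet_add_nat, segs_append, ← List.append_assoc, List.length_append, h8]
  push_cast
  ring

/-- `u` has start phase `q` -/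
def PhR (ph' : List (Let (Λ × Λ)) → ZMod ℓ') (M' : ℕ) (u : List (Let Λ))
    (q : ZMod ((Fintype.card Λ + 5) * ℓ')) : Prop :=
  ∃ (t : List (Let Λ)) (T R H : List (Seg Λ)) (v : List (Let (Λ × Λ))),
    (∀ x ∈ t, ¬ IsW x) ∧ (∀ s ∈ T ++ (R ++ H), ∀ x ∈ s.2.2, ¬ IsW x) ∧ H ≠ [] ∧
    u = t ++ segs (T ++ (R ++ H)) ∧ RunsC (R.map (nf um)) (v.map cont) ∧ M' ≤ v.length ∧
    q = -(((t ++ segs T).length : ℕ) : ZMod ((Fintype.card Λ + 5) * ℓ')) +
      bet (Fintype.card Λ + 5) ℓ' (ph' v)

theorem unique_aux (hN : NormP (um (Λ := Λ))) (hL : LockP (um (Λ := Λ))) (hR : RunP (um (Λ := Λ)))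
    (hS : StartP (um (Λ := Λ))) (hP : PhD (Λ × Λ) ℓ' M' ph') {t : List (Let Λ)}
    {T R H A R' H' : List (Seg Λ)} {v v' : List (Let (Λ × Λ))}
    (hwf : ∀ s ∈ T ++ (R ++ H), ∀ x ∈ s.2.2, ¬ IsW x) (hH : H ≠ []) (hH' : H' ≠ [])
    (he : R ++ H = A ++ (R' ++ H'))
    (hnz : S.of (step (Λ := Λ)) (t ++ segs (T ++ (R ++ H))) ≠ 0)
    (hv : RunsC (R.map (nf um)) (v.map cont)) (hM : M' ≤ v.length)
    (hv' : RunsC (R'.map (nf um)) (v'.map cont)) (hM' : M' ≤ v'.length) :
    -(((t ++ segs T).length : ℕ) : ZMod ((Fintype.card Λ + 5) * ℓ')) +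
      bet (Fintype.card Λ + 5) ℓ' (ph' v) =
    -(((t ++ segs (T ++ A)).length : ℕ) : ZMod ((Fintype.card Λ + 5) * ℓ')) +
      bet (Fintype.card Λ + 5) ℓ' (ph' v') := by
  have h2 := hP.two
  have hRl : v.length = R.length := by simpa using hv.length
  have hRl' : v'.length = R'.length := by simpa using hv'.length
  have hR0 : R ≠ [] := by
    rintro rfl
    simp at hRl; rw [hRl] at hM; simp at hM; omega
  have hR0' : R' ≠ [] := by
    rintro rfl
    simp at hRl'; rw [hRl'] at hM'; simp at hM'; omega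
  rw [← List.append_assoc] at he
  rcases List.append_eq_append_iff.1 he with ⟨Z, h3, h4⟩ | ⟨Z, h3, h4⟩
  · -- A ++ R' = R ++ Z, H = Z ++ H'
    have hnz' : S.of (step (Λ := Λ)) (t ++ segs (T ++ ((A ++ R') ++ H'))) ≠ 0 := by
      rw [← he]; exact hnz
    obtain ⟨c, hc⟩ := phase_val hN hL hR hS hP (X := A ++ R') (T := T) (H := H') (t := t)
      (by
        intro s hs
        exact hwf s (by rw [he]; simp only [List.mem_append] at hs ⊢; tauto)) hH' hnz'
      (by
        rw [h3]
        intro p hp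
        rcases R with _ | ⟨s, R⟩
        · exact absurd rfl hR0
        · exact hv.hd p (by simpa using hp))
      (by
        intro p hp
        refine hv'.lst p ?_
        rw [List.map_append, List.getLast?_append_of_ne_nil _ (by simpa using hR0')] at hp
        exact hp)
      (by rw [List.length_append]; omega)
    have h5 := hc [] R Z v (by rw [h3]; rfl) hv hM
    have h6 := hc A R' [] v' (by simp) hv' hM'
    rw [List.append_nil] at h5
    rw [h5, h6]
  · -- R = (A ++ R') ++ Z, H' = Z ++ H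
    obtain ⟨c, hc⟩ := phase_val hN hL hR hS hP (X := R) (T := T) (H := H) (t := t)
      (by
        intro s hs
        exact hwf s (by simp only [List.mem_append]; tauto)) hH hnz hv.hd hv.lst (by omega)
    have h5 := hc [] R [] v (by simp) hv hM
    have h6 := hc A R' Z v' (by rw [h3, List.append_assoc]) hv' hM'
    rw [List.append_nil] at h5
    rw [h5, h6]

theorem PhR.unique (hN : NormP (um (Λ := Λ))) (hL : LockP (um (Λ := Λ))) (hR : RunP (um (Λ := Λ)))
    (hS : StartP (um (Λ := Λ))) (hP : PhD (Λ × Λ) ℓ' M' ph') {u : List (Let Λ)}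
    (hu : S.of (step (Λ := Λ)) u ≠ 0) {q q' : ZMod ((Fintype.card Λ + 5) * ℓ')}
    (h : PhR ph' M' u q) (h' : PhR ph' M' u q') : q = q' := by
  obtain ⟨t, T, R, H, v, h1, h2, h3, rfl, h5, h6, rfl⟩ := h
  obtain ⟨t', T', R', H', v', h1', h2', h3', h4', h5', h6', rfl⟩ := h'
  obtain ⟨rfl, h7⟩ := seg_unique h1 h1' h2 h2' h4'
  rcases List.append_eq_append_iff.1 h7 with ⟨A, rfl, h8⟩ | ⟨A, rfl, h8⟩
  · exact unique_aux hN hL hR hS hP h2 h3 h3' h8 hu h5 h6 h5' h6'
  · refine (unique_aux hN hL hR hS hP h2' h3' h3 h8 ?_ h5' h6' h5 h6).symm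
    rw [← h7]; exact hu

/-- the last segment absorbs a wall-free word -/
theorem absorb (W : List (Seg Λ)) (hW : W ≠ []) (hwf : ∀ s ∈ W, ∀ x ∈ s.2.2, ¬ IsW x)
    (t : List (Let Λ)) (ht : ∀ x ∈ t, ¬ IsW x) :
    ∃ W' : List (Seg Λ), W' ≠ [] ∧ (∀ s ∈ W', ∀ x ∈ s.2.2, ¬ IsW x) ∧ segs W' = segs W ++ t := by
  rcases List.eq_nil_or_concat W with rfl | ⟨W0, s, rfl⟩
  · exact absurd rfl hW
  · rw [List.concat_eq_append] at hwf ⊢
    refine ⟨W0 ++ [(s.1, s.2.1, s.2.2 ++ t)], by simp, ?_, ?_⟩
    · intro r hr x hx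
      simp only [List.mem_append, List.mem_singleton] at hr
      rcases hr with hr | rfl
      · exact hwf r (by simp [hr]) x hx
      · simp only [List.mem_append] at hx
        rcases hx with hx | hx
        · exact hwf s (by simp) x hx
        · exact ht x hx
    · rw [segs_append, segs_append, List.append_assoc]
      congr 1
      simp

theorem PhR.app_right {u w : List (Let Λ)} {q : ZMod ((Fintype.card Λ + 5) * ℓ')}
    (h : PhR ph' M' u q) : PhR ph' M' (u ++ w) q := by
  obtain ⟨t, T, R, H, v, h1, h2, h3, rfl, h5, h6, rfl⟩ := h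
  obtain ⟨tw, W, rfl, h7, h8⟩ := exists_segs w
  obtain ⟨H', h9, h10, h11⟩ := absorb H h3 (fun s hs => h2 s (by simp [hs])) tw h7
  refine ⟨t, T, R, H' ++ W, v, h1, ?_, by simp [h9], ?_, h5, h6, rfl⟩
  · intro s hs x hx
    simp only [List.mem_append] at hs
    rcases hs with hs | hs | hs | hs
    · exact h2 s (by simp [hs]) x hx
    · exact h2 s (by simp [hs]) x hx
    · exact h10 s hs x hx
    · exact h8 s hs x hx
  · simp only [segs_append, h11, List.append_assoc]

theorem PhR.app_left {u w : List (Let Λ)} {q : ZMod ((Fintype.card Λ + 5) * ℓ')}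
    (h : PhR ph' M' u q) :
    PhR ph' M' (w ++ u) (q - (w.length : ZMod ((Fintype.card Λ + 5) * ℓ'))) := by
  obtain ⟨t, T, R, H, v, h1, h2, h3, rfl, h5, h6, rfl⟩ := h
  obtain ⟨tw, W, rfl, h7, h8⟩ := exists_segs w
  rcases W with _ | ⟨s0, W⟩
  · refine ⟨tw ++ t, T, R, H, v, ?_, h2, h3, ?_, h5, h6, ?_⟩
    · intro x hx
      simp only [List.mem_append] at hx
      rcases hx with hx | hx
      · exact h7 x hx
      · exact h1 x hx
    · simp
    · simp only [segs_nil, List.append_nil, List.length_append]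
      push_cast
      ring
  · obtain ⟨W', h9, h10, h11⟩ := absorb (s0 :: W) (by simp) h8 t h1
    refine ⟨tw, W' ++ T, R, H, v, h7, ?_, h3, ?_, h5, h6, ?_⟩
    · intro s hs x hx
      simp only [List.mem_append] at hs
      rcases hs with (hs | hs) | hs
      · exact h10 s hs x hx
      · exact h2 s (by simp [hs]) x hx
      · exact h2 s (by simp only [List.mem_append]; right; exact hs) x hx
    · simp only [segs_append, h11, List.append_assoc]
    · rw [segs_append, h11]
      simp only [List.length_append]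
      push_cast
      ring

/-- neighbours in a nonzero word agree about the lock -/
theorem adj (hN : NormP (um (Λ := Λ))) (hL : LockP (um (Λ := Λ))) {t : List (Let Λ)}
    {P Q : List (Seg Λ)} {s s2 : Seg Λ} {w : WK} {a : Λ} {h : List (Let Λ)}
    (hwf : ∀ r ∈ P ++ s :: s2 :: Q, ∀ x ∈ r.2.2, ¬ IsW x)
    (hnz : (um (Λ := Λ)).ev (t ++ (segs (P ++ s :: s2 :: Q) ++ (.W w, a) :: h)) ≠ 0) :
    (nf um s).2.1 = .l ↔ (nf um s2).1 ≠ none := by
  have h1 : (um (Λ := Λ)).ev (segs (s :: s2 :: Q) ++ (.W w, a) :: h) ≠ 0 := by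
    intro h0; apply hnz
    rw [segs_append, List.append_assoc, Model.ev_append, Model.ev_append, h0, mul_zero, mul_zero]
  obtain ⟨h2, h3⟩ := norm_ev hN (s :: s2 :: Q)
    (fun r hr => hwf r (by simp only [List.mem_append]; right; exact hr)) w a h h1
  rw [h2] at h1
  refine lock_adj hL (h3 s2 (by simp)).2.2
    ((Q.map fun s => bl (nf um s)).flatten ++ (.W w, a) :: h) ?_
  simpa using h1

/-- existence of a range in a long nonzero word -/
theorem PhR.exists (hN : NormP (um (Λ := Λ))) (hL : LockP (um (Λ := Λ))) (hR : RunP (um (Λ := Λ)))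
    (hS : StartP (um (Λ := Λ))) (ph' : List (Let (Λ × Λ)) → ZMod ℓ') (M' : ℕ)
    {u : List (Let Λ)} (hu : S.of (step (Λ := Λ)) u ≠ 0)
    (hlen : (Fintype.card Λ + 5) * (M' + 6) ≤ u.length) : ∃ q, PhR ph' M' u q := by
  obtain ⟨t, bs, rfl, h1, h2⟩ := exists_segs u
  have hu' : (um (Λ := Λ)).ev (t ++ segs bs) ≠ 0 := by rw [S.model_ev]; exact hu
  have h3 : (um (Λ := Λ)).ev t ≠ 0 := by
    intro h0; apply hu'; rw [Model.ev_append, h0, zero_mul]
  have h4 : (um (Λ := Λ)).ev (segs bs) ≠ 0 := by
    intro h0; apply hu'; rw [Model.ev_append, h0, mul_zero]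
  have h5 := (wfree um t (fun x hx => (isWb_false_iff x).2 (h1 x hx)) h3).1
  have h6 := segs_len bs h2 h4
  rw [List.length_append] at hlen
  have h7 : M' + 6 ≤ bs.length := by
    by_contra hc
    have h8 : bs.length ≤ M' + 5 := by omega
    have h9 : bs.length * (Fintype.card Λ + 5) ≤ (M' + 5) * (Fintype.card Λ + 5) :=
      Nat.mul_le_mul_right _ h8
    have h10 : (Fintype.card Λ + 5) * (M' + 6) =
      (M' + 5) * (Fintype.card Λ + 5) + (Fintype.card Λ + 5) := by ring
    omega
  rcases List.eq_nil_or_concat bs with rfl | ⟨X0, s0, rfl⟩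
  · simp at h7
  rw [List.concat_eq_append] at *
  have h8 : M' + 5 ≤ X0.length := by simp at h7; omega
  have hev : ∀ (A B : List (Seg Λ)), X0 = A ++ B →
      (um (Λ := Λ)).ev ((t ++ segs A) ++ (segs B ++ (.W s0.1, s0.2.1) :: s0.2.2)) ≠ 0 := by
    rintro A B rfl
    convert hu' using 2
    simp only [segs_append, List.append_assoc]
    simp
  have hwf : ∀ s ∈ X0, ∀ x ∈ s.2.2, ¬ IsW x := fun s hs => h2 s (by simp [hs])
  have hval : ∀ s ∈ X0, Val (nf (um (Λ := Λ)) s) := by
    intro s hs
    have h9 : (um (Λ := Λ)).ev (segs X0 ++ (.W s0.1, s0.2.1) :: s0.2.2) ≠ 0 := by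
      have := hev [] X0 rfl
      intro h0; apply this; rw [Model.ev_append, h0, mul_zero]
    exact ((norm_ev hN X0 hwf s0.1 s0.2.1 s0.2.2 h9).2 s hs).2.2
  -- trim on the left
  obtain ⟨T, X1, hX1, hT, hd1⟩ : ∃ T X1, X0 = T ++ X1 ∧ T.length ≤ 1 ∧
      HdOK (X1.map (nf (um (Λ := Λ)))) := by
    rcases X0 with _ | ⟨s, X0⟩
    · exact ⟨[], [], rfl, by simp, by intro p hp; simp at hp⟩
    · by_cases hs : (nf (um (Λ := Λ)) s).1 = none
      · exact ⟨[], s :: X0, rfl, by simp, by intro p hp; simp at hp; rw [← hp]; exact hs⟩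
      · refine ⟨[s], X0, rfl, by simp, ?_⟩
        rcases X0 with _ | ⟨s2, X0⟩
        · intro p hp; simp at hp
        · intro p hp
          simp at hp
          rw [← hp]
          have h9 := adj hN hL (P := []) (s := s) (s2 := s2) (Q := X0) (by simpa using hwf)
            (t := t ++ segs []) (hev [] _ rfl)
          by_contra hc
          have h10 := h9.2 hc
          rcases hval s (by simp) with ⟨h11, -⟩ | ⟨φ, d, -, -, h11⟩
          · exact hs h11
          · rw [h11] at h10; simp at h10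
  -- trim on the right
  obtain ⟨X, Z, hX, hZ, hl⟩ : ∃ X Z, X1 = X ++ Z ∧ Z.length ≤ 1 ∧
      LstOK (X.map (nf (um (Λ := Λ)))) := by
    rcases List.eq_nil_or_concat X1 with rfl | ⟨X2, s2, rfl⟩
    · exact ⟨[], [], rfl, by simp, by intro p hp; simp at hp⟩
    · rw [List.concat_eq_append] at *
      by_cases hs : (nf (um (Λ := Λ)) s2).2.1 = .l
      · refine ⟨X2, [s2], rfl, by simp, ?_⟩
        rcases List.eq_nil_or_concat X2 with rfl | ⟨X3, s, rfl⟩
        · intro p hp; simp at hp
        · rw [List.concat_eq_append] at *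
          intro p hp
          simp at hp
          rw [← hp]
          have hX0 : X0 = (T ++ X3) ++ s :: s2 :: [] := by rw [hX1]; simp
          have h9 := adj hN hL (P := T ++ X3) (s := s) (s2 := s2) (Q := [])
            (by rw [← hX0]; exact hwf) (t := t ++ segs []) (by rw [← hX0]; exact hev [] _ rfl)
          intro hc
          have h10 := h9.1 hc
          rcases hval s2 (by rw [hX0]; simp) with ⟨h11, -⟩ | ⟨φ, d, -, -, h11⟩
          · exact h10 h11
          · rw [h11] at hs; simp at hs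
      · exact ⟨X2 ++ [s2], [], by simp, by simp, by intro p hp; simp at hp; rw [← hp]; exact hs⟩
  have hXlen : M' + 3 ≤ X.length := by
    rw [hX1, hX] at h8
    simp only [List.length_append] at h8
    omega
  have hd : HdOK (X.map (nf (um (Λ := Λ)))) := by
    rcases X with _ | ⟨s, X⟩
    · intro p hp; simp at hp
    · intro p hp
      refine hd1 p ?_
      rw [hX]
      simpa using hp
  have hX0 : X0 = T ++ (X ++ Z) := by rw [hX1, hX]
  obtain ⟨w', a', h', hw'⟩ := segs_wall Z s0.1 s0.2.1 s0.2.2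
  have hnz : (um (Λ := Λ)).ev ((t ++ segs T) ++ (segs X ++ (.W w', a') :: h')) ≠ 0 := by
    have := hev T (X ++ Z) hX0
    rw [segs_append, List.append_assoc (segs X), hw'] at this
    exact this
  obtain ⟨v, h9, h10, h11⟩ := macro_exists hN hL hR hS
    (fun s hs => hwf s (by rw [hX0]; simp [hs])) hnz hd hl (by omega)
  refine ⟨_, t, T, X, Z ++ [s0], v, h1, ?_, by simp, ?_, h9, by omega, rfl⟩
  · intro s hs
    refine h2 s ?_
    rw [hX0]
    simp only [List.mem_append] at hs ⊢
    tauto
  · rw [hX0]; simp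

open Classical in
/-- **the phase function of the next level** -/
theorem phase_succ (hN : NormP (um (Λ := Λ))) (hL : LockP (um (Λ := Λ))) (hR : RunP (um (Λ := Λ)))
    (hS : StartP (um (Λ := Λ))) (hP : PhD (Λ × Λ) ℓ' M' ph') :
    ∃ ph, PhD Λ ((Fintype.card Λ + 5) * ℓ') ((Fintype.card Λ + 5) * (M' + 6)) ph := by
  refine ⟨fun u => if h : ∃ q, PhR ph' M' u q then h.choose else 0, ?_, ?_, ?_⟩
  · have := Nat.mul_le_mul (show 1 ≤ Fintype.card Λ + 5 by omega) (show 6 ≤ M' + 6 by omega)
    omega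
  · intro u w hnz hlen
    have hu : S.of (step (Λ := Λ)) u ≠ 0 := by
      intro h0; apply hnz; rw [S.of_append, h0, zero_mul]
    have h1 := PhR.exists hN hL hR hS ph' M' hu hlen
    have h2 : ∃ q, PhR ph' M' (u ++ w) q := ⟨_, h1.choose_spec.app_right⟩
    simp only [dif_pos h1, dif_pos h2]
    exact h2.choose_spec.unique hN hL hR hS hP hnz h1.choose_spec.app_right
  · intro w u hnz hlen
    have hu : S.of (step (Λ := Λ)) u ≠ 0 := by
      intro h0; apply hnz; rw [S.of_append, h0, mul_zero]
    have h1 := PhR.exists hN hL hR hS ph' M' hu hlen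
    have h2 : ∃ q, PhR ph' M' (w ++ u) q := ⟨_, h1.choose_spec.app_left⟩
    simp only [dif_pos h1, dif_pos h2]
    rw [h2.choose_spec.unique hN hL hR hS hP hnz h1.choose_spec.app_left]
    ring

end uniq

end Crest.Agent.R176.Machine.Phase
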