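import Crest.Agent.R176.Machine.Snd804A
import Crest.Agent.R176.Machine.Key309B
import Crest.Agent.R176.Machine.Conf845
import Crest.Agent.R176.Machine.Sim291C

-- ▼ part R176/Machine/Snd804B
section

/-!
# Row 176, part A, block (5B): inverse of one step (helper804)
-/

set_option autoImplicit false

namespace Crest.Agent.R176.Machine.Snd

open Crest.Agent.R176.Machine

variable {Λ : Type} [DecidableEq Λ] [LabelSys Λ]

theorem weStep_shape {w : WK} {e : EK} {a b : Λ} {p : Let Λ × Let Λ}
    (h : weStep w a e b = some p) : ∃ w' e', p.1.1 = .W w' ∧ p.2.1 = .E e' := by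
  unfold weStep at h
  split at h <;> (try (split_ifs at h)) <;> simp only [Option.some.injEq, reduceCtorEq] at h <;>
    subst h <;> exact ⟨_, _, rfl, rfl⟩

theorem tgtStep_shape {e : EK} {x : BK} {a b : Λ} {p : Let Λ × Let Λ}
    (h : tgtStep e x a b = some p) : ∃ e' x', p.1.1 = .E e' ∧ p.2.1 = .bag true x' := by
  unfold tgtStep at h
  split at h <;> (try (split_ifs at h)) <;> simp only [Option.some.injEq, reduceCtorEq] at h <;>
    subst h <;> exact ⟨_, _, rfl, rfl⟩

/-- the possible shapes of a result -/
theorem step_shape {u v u' v' : Let Λ} (h : step u v = some (u', v')) :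
    (∃ s x y, u.1 = .bag s x ∧ v.1 = .bag s y ∧ u'.1 = .bag s y ∧ v'.1 = .bag s x) ∨
    (∃ w x, u.1 = .W w ∧ v.1 = .bag false x ∧ u'.1 = .W w ∧ v'.1 = .bag false x) ∨
    (∃ x e, u.1 = .bag false x ∧ v.1 = .E e ∧ u'.1 = .bag false x ∧ v'.1 = .E e) ∨
    (∃ x e, u.1 = .E e ∧ v.1 = .bag true x ∧ u'.1 = .bag false x ∧ v'.1 = .E e) ∨
    (∃ x e x' e', u.1 = .E e ∧ v.1 = .bag true x ∧ u'.1 = .E e' ∧ v'.1 = .bag true x') ∨
    (∃ w e w' e', u.1 = .W w ∧ v.1 = .E e ∧ u'.1 = .W w' ∧ v'.1 = .E e') ∨
    (∃ x w x' w', u.1 = .bag true x ∧ v.1 = .W w ∧ u'.1 = .bag true x' ∧ v'.1 = .W w') := by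
  obtain ⟨κ, a⟩ := u
  obtain ⟨κ', b⟩ := v
  cases κ with
  | bag s x =>
    cases κ' with
    | bag t y =>
      rw [step_bag_bag] at h
      split_ifs at h with h1
      obtain ⟨rfl, h1⟩ := h1
      simp only [Option.some.injEq, Prod.mk.injEq] at h
      obtain ⟨rfl, rfl⟩ := h
      exact Or.inl ⟨s, x, y, rfl, rfl, rfl, rfl⟩
    | E e =>
      rw [step_bag_E] at h
      split_ifs at h with h1
      obtain ⟨rfl, h1⟩ := h1
      simp only [Option.some.injEq, Prod.mk.injEq] at h
      obtain ⟨rfl, rfl⟩ := h
      exact Or.inr (Or.inr (Or.inl ⟨x, e, rfl, rfl, rfl, rfl⟩))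
    | W w =>
      rw [step_bag_W] at h
      split_ifs at h with h1
      obtain ⟨rfl, h1⟩ := h1
      refine Or.inr (Or.inr (Or.inr (Or.inr (Or.inr (Or.inr ?_)))))
      cases hc : ctc x w with
      | none =>
        rw [hc] at h
        simp only [Option.some.injEq, Prod.mk.injEq] at h
        obtain ⟨rfl, rfl⟩ := h
        exact ⟨x, w, x, w, rfl, rfl, rfl, rfl⟩
      | some p =>
        rw [hc] at h
        simp only at h
        cases ho : opstep p.1 p.2 a b with
        | none => rw [ho] at h; simp at h
        | some r =>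
          rw [ho] at h
          simp only [Option.map_some, Option.some.injEq, Prod.mk.injEq] at h
          obtain ⟨rfl, rfl⟩ := h
          exact ⟨x, w, _, _, rfl, rfl, rfl, rfl⟩
  | E e =>
    cases κ' with
    | bag s x =>
      rw [step_E_bag] at h
      split_ifs at h with h1 h2 h3 h4 h5
      · obtain ⟨rfl, h1⟩ := h1
        obtain ⟨rfl, h3⟩ := h3
        simp only [Option.some.injEq, Prod.mk.injEq] at h
        obtain ⟨rfl, rfl⟩ := h
        exact Or.inr (Or.inr (Or.inr (Or.inr (Or.inl ⟨_, _, _, _, rfl, rfl, rfl, rfl⟩))))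
      · obtain ⟨rfl, h1⟩ := h1
        obtain ⟨rfl, h3⟩ := h3
        simp only [Option.some.injEq, Prod.mk.injEq] at h
        obtain ⟨rfl, rfl⟩ := h
        exact Or.inr (Or.inr (Or.inr (Or.inl ⟨_, _, rfl, rfl, rfl, rfl⟩)))
      · obtain ⟨rfl, h1⟩ := h1
        obtain ⟨e', x', he, hx⟩ := tgtStep_shape h
        exact Or.inr (Or.inr (Or.inr (Or.inr (Or.inl ⟨_, _, _, _, rfl, rfl, he, hx⟩))))
      · obtain ⟨rfl, h1⟩ := h1
        simp only [Option.some.injEq, Prod.mk.injEq] at h
        obtain ⟨rfl, rfl⟩ := h
        exact Or.inr (Or.inr (Or.inr (Or.inl ⟨_, _, rfl, rfl, rfl, rfl⟩)))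
      · obtain ⟨rfl, h1⟩ := h1
        simp only [Option.some.injEq, Prod.mk.injEq] at h
        obtain ⟨rfl, rfl⟩ := h
        exact Or.inr (Or.inr (Or.inr (Or.inr (Or.inl ⟨_, _, _, _, rfl, rfl, rfl, rfl⟩))))
    | E e' => rw [step_E_E] at h; exact absurd h (by simp)
    | W w => rw [step_E_W] at h; exact absurd h (by simp)
  | W w =>
    cases κ' with
    | bag s x =>
      rw [step_W_bag] at h
      split_ifs at h with h1
      obtain ⟨rfl, h1⟩ := h1
      simp only [Option.some.injEq, Prod.mk.injEq] at h
      obtain ⟨rfl, rfl⟩ := h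
      exact Or.inr (Or.inl ⟨w, x, rfl, rfl, rfl, rfl⟩)
    | E e =>
      rw [step_W_E] at h
      obtain ⟨w', e', h1, h2⟩ := weStep_shape h
      exact Or.inr (Or.inr (Or.inr (Or.inr (Or.inr (Or.inl ⟨_, _, _, _, rfl, rfl, h1, h2⟩)))))
    | W w' => rw [step_W_W] at h; exact absurd h (by simp)





end Crest.Agent.R176.Machine.Snd
end

-- ▼ part R176/Machine/Snd804C
section

/-!
# Row 176, part A, block (5B): bags and the last letter of a block (helper804)
-/

set_option autoImplicit false

namespace Crest.Agent.R176.Machine.Snd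

open Crest.Agent.R176.Machine

variable {Λ : Type} [DecidableEq Λ] [LabelSys Λ]

theorem ctc_some {x : BK} {w : WK} {p : Ph × Data} (h : ctc x w = some p) :
    w = .C p.1 p.2 ∧ ((∃ m, x = .H m ∧ tz p.1 = .H ∧ (m = .l ∨ (p.1 = 0 ∧ m = .f))) ∨
      ∃ j, x = .Y j false ∧ tz p.1 = .Y j) := by
  cases w with
  | C φ d =>
    rcases x with _ | m | ⟨j, o⟩
    · simp [ctc] at h
    · simp only [ctc] at h
      split_ifs at h with h1
      simp only [Option.some.injEq] at h
      subst h
      exact ⟨rfl, Or.inl ⟨m, rfl, h1⟩⟩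
    · simp only [ctc] at h
      split_ifs at h with h1
      simp only [Option.some.injEq] at h
      subst h
      obtain ⟨h1, rfl⟩ := h1
      exact ⟨rfl, Or.inr ⟨j, rfl, h1⟩⟩
  | w0 => simp [ctc] at h
  | A φ d => simp [ctc] at h
  | D φ d => simp [ctc] at h
  | B φ d => simp [ctc] at h
  | S t c => simp [ctc] at h

/-- inverse of a step: bag, wall -/
theorem inv_BW {u v : Let Λ} {s : Bool} {x : BK} {w : WK} {a b : Λ}
    (h : step u v = some ((.bag s x, a), (.W w, b))) :
    s = true ∧ ((u = (.bag true x, a) ∧ v = (.W w, b)) ∨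
      ∃ x0 φ d d' a0 b0, w = .D φ d' ∧ x = aft φ x0 ∧ u = (.bag true x0, a0) ∧
        v = (.W (.C φ d), b0) ∧ ctc x0 (.C φ d) = some (φ, d) ∧ bwOK x0 (.C φ d) ∧
        opstep φ d a0 b0 = some (d', a, b)) := by
  obtain ⟨κ, c⟩ := u
  obtain ⟨κ', d⟩ := v
  rcases step_shape h with ⟨s', x', y', h1, h2, h3, h4⟩ | ⟨_, _, h1, h2, h3, h4⟩ |
    ⟨_, _, h1, h2, h3, h4⟩ | ⟨_, _, h1, h2, h3, h4⟩ | ⟨_, _, _, _, h1, h2, h3, h4⟩ |
    ⟨_, _, _, _, h1, h2, h3, h4⟩ | ⟨x0, w0, _, _, h1, h2, h3, h4⟩ <;>
    simp only [KK.bag.injEq, KK.W.injEq, reduceCtorEq] at h1 h2 h3 h4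
  obtain ⟨rfl, rfl⟩ := h3
  subst h4
  subst h1 h2
  refine ⟨rfl, ?_⟩
  rw [step_bag_W] at h
  split_ifs at h with h1
  cases hc : ctc x0 w0 with
  | none =>
    rw [hc] at h
    simp only [Option.some.injEq, Prod.mk.injEq, KK.bag.injEq, KK.W.injEq, true_and] at h
    obtain ⟨⟨rfl, rfl⟩, rfl, rfl⟩ := h
    exact Or.inl ⟨rfl, rfl⟩
  | some p =>
    rw [hc] at h
    obtain ⟨φ, d0⟩ := p
    obtain ⟨rfl, -⟩ := ctc_some hc
    simp only at h
    cases ho : opstep φ d0 c d with
    | none => rw [ho] at h; simp at h
    | some r =>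
      rw [ho] at h
      obtain ⟨d', a', b'⟩ := r
      simp only [Option.map_some, Option.some.injEq, Prod.mk.injEq, KK.bag.injEq, KK.W.injEq,
        true_and] at h
      obtain ⟨⟨rfl, rfl⟩, rfl, rfl⟩ := h
      exact Or.inr ⟨x0, φ, d0, d', c, d, rfl, rfl, rfl, rfl, hc, h1.2, ho⟩

/-! ### letters of the bag -/

/-- the letter of type `t` of a bag -/
def lt (c : Cont Λ) (m : HM) (o : Option TT) : TT → BK × Λ
  | .X => (.X, z)
  | .H => letH c m o
  | .Y j => letY c j o

omit [DecidableEq Λ] in
theorem lt_ty (c : Cont Λ) (m : HM) (o : Option TT) (t : TT) : (lt c m o t).1.ty = t := by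
  rcases t with _ | _ | j
  · rfl
  · simp only [lt, letH]; split_ifs <;> rfl
  · simp only [lt, letY]; split_ifs <;> rfl

variable [Fintype Λ]

/-- a bag without its letter of type `t` -/
def rst (c : Cont Λ) (m : HM) (o : Option TT) (t : TT) : Multiset (BK × Λ) :=
  (match t with
    | .X => {lt c m o .H, lt c m o (.Y false), lt c m o (.Y true)}
    | .H => {lt c m o (.Y false), lt c m o (.Y true)}
    | .Y false => {lt c m o .H, lt c m o (.Y true)}
    | .Y true => {lt c m o .H, lt c m o (.Y false)}) +
    (Finset.univ : Finset Λ).val.map fun a => (BK.X, a)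

theorem bagM_eq_cons (c : Cont Λ) (m : HM) (o : Option TT) {t : TT} (ht : t ≠ .X) :
    bagM c m o = lt c m o t ::ₘ rst c m o t := by
  rcases t with _ | _ | ⟨_ | _⟩
  · exact absurd rfl ht
  · simp [bagM, lt, rst]
  · simp only [bagM, lt, rst]
    simp only [Multiset.insert_eq_cons, Multiset.cons_add, Multiset.singleton_add]
    rw [Multiset.cons_swap (letH c m o) (letY c false o)]
  · simp only [bagM, lt, rst]
    simp only [Multiset.insert_eq_cons, Multiset.cons_add, Multiset.singleton_add]
    rw [Multiset.cons_swap (letY c true o) (letH c m o),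
      Multiset.cons_swap (letY c true o) (letY c false o)]

theorem mem_bagM {c : Cont Λ} {m : HM} {o : Option TT} {x : BK × Λ} :
    x ∈ bagM c m o ↔ x = lt c m o x.1.ty ∧ x.1 ≠ .X ∨ x.1 = .X := by
  simp only [bagM, Multiset.mem_cons, Multiset.mem_map]
  constructor
  · rintro (rfl | rfl | rfl | ⟨a, -, rfl⟩)
    · left
      constructor
      · conv_rhs => rw [show (letH c m o) = lt c m o .H from rfl, lt_ty]
        rfl
      · intro h
        have := lt_ty c m o .H
        rw [show lt c m o .H = letH c m o from rfl, h] at this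
        cases this
    · left
      constructor
      · conv_rhs => rw [show (letY c false o) = lt c m o (.Y false) from rfl, lt_ty]
        rfl
      · intro h
        have := lt_ty c m o (.Y false)
        rw [show lt c m o (.Y false) = letY c false o from rfl, h] at this
        cases this
    · left
      constructor
      · conv_rhs => rw [show (letY c true o) = lt c m o (.Y true) from rfl, lt_ty]
        rfl
      · intro h
        have := lt_ty c m o (.Y true)
        rw [show lt c m o (.Y true) = letY c true o from rfl, h] at this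
        cases this
    · exact Or.inr rfl
  · rintro (⟨h, hx⟩ | h)
    · obtain ⟨k, a⟩ := x
      rcases k with _ | m' | ⟨_ | _, o'⟩
      · exact absurd rfl hx
      · exact Or.inl h
      · exact Or.inr (Or.inl h)
      · exact Or.inr (Or.inr (Or.inl h))
    · obtain ⟨k, a⟩ := x
      simp only at h
      subst h
      exact Or.inr (Or.inr (Or.inr ⟨a, Finset.mem_univ_val a, rfl⟩))

theorem eq_lt_of_mem {c : Cont Λ} {m : HM} {o : Option TT} {x : BK × Λ} {t : TT}
    (h : x ∈ bagM c m o) (ht : t ≠ .X) (hx : x.1.ty = t) : x = lt c m o t := by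
  rcases mem_bagM.1 h with ⟨h1, -⟩ | h1
  · rw [hx] at h1; exact h1
  · rw [h1] at hx; exact absurd hx.symm ht

omit [DecidableEq Λ] in
theorem rst_congr {c c' : Cont Λ} {m m' : HM} {o o' : Option TT} {t : TT} (ht : t ≠ .X)
    (h : ∀ t', t' ≠ .X → t' ≠ t → lt c' m' o' t' = lt c m o t') :
    rst c' m' o' t = rst c m o t := by
  rcases t with _ | _ | ⟨_ | _⟩
  · exact absurd rfl ht
  · simp only [rst]
    rw [h (.Y false) (by simp) (by simp), h (.Y true) (by simp) (by simp)]
  · simp only [rst]
    rw [h .H (by simp) (by simp), h (.Y true) (by simp) (by simp)]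
  · simp only [rst]
    rw [h .H (by simp) (by simp), h (.Y false) (by simp) (by simp)]

/-- replacement of a letter of type `t ≠ X` -/
theorem bag_repl {c c' : Cont Λ} {m m' : HM} {o o' : Option TT} {t : TT} {P U : List (BK × Λ)}
    {x x' : BK × Λ} (ht : t ≠ .X) (h : ((P ++ x :: U : List (BK × Λ)) : Multiset (BK × Λ)) =
      bagM c m o) (hx : x.1.ty = t) (hx' : x' = lt c' m' o' t)
    (hoth : ∀ t', t' ≠ .X → t' ≠ t → lt c' m' o' t' = lt c m o t') :
    ((P ++ x' :: U : List (BK × Λ)) : Multiset (BK × Λ)) = bagM c' m' o' := by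
  have hmem : x ∈ bagM c m o := by rw [← h]; simp
  have hxe : x = lt c m o t := eq_lt_of_mem hmem ht hx
  rw [bagM_eq_cons c m o ht] at h
  rw [bagM_eq_cons c' m' o' ht, rst_congr ht hoth]
  have h1 : ((P ++ x :: U : List (BK × Λ)) : Multiset (BK × Λ)) =
      x ::ₘ ((P ++ U : List (BK × Λ)) : Multiset (BK × Λ)) := by
    rw [Multiset.cons_coe, Multiset.coe_eq_coe]
    exact List.perm_middle
  have h2 : ((P ++ x' :: U : List (BK × Λ)) : Multiset (BK × Λ)) =
      x' ::ₘ ((P ++ U : List (BK × Λ)) : Multiset (BK × Λ)) := by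
    rw [Multiset.cons_coe, Multiset.coe_eq_coe]
    exact List.perm_middle
  rw [h1, hxe] at h
  rw [h2, hx', (Multiset.cons_inj_right _).1 h]

theorem bagM_congr {c c' : Cont Λ} {m m' : HM} {o o' : Option TT}
    (h : ∀ t', t' ≠ .X → lt c' m' o' t' = lt c m o t') : bagM c' m' o' = bagM c m o := by
  rw [bagM_eq_cons c' m' o' (t := .H) (by simp), bagM_eq_cons c m o (t := .H) (by simp),
    rst_congr (by simp) (fun t' h1 _ => h t' h1), h .H (by simp)]

end Crest.Agent.R176.Machine.Snd
private theorem rz_5decdabab8 : type_of% @_root_.Crest.Agent.R176.Machine.Snd.lt.eq_1 := @_root_.Crest.Agent.R176.Machine.Snd.lt.eq_1 -- L82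
private theorem rz_bfa557f0f6 : type_of% @_root_.Crest.Agent.R176.Machine.Snd.rst.eq_1 := @_root_.Crest.Agent.R176.Machine.Snd.rst.eq_1 -- L97
end

-- ▼ part R176/Machine/Snd804D
section

/-!
# Row 176, part A, block (5B): the boundary of two blocks (helper804)
-/

set_option autoImplicit false

namespace Crest.Agent.R176.Machine.Snd

open Crest.Agent.R176.Machine

variable {Λ : Type} [DecidableEq Λ] [LabelSys Λ]

theorem own_lk {c : Cont Λ} {st : Option (Ph × Data)} {lk : Bool} {w : WK} {a : Λ} {e : EK} {b : Λ}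
    {o : Option TT} (h : Own c st lk w a e b o) (hl : lk = true) : st = none ∧ o = none := by
  cases h with
  | rest => exact ⟨rfl, rfl⟩
  | G φ d _ h => exact ⟨by simp [cur, h hl], rfl⟩
  | K => exact absurd hl (by simp)
  | C => exact absurd hl (by simp)
  | D => exact absurd hl (by simp)
  | P => exact absurd hl (by simp)
  | R φ d _ h => exact ⟨by simp [nxt, h hl], rfl⟩
  | Ti => exact ⟨rfl, rfl⟩
  | Tb => exact absurd hl (by simp)

theorem own_relabel {c : Cont Λ} {st : Option (Ph × Data)} {lk : Bool} {w : WK} {a : Λ} {e : EK}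
    {b : Λ} {o : Option TT} (h : Own c st lk w a e b o) (hs : st = none) (ho : o = none)
    (c' : Cont Λ) (lk' : Bool) : Own c' none lk' w a e b none := by
  cases h with
  | rest => exact Own.rest lk'
  | G φ d _ h =>
    have hφ : φ = 0 := by
      by_contra hne
      simp [cur, hne] at hs
    have := Own.G (c := c') φ d lk' (fun _ => hφ)
    rwa [hs] at this
  | K => exact absurd ho (by simp)
  | C => exact absurd ho (by simp)
  | D => exact absurd ho (by simp)
  | P => exact absurd ho (by simp)
  | R φ d _ h =>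
    have hφ : φ = 10 := by
      by_contra hne
      simp [nxt, hne] at hs
    have := Own.R (c := c') φ d lk' (fun _ => hφ)
    rwa [hs] at this
  | Ti t b _ h => exact Own.Ti t b lk' h
  | Tb => exact absurd hs (by simp)

theorem own_noneH {c : Cont Λ} {st : Option (Ph × Data)} {lk : Bool} {w : WK} {a : Λ} {e : EK}
    {b : Λ} {o : Option TT} (h : Own c st lk w a e b o) (hs : st = none) :
    o = none ∨ o = some .H := by
  cases h with
  | rest => exact Or.inl rfl
  | G φ d _ h => exact Or.inl rfl
  | K φ d =>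
    have hφ : φ = 0 := by
      by_contra hne
      simp [cur, hne] at hs
    subst hφ; exact Or.inr rfl
  | C φ d =>
    have hφ : φ = 0 := by
      by_contra hne
      simp [cur, hne] at hs
    subst hφ; exact Or.inr rfl
  | D φ d =>
    have hφ : φ = 10 := by
      by_contra hne
      simp [nxt, hne] at hs
    subst hφ; exact Or.inr rfl
  | P φ d =>
    have hφ : φ = 10 := by
      by_contra hne
      simp [nxt, hne] at hs
    subst hφ; exact Or.inr rfl
  | R φ d _ h => exact Or.inl rfl
  | Ti t b _ h => exact Or.inl rfl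
  | Tb => exact Or.inl rfl

theorem own_C {c : Cont Λ} {st : Option (Ph × Data)} {lk : Bool} {w : WK} {a : Λ} {e : EK}
    {b : Λ} {o : Option TT} (h : Own c st lk w a e b o) {φ : Ph} {d : Data} (hw : w = .C φ d) :
    st = cur φ d ∧ lk = false ∧ a = c.get (tz φ) ∧ e = .N φ ∧ b = z ∧ o = some (tz φ) := by
  cases h <;> simp only [reduceCtorEq, WK.C.injEq] at hw
  obtain ⟨rfl, rfl⟩ := hw
  exact ⟨rfl, rfl, rfl, rfl, rfl, rfl⟩

theorem own_D {c : Cont Λ} {st : Option (Ph × Data)} {lk : Bool} {w : WK} {a : Λ} {e : EK}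
    {b : Λ} {o : Option TT} (h : Own c st lk w a e b o) {φ : Ph} {d : Data} (hw : w = .D φ d) :
    st = nxt φ d ∧ lk = false ∧ a = c.get (tz φ) ∧ e = .N φ ∧ b = z ∧ o = some (tz φ) := by
  cases h <;> simp only [reduceCtorEq, WK.D.injEq] at hw
  obtain ⟨rfl, rfl⟩ := hw
  exact ⟨rfl, rfl, rfl, rfl, rfl, rfl⟩

theorem cur_isSome (φ : Ph) (d : Data) : (cur φ d).isSome = decide (φ ≠ 0) := by
  unfold cur; by_cases h : φ = 0 <;> simp [h]

theorem nxt_isSome (φ : Ph) (d : Data) : (nxt φ d).isSome = decide (φ ≠ 10) := by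
  unfold nxt; by_cases h : φ = 10 <;> simp [h]

theorem own_lockd {c : Cont Λ} {st : Option (Ph × Data)} {lk : Bool} {w : WK} {a : Λ} {e : EK}
    {b : Λ} {o : Option TT} (h : Own c st lk w a e b o) : locked w = st.isSome := by
  cases h with
  | rest => rfl
  | G φ d _ h => rw [cur_isSome]; rfl
  | K φ d => rw [cur_isSome]; rfl
  | C φ d => rw [cur_isSome]; rfl
  | D φ d => rw [nxt_isSome]; rfl
  | P φ d => rw [nxt_isSome]; rfl
  | R φ d _ h => rw [nxt_isSome]; rfl
  | Ti t b _ h => rfl
  | Tb t b φ d h => simp [locked, h]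

theorem own_mark {c : Cont Λ} {st : Option (Ph × Data)} {lk : Bool} {w : WK} {a : Λ} {e : EK}
    {b : Λ} {o : Option TT} (h : Own c st lk w a e b o) {m : HM} {l : Λ}
    (hm : (BK.H m, l) = letH c (hmark st lk) o) :
    (m = .l ↔ lk = true) ∧ (m = .f → st = none ∧ o = none ∧ lk = false) := by
  unfold letH at hm
  by_cases ho : o = some .H
  · rw [if_pos ho] at hm
    simp only [Prod.mk.injEq, BK.H.injEq] at hm
    obtain ⟨rfl, -⟩ := hm
    refine ⟨⟨fun h1 => absurd h1 (by simp), fun h1 => ?_⟩, fun h1 => absurd h1 (by simp)⟩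
    have := (own_lk h h1).2
    rw [this] at ho
    exact absurd ho (by simp)
  · rw [if_neg ho] at hm
    simp only [Prod.mk.injEq, BK.H.injEq] at hm
    obtain ⟨rfl, -⟩ := hm
    cases st with
    | some p =>
      refine ⟨⟨fun h1 => absurd h1 (by simp [hmark]), fun h1 => ?_⟩,
        fun h1 => absurd h1 (by simp [hmark])⟩
      exact absurd (own_lk h h1).1 (by simp)
    | none =>
      cases lk with
      | true => exact ⟨⟨fun _ => rfl, fun _ => rfl⟩, fun h1 => absurd h1 (by simp [hmark])⟩
      | false =>
        refine ⟨⟨fun h1 => absurd h1 (by simp [hmark]), fun h1 => absurd h1 (by simp)⟩,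
          fun _ => ⟨rfl, ?_, rfl⟩⟩
        rcases own_noneH h rfl with h1 | h1
        · exact h1
        · exact absurd h1 ho

variable [Fintype Λ]

theorem conf_last {s : BSt Λ} {p : List (Let Λ)} {x : Let Λ} (h : Conf s (p ++ [x])) :
    ∃ (w : WK) (a : Λ) (e : EK) (b : Λ) (o : Option TT) (P U : List (BK × Λ)) (x0 : BK × Λ),
      p = bword w a P e b U ∧ x = bg true x0 ∧ Own s.c s.st s.lk w a e b o ∧
      ((P ++ (U ++ [x0]) : List (BK × Λ)) : Multiset (BK × Λ)) = bagM s.c (hmark s.st s.lk) o ∧
      ∀ y ∈ P, Passable e b y := by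
  obtain ⟨w, a, e, b, o, P, V, hB, hO, hM, hP⟩ := h
  rcases List.eq_nil_or_concat V with rfl | ⟨U, x0, rfl⟩
  · exfalso
    rw [List.append_nil] at hM
    have hmem : ∀ y, y ∈ bagM s.c (hmark s.st s.lk) o → y ∈ P := by
      intro y hy
      rw [← hM] at hy
      exact hy
    have hH : lt s.c (hmark s.st s.lk) o .H ∈ bagM s.c (hmark s.st s.lk) o := by
      rw [bagM_eq_cons _ _ _ (t := .H) (by simp)]; exact Multiset.mem_cons_self _ _
    have h1 := hP _ (hmem _ hH)
    have hmv : e.target.isSome = true := h1.1
    obtain ⟨t, ht⟩ := Option.isSome_iff_exists.1 hmv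
    by_cases hX : t = .X
    · subst hX
      have hXm : ((BK.X, b) : BK × Λ) ∈ bagM s.c (hmark s.st s.lk) o := mem_bagM.2 (Or.inr rfl)
      exact (hP _ (hmem _ hXm)).2.1 ht rfl
    · have hT : lt s.c (hmark s.st s.lk) o t ∈ bagM s.c (hmark s.st s.lk) o := by
        rw [bagM_eq_cons _ _ _ hX]; exact Multiset.mem_cons_self _ _
      refine (hP _ (hmem _ hT)).2.2 ?_ ?_
      · rw [ht]; simpa using hX
      · rw [lt_ty, ht]
  · refine ⟨w, a, e, b, o, P, U, x0, ?_, ?_, hO, ?_, hP⟩
    · have : bword w a P e b (U.concat x0) = bword w a P e b U ++ [bg true x0] := by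
        simp [bword]
      rw [this] at hB
      exact (List.append_inj' hB rfl).1
    · have : bword w a P e b (U.concat x0) = bword w a P e b U ++ [bg true x0] := by
        simp [bword]
      rw [this] at hB
      simpa using (List.append_inj' hB rfl).2
    · simpa using hM

omit [DecidableEq Λ] [LabelSys Λ] [Fintype Λ] in
theorem get_set_self (c : Cont Λ) (t : TT) (a : Λ) : (c.set t a).get t = a := by
  rcases t with _ | _ | ⟨_ | _⟩ <;> rfl

omit [DecidableEq Λ] [LabelSys Λ] [Fintype Λ] in
theorem set_set (c : Cont Λ) (t : TT) (a b : Λ) : (c.set t a).set t b = c.set t b := by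
  rcases t with _ | _ | ⟨_ | _⟩ <;> rfl

omit [DecidableEq Λ] [LabelSys Λ] [Fintype Λ] in
theorem get_set_ne (c : Cont Λ) {t t' : TT} (a : Λ) (h : t ≠ t') (hX : t ≠ .X) (hX' : t' ≠ .X) :
    (c.set t a).get t' = c.get t' := by
  rcases t with _ | _ | ⟨_ | _⟩ <;> rcases t' with _ | _ | ⟨_ | _⟩ <;> simp_all [Cont.set, Cont.get]

theorem tz_ne_X (φ : Ph) : tz φ ≠ .X := by
  unfold tz; split_ifs <;> simp

/-- the letters of another type do not see a change of the content (and of the mark, if it does not
change) -/
theorem lt_set {c : Cont Λ} {m m' : HM} {o : Option TT} {t t' : TT} (a : Λ) (ht : t ≠ .X)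
    (ht' : t' ≠ .X) (hne : t' ≠ t) (hm : t' = .H → m' = m) :
    lt (c.set t a) m' o t' = lt c m o t' := by
  rcases t' with _ | _ | j
  · exact absurd rfl ht'
  · simp only [lt, letH]
    rw [hm rfl]
    have : (c.set t a).h = c.h := by
      have := get_set_ne c (t := t) (t' := .H) a (Ne.symm hne) ht (by simp)
      simpa [Cont.get] using this
    rw [this]
  · simp only [lt, letY]
    rw [get_set_ne c a (Ne.symm hne) ht (by simp)]

/-- the left block after / before a contact -/
theorem conf_left {s : BSt Λ} {w : WK} {a : Λ} {e : EK} {b : Λ} {o : Option TT}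
    {P U : List (BK × Λ)} {x0 x1 : BK × Λ} {t : TT} {l : Λ} {lk' : Bool}
    (hO : Own s.c s.st s.lk w a e b o)
    (hM : ((P ++ (U ++ [x0]) : List (BK × Λ)) : Multiset (BK × Λ)) = bagM s.c (hmark s.st s.lk) o)
    (hP : ∀ y ∈ P, Passable e b y) (hs : s.st = none) (ho : o = none) (ht : t ≠ .X)
    (hx0 : x0.1.ty = t) (hx1 : x1 = lt (s.c.set t l) (hmark none lk') none t)
    (hlk : t ≠ .H → lk' = s.lk) :
    Conf ⟨s.c.set t l, none, lk'⟩ (bword w a P e b U ++ [bg true x1]) := by
  subst ho
  refine ⟨w, a, e, b, none, P, U ++ [x1], by simp [bword], own_relabel hO hs rfl _ _, ?_, hP⟩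
  have hM' : (((P ++ U) ++ x0 :: [] : List (BK × Λ)) : Multiset (BK × Λ)) =
      bagM s.c (hmark s.st s.lk) none := by
    rw [← hM, List.append_assoc]
  have := bag_repl (c' := s.c.set t l) (m' := hmark none lk') (o' := none) ht hM' hx0 hx1
    (fun t' h1 h2 => lt_set l ht h1 h2 (fun h3 => by
      subst h3
      rw [hs, hlk (Ne.symm h2)]))
  rw [← List.append_assoc]
  exact this

/-- the right block after / before a contact -/
theorem conf_right {c c' : Cont Λ} {st st' : Option (Ph × Data)} {w' : WK} {t : TT}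
    {φ : Ph} {l : Λ} {U : List (BK × Λ)} (ht : t = tz φ) (hc : c' = c.set t l)
    (hM : ((U : List (BK × Λ)) : Multiset (BK × Λ)) = bagM c (hmark st false) (some t))
    (hm : t ≠ .H → hmark st' false = hmark st false)
    (hO : Own c' st' false w' l (.N φ) z (some t)) :
    Conf ⟨c', st', false⟩ (bword w' l [] (.N φ) z U) := by
  refine ⟨w', l, .N φ, z, some t, [], U, rfl, hO, ?_, by simp⟩
  rw [List.nil_append, hM]
  have htX : t ≠ .X := by rw [ht]; exact tz_ne_X φ
  refine bagM_congr fun t' ht' => ?_
  by_cases htt : t' = t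
  · subst htt
    rcases t' with _ | _ | j
    · exact absurd rfl ht'
    · simp [lt, letH]
    · simp [lt, letY]
  · subst hc
    refine (lt_set l htX ht' htt (fun h3 => ?_)).symm
    subst h3
    exact hm (Ne.symm htt)

end Crest.Agent.R176.Machine.Snd
end

-- ▼ part R176/Machine/Snd804E
section

/-!
# Row 176, part A, block (5B): the boundary of two blocks, forward and backward (helper804)
-/

set_option autoImplicit false

namespace Crest.Agent.R176.Machine.Snd

open Crest.Agent.R176.Machine

variable {Λ : Type} [DecidableEq Λ] [LabelSys Λ] [Fintype Λ]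

/-- one move at the boundary of two blocks, forward -/
theorem bnd_fwd {s s' : BSt Λ} {p q : List (Let Λ)} {x y : Let Λ}
    (h : Conf s (p ++ [x])) (h' : Conf s' (y :: q)) (hl : s.lk = s'.st.isSome) :
    step x y = some (x, y) ∨
    ∃ φ d, s.st = none ∧ s.lk = decide (φ ≠ 0) ∧ s'.st = cur φ d ∧ s'.lk = false ∧
      ((cstep φ d s.c s'.c = none ∧ step x y = none) ∨
       ∃ d' c c' x' y', cstep φ d s.c s'.c = some (d', c, c') ∧ step x y = some (x', y') ∧
         Conf ⟨c, none, decide (φ ≠ 10)⟩ (p ++ [x']) ∧ Conf ⟨c', nxt φ d', false⟩ (y' :: q)) := by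
  obtain ⟨w, a, e, b, o, P, U, x0, rfl, rfl, hO, hM, hP⟩ := conf_last h
  obtain ⟨w', a', e', b', o', P', U', hB', hO', hM', hP'⟩ := h'
  simp only [bword, List.cons.injEq] at hB'
  obtain ⟨rfl, rfl⟩ := hB'
  obtain ⟨k, l⟩ := x0
  have hx0 : (k, l) ∈ bagM s.c (hmark s.st s.lk) o := by rw [← hM]; simp
  have hlw : locked w' = s.lk := by rw [own_lockd hO', hl]
  have hbw : bwOK k w' := by
    rintro m rfl
    have h1 := eq_lt_of_mem hx0 (t := .H) (by simp) rfl
    have h2 := (own_mark hO h1).1
    rw [hlw]; exact h2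
  show step (.bag true k, l) (.W w', a') = _ ∨ _
  have hstep := step_bag_W true k w' l a'
  rw [if_pos ⟨rfl, hbw⟩] at hstep
  cases hc : ctc k w' with
  | none => rw [hc] at hstep; exact Or.inl hstep
  | some pr =>
    right
    obtain ⟨φ, d⟩ := pr
    rw [hc] at hstep
    simp only at hstep
    obtain ⟨hw', hk⟩ := ctc_some hc
    simp only at hw' hk
    obtain ⟨hst', hlk', ha', he', hb', ho'⟩ := own_C hO' hw'
    subst he' hb' ho' ha' hw'
    have hP'0 : P' = [] := by
      cases P' with
      | nil => rfl
      | cons y P' => exact absurd (hP' y (by simp)).1 (by simp [EK.moving, EK.target])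
    subst hP'0
    -- the left block
    have hleft : s.st = none ∧ o = none ∧ s.lk = decide (φ ≠ 0) ∧ k.ty = tz φ ∧
        l = s.c.get (tz φ) := by
      rcases hk with ⟨m, rfl, hz, hm⟩ | ⟨j, rfl, hz⟩
      · have h1 := eq_lt_of_mem hx0 (t := .H) (by simp) rfl
        have h2 := own_mark hO h1
        have h3 : s.st = none ∧ o = none ∧ s.lk = decide (φ ≠ 0) := by
          rcases hm with rfl | ⟨rfl, rfl⟩
          · have h4 := h2.1.1 rfl
            refine ⟨(own_lk hO h4).1, (own_lk hO h4).2, ?_⟩
            rw [← hlw]; rfl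
          · obtain ⟨h4, h5, h6⟩ := h2.2 rfl
            exact ⟨h4, h5, by rw [h6]; rfl⟩
        refine ⟨h3.1, h3.2.1, h3.2.2, hz.symm, ?_⟩
        rw [h3.2.1] at h1
        simp only [lt, letH, reduceCtorEq, if_false, Prod.mk.injEq] at h1
        rw [h1.2, hz]; rfl
      · have h0 : φ ≠ 0 := by rintro rfl; exact absurd hz (by simp [tz])
        have h4 : s.lk = true := by rw [← hlw]; simp [locked, h0]
        refine ⟨(own_lk hO h4).1, (own_lk hO h4).2, by rw [h4]; simp [h0], hz.symm, ?_⟩
        have h1 := eq_lt_of_mem hx0 (t := .Y j) (by simp) rfl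
        rw [(own_lk hO h4).2] at h1
        simp only [lt, letY, reduceCtorEq, if_false, Prod.mk.injEq] at h1
        rw [h1.2, hz]
    obtain ⟨hs, ho, hlk, hty, hl0⟩ := hleft
    refine ⟨φ, d, hs, hlk, hst', hlk', ?_⟩
    have hcs := cstep_eq φ d s.c s'.c
    rw [← hl0] at hcs
    cases hop : opstep φ d l (s'.c.get (tz φ)) with
    | none =>
      left
      rw [hop] at hcs hstep
      exact ⟨hcs, hstep⟩
    | some r =>
      right
      obtain ⟨d', q1, q2⟩ := r
      rw [hop] at hcs hstep
      simp only [Option.map_some] at hcs hstep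
      refine ⟨d', _, _, _, _, hcs, hstep, ?_, ?_⟩
      · refine conf_left (x1 := (aft φ k, q1)) hO hM hP hs ho (tz_ne_X φ) hty ?_ ?_
        · rcases hk with ⟨m, rfl, hz, hm⟩ | ⟨j, rfl, hz⟩
          · rw [hz]
            simp only [lt, letH, aft, Cont.set, hmark]
            by_cases h10 : φ = 10 <;> simp [h10]
          · rw [hz]
            simp only [lt, letY, aft, get_set_self]
            simp
        · intro hne
          rcases hk with ⟨m, rfl, hz, hm⟩ | ⟨j, rfl, hz⟩
          · exact absurd hz hne
          · have h0 : φ ≠ 0 := by rintro rfl; exact absurd hz (by simp [tz])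
            have h10 : φ ≠ 10 := by rintro rfl; exact absurd hz (by simp [tz])
            rw [hlk]; simp [h0, h10]
      · rw [hlk'] at hM'
        have := conf_right (c := s'.c) (c' := s'.c.set (tz φ) q2) (st := s'.st)
          (st' := nxt φ d') (w' := .D φ d') (φ := φ) (l := q2) (U := U') rfl rfl
          (by simpa using hM') ?_ ?_
        · simpa [bword] using this
        · intro hne
          rw [hst']
          have h0 : φ ≠ 0 := by rintro rfl; exact hne (by decide)
          have h10 : φ ≠ 10 := by rintro rfl; exact hne (by decide)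
          simp [cur, nxt, h0, h10, hmark]
        · have := Own.D (c := s'.c.set (tz φ) q2) φ d'
          rwa [get_set_self] at this

/-- one move at the boundary of two blocks, backward -/
theorem bnd_bwd {s s' : BSt Λ} {p q : List (Let Λ)} {x y x' y' : Let Λ}
    (h : Conf s (p ++ [x'])) (h' : Conf s' (y' :: q)) (hl : s.lk = s'.st.isSome)
    (hs : step x y = some (x', y')) :
    (x = x' ∧ y = y') ∨
    ∃ φ d d' c c', s.st = none ∧ s.lk = decide (φ ≠ 10) ∧ s'.st = nxt φ d' ∧ s'.lk = false ∧
      cstep φ d c c' = some (d', s.c, s'.c) ∧ Conf ⟨c, none, decide (φ ≠ 0)⟩ (p ++ [x]) ∧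
        Conf ⟨c', cur φ d, false⟩ (y :: q) := by
  obtain ⟨w, a, e, b, o, P, U, x0, rfl, rfl, hO, hM, hP⟩ := conf_last h
  obtain ⟨w', a', e', b', o', P', U', hB', hO', hM', hP'⟩ := h'
  simp only [bword, List.cons.injEq] at hB'
  obtain ⟨rfl, rfl⟩ := hB'
  obtain ⟨k', l'⟩ := x0
  have hx0 : (k', l') ∈ bagM s.c (hmark s.st s.lk) o := by rw [← hM]; simp
  have hlw : locked w' = s.lk := by rw [own_lockd hO', hl]
  obtain ⟨-, h1 | ⟨k, φ, d, d', l, b0, hw', hk', hx, hy, hc, hbw, hop⟩⟩ := inv_BW (s := true) hs
  · exact Or.inl h1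
  · right
    obtain ⟨-, hk⟩ := ctc_some hc
    simp only at hk
    obtain ⟨hst', hlk', ha', he', hb', ho'⟩ := own_D hO' hw'
    subst he' hb' ho' ha' hw' hx hy
    have hP'0 : P' = [] := by
      cases P' with
      | nil => rfl
      | cons y P' => exact absurd (hP' y (by simp)).1 (by simp [EK.moving, EK.target])
    subst hP'0
    have hlw' : s.lk = decide (φ ≠ 10) := by rw [← hlw]; rfl
    have hleft : s.st = none ∧ o = none ∧ k'.ty = tz φ ∧ l' = s.c.get (tz φ) := by
      rcases hk with ⟨m, rfl, hz, hm⟩ | ⟨j, rfl, hz⟩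
      · subst hk'
        have h1 := eq_lt_of_mem hx0 (t := .H) (by simp) rfl
        have h2 := own_mark hO h1
        have h3 : s.st = none ∧ o = none := by
          by_cases h10 : φ = 10
          · obtain ⟨h4, h5, h6⟩ := h2.2 (by simp [h10])
            exact ⟨h4, h5⟩
          · have h4 := h2.1.1 (by simp [h10])
            exact own_lk hO h4
        refine ⟨h3.1, h3.2, hz.symm, ?_⟩
        rw [h3.2] at h1
        simp only [aft, lt, letH, reduceCtorEq, if_false, Prod.mk.injEq] at h1
        rw [h1.2, hz]; rfl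
      · subst hk'
        have h10 : φ ≠ 10 := by rintro rfl; exact absurd hz (by simp [tz])
        have h4 : s.lk = true := by rw [hlw']; simp [h10]
        refine ⟨(own_lk hO h4).1, (own_lk hO h4).2, hz.symm, ?_⟩
        have h1 := eq_lt_of_mem hx0 (t := .Y j) (by simp) rfl
        rw [(own_lk hO h4).2] at h1
        simp only [aft, lt, letY, reduceCtorEq, if_false, Prod.mk.injEq] at h1
        rw [h1.2, hz]
    obtain ⟨hst, ho, hty, hl0⟩ := hleft
    refine ⟨φ, d, d', s.c.set (tz φ) l, s'.c.set (tz φ) b0, hst, hlw', hst', hlk', ?_, ?_, ?_⟩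
    · rw [cstep_eq, get_set_self, get_set_self, hop]
      simp only [Option.map_some, set_set]
      rw [hl0, set_get, set_get]
    · refine conf_left (x1 := (k, l)) hO hM hP hst ho (tz_ne_X φ) hty ?_ ?_
      · rcases hk with ⟨m, rfl, hz, hm⟩ | ⟨j, rfl, hz⟩
        · rw [hz]
          simp only [lt, letH, Cont.set, hmark]
          by_cases h0 : φ = 0
          · have : m = .f := by
              rcases hm with rfl | ⟨-, rfl⟩
              · have := (hbw _ rfl).1 rfl
                simp [locked, h0] at this
              · rfl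
            simp [h0, this]
          · have : m = .l := (hbw _ rfl).2 (by simp [locked, h0])
            simp [h0, this]
        · rw [hz]
          simp only [lt, letY, get_set_self]
          simp
      · intro hne
        rcases hk with ⟨m, rfl, hz, hm⟩ | ⟨j, rfl, hz⟩
        · exact absurd hz hne
        · have h0 : φ ≠ 0 := by rintro rfl; exact absurd hz (by simp [tz])
          have h10 : φ ≠ 10 := by rintro rfl; exact absurd hz (by simp [tz])
          rw [hlw']; simp [h0, h10]
    · rw [hlk'] at hM'
      have := conf_right (c := s'.c) (c' := s'.c.set (tz φ) b0) (st := s'.st)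
        (st' := cur φ d) (w' := .C φ d) (φ := φ) (l := b0) (U := U') rfl rfl
        (by simpa using hM') ?_ ?_
      · simpa [bword] using this
      · intro hne
        rw [hst']
        have h0 : φ ≠ 0 := by rintro rfl; exact hne (by decide)
        have h10 : φ ≠ 10 := by rintro rfl; exact hne (by decide)
        simp [cur, nxt, h0, h10, hmark]
      · have := Own.C (c := s'.c.set (tz φ) b0) φ d
        rwa [get_set_self] at this

end Crest.Agent.R176.Machine.Snd
end

-- ▼ part R176/Machine/Snd804F
section

/-!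
# Row 176, part A, block (5): macro words, effect of a contact (helper804)
-/

set_option autoImplicit false

namespace Crest.Agent.R176.Machine.Snd

open Crest.Agent.R176.Machine
open Crest.Agent.R176.QAlg206 (WEq IsZ Mv)

variable {Λ : Type} [DecidableEq Λ] [LabelSys Λ]

/-! ### runs -/

theorem phFrom_zero : phFrom 0 = allPh := by decide

theorem phFrom_ten : phFrom 10 = [10] := by decide

theorem phFrom_cons (φ : Ph) (h : φ ≠ 10) : phFrom φ = φ :: phFrom (φ + 1) := by
  revert φ; decide

theorem ph_succ_ne {φ : Ph} (h : φ ≠ 10) : φ + 1 ≠ 0 := by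
  revert φ; decide

theorem ten_mem_phFrom (φ : Ph) : (10 : Ph) ∈ phFrom φ := by
  revert φ; decide

theorem runL_phFrom {φ : Ph} (h : φ ≠ 10) (d : Data) (a b : Cont Λ) :
    runL (phFrom φ) d a b =
      (cstep φ d a b).bind fun p => runL (phFrom (φ + 1)) p.1 p.2.1 p.2.2 := by
  rw [phFrom_cons φ h]; rfl

theorem runL_ten (d : Data) (a b : Cont Λ) :
    runL (phFrom 10) d a b = (cstep 10 d a b).map fun p => p.2 := by
  rw [phFrom_ten]
  simp only [runL]
  cases cstep 10 d a b <;> rfl

theorem cont_inj {x y : Let (Λ × Λ)} (h : cont x = cont y) : x = y := by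
  obtain ⟨κ, a, b⟩ := x
  obtain ⟨κ', a', b'⟩ := y
  simp only [cont, Cont.mk.injEq] at h
  obtain ⟨h1, rfl, rfl⟩ := h
  have := congrArg (decode (Λ := Λ)) h1
  rw [LabelSys.decode_code, LabelSys.decode_code] at this
  simp only [Option.some.injEq] at this
  rw [this]

theorem exists_cont {c : Cont Λ} (h : decode c.h ≠ none) : ∃ x : Let (Λ × Λ), cont x = c := by
  obtain ⟨κ, hκ⟩ := Option.ne_none_iff_exists'.1 h
  refine ⟨(κ, (c.y1, c.y2)), ?_⟩
  rw [cont, ← LabelSys.code_decode _ _ hκ]

/-! ### macro words -/

theorem mac_append {ss ss' : List (BSt Λ)} {v v' : List (Let (Λ × Λ))} (h : Mac ss v)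
    (h' : Mac ss' v') : Mac (ss ++ ss') (v ++ v') := by
  induction h with
  | nil => simpa using h'
  | one x ss v h ih => exact Mac.one x _ _ ih
  | two a b φ hφ d x y hr ss v h ih => exact Mac.two a b φ hφ d x y hr _ _ ih

theorem mac_first {s : BSt Λ} {ss : List (BSt Λ)} {v : List (Let (Λ × Λ))}
    (h : Mac (s :: ss) v) : s.st = none := by
  cases h <;> rfl

theorem mac_adj {ss : List (BSt Λ)} {v : List (Let (Λ × Λ))} (h : Mac ss v) :
    ∀ ss1 s s' ss2, ss = ss1 ++ s :: s' :: ss2 → s.lk = s'.st.isSome := by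
  induction h with
  | nil => intro ss1 s s' ss2 h; simp at h
  | one x ss v h ih =>
    intro ss1 s s' ss2 hss
    cases ss1 with
    | nil =>
      simp only [List.nil_append, List.cons.injEq] at hss
      obtain ⟨rfl, rfl⟩ := hss
      rw [mac_first h]; rfl
    | cons t ss1 =>
      simp only [List.cons_append, List.cons.injEq] at hss
      exact ih _ _ _ _ hss.2
  | two a b φ hφ d x y hr ss v h ih =>
    intro ss1 s s' ss2 hss
    rcases ss1 with _ | ⟨t, _ | ⟨t', ss1⟩⟩
    · simp only [List.nil_append, List.cons.injEq] at hss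
      obtain ⟨rfl, rfl, rfl⟩ := hss
      rfl
    · simp only [List.cons_append, List.nil_append, List.cons.injEq] at hss
      obtain ⟨rfl, rfl, rfl⟩ := hss
      rw [mac_first h]; rfl
    · simp only [List.cons_append, List.cons.injEq] at hss
      exact ih _ _ _ _ hss.2.2

theorem mac_split {ss : List (BSt Λ)} {v : List (Let (Λ × Λ))} (h : Mac ss v) :
    ∀ ss1 s ss2, ss = ss1 ++ s :: ss2 → s.st = none →
      ∃ v1 v2, v = v1 ++ v2 ∧ Mac ss1 v1 ∧ Mac (s :: ss2) v2 := by
  induction h with
  | nil => intro ss1 s ss2 h; simp at h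
  | one x ss v h ih =>
    intro ss1 s ss2 hss hs
    cases ss1 with
    | nil =>
      simp only [List.nil_append, List.cons.injEq] at hss
      obtain ⟨rfl, rfl⟩ := hss
      exact ⟨[], _, rfl, Mac.nil, Mac.one x _ _ h⟩
    | cons t ss1 =>
      simp only [List.cons_append, List.cons.injEq] at hss
      obtain ⟨rfl, hss⟩ := hss
      obtain ⟨v1, v2, rfl, h1, h2⟩ := ih _ _ _ hss hs
      exact ⟨x :: v1, v2, rfl, Mac.one x _ _ h1, h2⟩
  | two a b φ hφ d x y hr ss v h ih =>
    intro ss1 s ss2 hss hs
    rcases ss1 with _ | ⟨t, _ | ⟨t', ss1⟩⟩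
    · simp only [List.nil_append, List.cons.injEq] at hss
      obtain ⟨rfl, rfl⟩ := hss
      exact ⟨[], _, rfl, Mac.nil, Mac.two a b φ hφ d x y hr _ _ h⟩
    · simp only [List.cons_append, List.nil_append, List.cons.injEq] at hss
      obtain ⟨rfl, rfl, rfl⟩ := hss
      exact absurd hs (by simp)
    · simp only [List.cons_append, List.cons.injEq] at hss
      obtain ⟨rfl, rfl, hss⟩ := hss
      obtain ⟨v1, v2, rfl, h1, h2⟩ := ih _ _ _ hss hs
      exact ⟨x :: y :: v1, v2, rfl, Mac.two a b φ hφ d x y hr _ _ h1, h2⟩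

/-- two adjacent unengaged blocks -/
theorem mac_oo {s s' : BSt Λ} {ss : List (BSt Λ)} {v : List (Let (Λ × Λ))}
    (h : Mac (s :: s' :: ss) v) (h1 : s.lk = false) (h2 : s'.lk = false) :
    ∃ x y v', s = ⟨cont x, none, false⟩ ∧ s' = ⟨cont y, none, false⟩ ∧ v = x :: y :: v' ∧
      Mac ss v' := by
  cases h with
  | one x _ v h =>
    cases h with
    | one y _ v h => exact ⟨x, y, v, rfl, rfl, rfl, h⟩
    | two => exact absurd h2 (by simp)
  | two => exact absurd h1 (by simp)

/-- two engaged blocks -/
theorem mac_tt {s s' : BSt Λ} {ss : List (BSt Λ)} {v : List (Let (Λ × Λ))}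
    (h : Mac (s :: s' :: ss) v) (h1 : s.lk = true) :
    ∃ φ d x y v', φ ≠ 0 ∧ s.st = none ∧ s'.st = some (φ, d) ∧ s'.lk = false ∧
      runL (phFrom φ) d s.c s'.c = some (cont x, cont y) ∧ v = x :: y :: v' ∧ Mac ss v' := by
  cases h with
  | one x _ v h => exact absurd h1 (by simp)
  | two a b φ hφ d x y hr _ v h => exact ⟨φ, d, x, y, v, hφ, rfl, rfl, rfl, hr, rfl, h⟩


theorem not_isZ_append {v1 v2 : List (Let (Λ × Λ))} (h : ¬ IsZ step (v1 ++ v2)) :
    ¬ IsZ step v2 := by
  intro h2
  have := QAlg206.IsZ.context v1 [] h2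
  rw [List.append_nil] at this
  exact h this

/-- effect of a forward contact on macro words -/
theorem mac_fwd {s s' : BSt Λ} {ss : List (BSt Λ)} {v : List (Let (Λ × Λ))}
    (h : Mac (s :: s' :: ss) v) (hv : ¬ IsZ step v) {φ : Ph} {d : Data}
    (hl : s.lk = decide (φ ≠ 0)) (hs' : s'.st = cur φ d) (hl' : s'.lk = false) :
    cstep φ d s.c s'.c ≠ none ∧
    ∀ d' c c', cstep φ d s.c s'.c = some (d', c, c') →
      ∃ v', Mac (⟨c, none, decide (φ ≠ 10)⟩ :: ⟨c', nxt φ d', false⟩ :: ss) v' ∧
        WEq step (some v) (some v') := by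
  by_cases h0 : φ = 0
  · subst h0
    obtain ⟨x, y, v', rfl, rfl, rfl, h3⟩ := mac_oo h (by simpa using hl) hl'
    cases hxy : step x y with
    | none => exact absurd (WEq.of_zero [] v' hxy) hv
    | some p =>
      obtain ⟨x', y'⟩ := p
      have hrun := run_eq x y d
      rw [hxy, ← phFrom_zero, runL_phFrom (by decide)] at hrun
      simp only [Option.map_some] at hrun
      refine ⟨fun h4 => by simp only at h4; rw [h4] at hrun; simp at hrun, ?_⟩
      intro d' c c' hcs
      simp only at hcs
      rw [hcs] at hrun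
      simp only [Option.bind_some] at hrun
      refine ⟨x' :: y' :: v', ?_, WEq.of_move [] v' hxy⟩
      exact Mac.two c c' 1 (by decide) d' x' y' hrun ss v' h3
  · obtain ⟨φ', d0, x, y, v', hφ', hs, hs2, hl2, hr, rfl, h3⟩ := mac_tt h (by rw [hl]; simpa using h0)
    rw [hs2] at hs'
    simp only [cur, h0, if_false, Option.some.injEq, Prod.mk.injEq] at hs'
    obtain ⟨rfl, rfl⟩ := hs'
    by_cases h10 : φ' = 10
    · subst h10
      rw [runL_ten] at hr
      refine ⟨fun h4 => by rw [h4] at hr; simp at hr, ?_⟩
      intro d' c c' hcs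
      rw [hcs] at hr
      simp only [Option.map_some, Option.some.injEq, Prod.mk.injEq] at hr
      obtain ⟨rfl, rfl⟩ := hr
      exact ⟨x :: y :: v', Mac.one x _ _ (Mac.one y _ _ h3), WEq.refl _⟩
    · rw [runL_phFrom h10] at hr
      refine ⟨fun h4 => by rw [h4] at hr; simp at hr, ?_⟩
      intro d' c c' hcs
      rw [hcs] at hr
      simp only [Option.bind_some] at hr
      have hne : φ' + 1 ≠ 0 := ph_succ_ne h10
      refine ⟨x :: y :: v', ?_, WEq.refl _⟩
      have := Mac.two c c' (φ' + 1) hne d' x y hr ss v' h3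
      simpa [nxt, h10] using this

/-- effect of a backward contact on macro words -/
theorem mac_bwd [Fintype Λ] {s s' : BSt Λ} {ss : List (BSt Λ)} {v : List (Let (Λ × Λ))}
    (h : Mac (s :: s' :: ss) v) {φ : Ph} {d d' : Data} {c c' : Cont Λ}
    (hl : s.lk = decide (φ ≠ 10)) (hs' : s'.st = nxt φ d') (hl' : s'.lk = false)
    (hcs : cstep φ d c c' = some (d', s.c, s'.c)) :
    ∃ v', Mac (⟨c, none, decide (φ ≠ 0)⟩ :: ⟨c', cur φ d, false⟩ :: ss) v' ∧
        WEq step (some v') (some v) := by
  by_cases h10 : φ = 10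
  · subst h10
    obtain ⟨x, y, v', rfl, rfl, rfl, h3⟩ := mac_oo h (by simpa using hl) hl'
    refine ⟨x :: y :: v', ?_, WEq.refl _⟩
    have hr : runL (phFrom 10) d c c' = some (cont x, cont y) := by
      rw [runL_ten, hcs]; rfl
    exact Mac.two c c' 10 (by decide) d x y hr ss v' h3
  · obtain ⟨φ', d0, x, y, v', hφ', hs, hs2, hl2, hr, rfl, h3⟩ := mac_tt h (by rw [hl]; simpa using h10)
    rw [hs2] at hs'
    simp only [nxt, h10, if_false, Option.some.injEq, Prod.mk.injEq] at hs'
    obtain ⟨rfl, rfl⟩ := hs'
    have hr' : runL (phFrom φ) d c c' = some (cont x, cont y) := by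
      rw [runL_phFrom h10, hcs]; exact hr
    by_cases h0 : φ = 0
    · subst h0
      have hd1 : decode c.h ≠ none := by
        intro hd
        rw [Key309.runL_none _ (ten_mem_phFrom 0) d c c' (Or.inr hd)] at hr'
        simp at hr'
      have hd2 : decode c'.h ≠ none := by
        intro hd
        rw [Key309.runL_none _ (ten_mem_phFrom 0) d c c' (Or.inl hd)] at hr'
        simp at hr'
      obtain ⟨x0, rfl⟩ := exists_cont hd1
      obtain ⟨y0, rfl⟩ := exists_cont hd2
      rw [phFrom_zero, run_eq] at hr'
      cases hxy : step x0 y0 with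
      | none => rw [hxy] at hr'; simp at hr'
      | some p =>
        rw [hxy] at hr'
        simp only [Option.map_some, Option.some.injEq, Prod.mk.injEq] at hr'
        have e1 := cont_inj hr'.1
        have e2 := cont_inj hr'.2
        refine ⟨x0 :: y0 :: v', Mac.one x0 _ _ (Mac.one y0 _ _ h3), ?_⟩
        have hxy' : step x0 y0 = some (x, y) := by rw [hxy, ← e1, ← e2]
        exact WEq.of_move [] v' hxy'
    · refine ⟨x :: y :: v', ?_, WEq.refl _⟩
      have := Mac.two c c' φ h0 d x y hr' ss v' h3
      simpa [cur, h0] using this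

end Crest.Agent.R176.Machine.Snd
end

-- ▼ part R176/Machine/ConfIn291A
section

/-!
# Row 176, part A, block (5B-IN): moves inside one block (helper291)

Local part: the step function on pairs inside a block, wall and head, the bag.
-/

set_option autoImplicit false
set_option linter.unusedSectionVars false
set_option linter.unusedSimpArgs false
set_option linter.unusedVariables false

namespace Crest.Agent.R176.Machine

variable {Λ : Type} [DecidableEq Λ] [LabelSys Λ]

/-! ### the step function on pairs inside a block -/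

/-- class of a bag letter: letters of the same class never occur twice -/
def cl (x : BK × Λ) : TT × Option Λ := (x.1.ty, if x.1 = .X then some x.2 else none)

theorem step_bb (s t : Bool) (x y : BK × Λ) :
    step (bg s x) (bg t y) = if s = t ∧ cl x ≠ cl y then some (bg s y, bg s x) else none := by
  obtain ⟨x, a⟩ := x
  obtain ⟨y, b⟩ := y
  unfold step bg
  simp only [rule, ruleBB]
  by_cases hs : s = t
  · subst hs
    cases x <;> cases y <;>
      simp [RD.eval, AC.eval, cl, BK.ty, Rule.zero]
    · rename_i j o j' o'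
      by_cases hj : j = j' <;> simp [hj]
  · simp [hs, Rule.zero, RD.eval]

theorem step_be (s : Bool) (x : BK × Λ) (e : EK) (b : Λ) (y' : Let Λ × Let Λ)
    (h : step (bg s x) (.E e, b) = some y') :
    y' = (bg s x, (.E e, b)) ∧ s = false ∧ cons e x.1 = true ∧ Passable e b x := by
  obtain ⟨x, a⟩ := x
  unfold step bg at h
  simp only [rule, ruleBE] at h
  cases s with
  | true => simp [Rule.zero, RD.eval] at h
  | false =>
    by_cases hm : e.moving = true
    · by_cases hc : cons e x = true
      · simp only [hm, hc, Bool.and_self, if_true, Bool.false_eq_true, if_false] at h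
        by_cases hx : x = .X ∧ e.target = some .X
        · simp only [hx, and_self, if_true, RD.eval, AC.eval] at h
          by_cases hab : a = b
          · simp [hab] at h
          · simp only [hab, decide_false, Bool.false_eq_true, if_false, Option.map_some,
              Option.bind_some, Option.some.injEq] at h
            refine ⟨?_, rfl, hc, hm, ?_, ?_⟩
            · rw [← h]; simp [bg, hx.1]
            · intro _ h2
              simp only [Prod.mk.injEq] at h2
              exact hab h2.2
            · intro h2; exact absurd hx.2 h2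
        · simp only [hx, if_false] at h
          by_cases ht : e.target = some x.ty
          · simp [ht, Rule.zero, RD.eval] at h
          · simp only [ht, if_false, Rule.stay, RD.eval, AC.eval, Bool.false_eq_true,
              Option.map_some, Option.bind_some, Option.some.injEq] at h
            refine ⟨?_, rfl, hc, hm, ?_, ?_⟩
            · rw [← h]; rfl
            · intro h1 h2
              simp only [Prod.mk.injEq] at h2
              exact hx ⟨h2.1, h1⟩
            · intro _; exact ht
      · simp [hc, Rule.zero, RD.eval] at h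
    · simp [hm, Rule.zero, RD.eval] at h

theorem step_be_pass {x : BK × Λ} {e : EK} {b : Λ} (hc : cons e x.1 = true)
    (hp : Passable e b x) : step (bg false x) (.E e, b) = some (bg false x, (.E e, b)) := by
  obtain ⟨x, a⟩ := x
  obtain ⟨hm, h1, h2⟩ := hp
  unfold step bg
  simp only [rule, ruleBE]
  simp only at hc
  simp only [hm, hc, Bool.and_self, if_true, Bool.false_eq_true, if_false]
  by_cases hx : x = .X ∧ e.target = some .X
  · have hab : a ≠ b := by
      rintro rfl
      exact h1 hx.2 (by rw [hx.1])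
    simp [hx, RD.eval, AC.eval, hab]
  · by_cases ht : e.target = some x.ty
    · exfalso
      by_cases h3 : e.target = some .X
      · apply hx
        refine ⟨?_, h3⟩
        rw [h3] at ht
        cases x <;> simp_all [BK.ty]
      · exact h2 h3 ht
    · simp [hx, ht, Rule.stay, RD.eval, AC.eval]

theorem step_wb (w : WK) (a : Λ) (s : Bool) (x : BK × Λ) :
    step (.W w, a) (bg s x) =
      if s = false ∧ w ≠ .w0 ∧ (∀ φ d, w ≠ .C φ d) ∧ (∀ φ d, w ≠ .D φ d) then
        some ((.W w, a), bg s x) else none := by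
  obtain ⟨x, b⟩ := x
  unfold step bg
  simp only [rule, ruleWB]
  cases s with
  | true => simp [Rule.zero, RD.eval]
  | false => cases w <;> simp [Rule.zero, Rule.stay, RD.eval, AC.eval]

/-- head and passable unpassed letter -/
theorem step_eb_pass {x : BK × Λ} {e : EK} {b : Λ} (hc : cons e x.1 = true)
    (hp : Passable e b x) : step (.E e, b) (bg true x) = some (bg false x, (.E e, b)) := by
  obtain ⟨x, a⟩ := x
  obtain ⟨hm, h1, h2⟩ := hp
  unfold step bg
  simp only [rule, ruleEB]
  simp only at hc
  simp only [hm, hc, Bool.and_self, if_true]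
  by_cases hx : x = .X ∧ e.target = some .X
  · have hab : b ≠ a := by
      rintro rfl
      exact h1 hx.2 (by rw [hx.1])
    simp [hx, RD.eval, AC.eval, hab]
  · by_cases ht : e.target = some x.ty
    · exfalso
      by_cases h3 : e.target = some .X
      · apply hx
        refine ⟨?_, h3⟩
        rw [h3] at ht
        cases x <;> simp_all [BK.ty]
      · exact h2 h3 ht
    · simp [hx, ht, RD.eval, AC.eval]

/-- head and non-passable unpassed letter -/
theorem step_eb_not {x : BK × Λ} {e : EK} {b : Λ} (hc : cons e x.1 = true)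
    (hp : ¬ Passable e b x) : step (.E e, b) (bg true x) =
      if e.moving = true ∧ e.target ≠ some .X then
        (if (ruleTgt e x.1).rd.eval b x.2 then
          (ruleTgt e x.1).g1.map fun p => ((p.1, b), (p.2, x.2))
        else (ruleTgt e x.1).g0.bind fun p =>
          ((ruleTgt e x.1).ac.eval b x.2).map fun q => ((p.1, q.1), (p.2, q.2)))
      else some ((.E e, b), bg true x) := by
  obtain ⟨x, a⟩ := x
  unfold step bg
  simp only [rule, ruleEB]
  simp only at hc
  unfold Passable at hp
  by_cases hm : e.moving = true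
  · simp only [hm, hc, Bool.and_self, if_true, true_and]
    by_cases h3 : e.target = some .X
    · have hx : x = .X ∧ a = b := by
        by_contra hne
        apply hp
        refine ⟨hm, ?_, ?_⟩
        · intro _ h4
          simp only [Prod.mk.injEq] at h4
          exact hne h4
        · intro h4; exact absurd h3 h4
      obtain ⟨rfl, rfl⟩ := hx
      simp [h3, RD.eval]
    · have ht : e.target = some x.ty := by
        by_contra hne
        apply hp
        exact ⟨hm, fun h4 => absurd h4 h3, fun _ => hne⟩
      have hx : ¬ (x = .X ∧ e.target = some .X) := fun h => h3 h.2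
      rw [if_neg hx, if_pos ht]
      simp only [ne_eq, h3, not_false_eq_true, if_true]
  · simp [hm, hc, Rule.stay, RD.eval, AC.eval]

/-- general inversion of the pairs head - bag -/
theorem step_eb_some {s : Bool} {x : BK × Λ} {e : EK} {b : Λ} {r : Let Λ × Let Λ}
    (h : step (.E e, b) (bg s x) = some r) : s = true ∧ cons e x.1 = true := by
  obtain ⟨x, a⟩ := x
  unfold step bg at h
  simp only [rule, ruleEB] at h
  cases s with
  | false => simp [Rule.zero, RD.eval] at h
  | true =>
    by_cases hc : cons e x = true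
    · exact ⟨rfl, hc⟩
    · simp [hc, Rule.zero, RD.eval] at h

theorem step_ee (e e' : EK) (a b : Λ) : step (.E e, a) (.E e', b) = none := by
  simp [step, rule, Rule.zero, RD.eval]
theorem step_ew (e : EK) (w : WK) (a b : Λ) : step (.E e, a) (.W w, b) = none := by
  simp [step, rule, Rule.zero, RD.eval]
theorem step_ww (w w' : WK) (a b : Λ) : step (.W w, a) (.W w', b) = none := by
  simp [step, rule, Rule.zero, RD.eval]

/-- the result of a rule with fixed result kinds -/
theorem step_shape {κ κ' : KK} {a b : Λ} {r : Let Λ × Let Λ} (h : step (κ, a) (κ', b) = some r) :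
    (rule κ κ').g0 = some (r.1.1, r.2.1) ∨ (rule κ κ').g1 = some (r.1.1, r.2.1) := by
  unfold step at h
  by_cases he : (rule κ κ').rd.eval a b = true
  · simp only [he, if_true, Option.map_eq_some_iff] at h
    obtain ⟨p, hp, rfl⟩ := h
    exact Or.inr hp
  · simp only [he, if_false, Bool.false_eq_true, Option.bind_eq_some_iff,
      Option.map_eq_some_iff] at h
    obtain ⟨p, hp, q, -, rfl⟩ := h
    exact Or.inl hp

theorem contact_shape (x x' : BK) (φ : Ph) (d : Data) (p : KK × KK)
    (h : (contact x x' φ d).g0 = some p ∨ (contact x x' φ d).g1 = some p) :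
    (∃ x', p.1 = .bag true x') ∧ ∃ w', p.2 = .W w' := by
  simp only [contact, Option.map_eq_some_iff] at h
  rcases h with ⟨d', -, rfl⟩ | ⟨d', -, rfl⟩
  · exact ⟨⟨_, rfl⟩, _, rfl⟩
  · exact ⟨⟨_, rfl⟩, _, rfl⟩

theorem stay_shape (x : BK) (w : WK) (p : KK × KK)
    (h : (Rule.stay (.bag true x) (.W w)).g0 = some p ∨
      (Rule.stay (.bag true x) (.W w)).g1 = some p) :
    (∃ x', p.1 = .bag true x') ∧ ∃ w', p.2 = .W w' := by
  simp only [Rule.stay, Option.some.injEq, reduceCtorEq, or_false] at h
  subst h
  exact ⟨⟨_, rfl⟩, _, rfl⟩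

theorem ruleBW_shape (s : Bool) (x : BK) (w : WK) (p : KK × KK)
    (h : (ruleBW s x w).g0 = some p ∨ (ruleBW s x w).g1 = some p) :
    (∃ x', p.1 = .bag true x') ∧ ∃ w', p.2 = .W w' := by
  unfold ruleBW at h
  cases s with
  | false => simp [Rule.zero] at h
  | true =>
    simp only [if_true] at h
    cases x with
    | X => exact stay_shape _ _ _ h
    | H mm =>
      simp only at h
      by_cases h2 : (mm = .l) ↔ locked w = true
      · rw [if_pos h2] at h
        cases w with
        | C φ d =>
          simp only at h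
          by_cases h3 : tz φ = .H ∧ (mm = .l ∨ (φ = 0 ∧ mm = .f))
          · rw [if_pos h3] at h
            exact contact_shape _ _ _ _ _ h
          · rw [if_neg h3] at h
            exact stay_shape _ _ _ h
        | _ => exact stay_shape _ _ _ h
      · rw [if_neg h2] at h
        simp [Rule.zero] at h
    | Y j o =>
      cases w with
      | C φ d =>
        simp only at h
        by_cases h3 : tz φ = .Y j ∧ o = false
        · rw [if_pos h3] at h
          exact contact_shape _ _ _ _ _ h
        · rw [if_neg h3] at h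
          exact stay_shape _ _ _ h
      | _ => exact stay_shape _ _ _ h

theorem step_bw_kind {s : Bool} {x : BK} {w : WK} {a b : Λ} {r : Let Λ × Let Λ}
    (h : step (.bag s x, a) (.W w, b) = some r) :
    (∃ x', r.1.1 = .bag true x') ∧ ∃ w', r.2.1 = .W w' :=
  ruleBW_shape s x w _ (step_shape h)

theorem step_eb_kind {s : Bool} {x : BK} {e : EK} {a b : Λ} {r : Let Λ × Let Λ}
    (h : step (.E e, a) (.bag s x, b) = some r) :
    ((∃ x', r.1.1 = .bag false x') ∧ ∃ e', r.2.1 = .E e') ∨
      ((∃ e', r.1.1 = .E e') ∧ ∃ x', r.2.1 = .bag true x') := by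
  have h1 := step_shape h
  simp only [rule, ruleEB] at h1
  split_ifs at h1 with h2 h3 h4 h5
  · simp only [Option.some.injEq, Prod.mk.injEq] at h1
    rcases h1 with h1 | h1
    · exact Or.inl ⟨⟨_, h1.1.symm⟩, _, h1.2.symm⟩
    · exact Or.inr ⟨⟨_, h1.1.symm⟩, _, h1.2.symm⟩
  · right
    unfold ruleTgt at h1
    split at h1
    · split_ifs at h1
      · simp only [Rule.stay, Option.some.injEq, Prod.mk.injEq, reduceCtorEq, or_false] at h1
        exact ⟨⟨_, h1.1.symm⟩, _, h1.2.symm⟩
      · simp only [Option.some.injEq, Prod.mk.injEq, reduceCtorEq, or_false] at h1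
        exact ⟨⟨_, h1.1.symm⟩, _, h1.2.symm⟩
    all_goals
      simp only [Rule.stay, Option.some.injEq, Prod.mk.injEq, reduceCtorEq, or_false] at h1
      exact ⟨⟨_, h1.1.symm⟩, _, h1.2.symm⟩
  · simp only [Option.some.injEq, Prod.mk.injEq, reduceCtorEq, or_false] at h1
    exact Or.inl ⟨⟨_, h1.1.symm⟩, _, h1.2.symm⟩
  · simp only [Rule.stay, Option.some.injEq, Prod.mk.injEq, reduceCtorEq, or_false] at h1
    exact Or.inr ⟨⟨_, h1.1.symm⟩, _, h1.2.symm⟩
  · simp [Rule.zero] at h1

/-! ### wall and head -/

theorem succ_ne_zero' : ∀ φ : Ph, φ ≠ 10 → φ + 1 ≠ 0 := by decide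

theorem cur_ne_i {φ : Ph} (hφ : φ ≠ 0) (d : Data) : cur φ d = some (φ, d) := by
  unfold cur; rw [if_neg hφ]
theorem nxt_eq {φ : Ph} (hφ : φ ≠ 10) (d : Data) : nxt φ d = cur (φ + 1) d := by
  unfold nxt cur
  have : φ + 1 ≠ 0 := by revert hφ; revert φ; decide
  rw [if_neg hφ, if_neg this]

theorem own_we_forward {c : Cont Λ} {st : Option (Ph × Data)} {lk : Bool} {w : WK} {a : Λ}
    {e : EK} {b : Λ} {o : Option TT} (h : Own c st lk w a e b o) :
    ∃ w' a' e' b', step (.W w, a) (.E e, b) = some ((.W w', a'), (.E e', b')) ∧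
      Own c st lk w' a' e' b' o := by
  cases h with
  | rest lk =>
    exact ⟨_, _, _, _, by simp [step, rule, ruleWE, RD.eval, AC.eval], Own.rest lk⟩
  | G φ d lk h =>
    by_cases hφ : φ = 0
    · subst hφ
      exact ⟨_, _, _, _, by simp [step, rule, ruleWE, RD.eval, AC.eval], Own.rest lk⟩
    · exact ⟨_, _, _, _, by simp [step, rule, ruleWE, RD.eval, AC.eval, hφ], Own.G φ d lk h⟩
  | K φ d =>
    exact ⟨_, _, _, _, by simp [step, rule, ruleWE, RD.eval, AC.eval], Own.K φ d⟩
  | C φ d =>
    exact ⟨_, _, _, _, by simp [step, rule, ruleWE, RD.eval, AC.eval], Own.K φ d⟩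
  | D φ d =>
    exact ⟨_, _, _, _, by simp [step, rule, ruleWE, RD.eval, AC.eval], Own.P φ d⟩
  | P φ d =>
    exact ⟨_, _, _, _, by simp [step, rule, ruleWE, RD.eval, AC.eval], Own.P φ d⟩
  | R φ d lk h =>
    by_cases hφ : φ = 10
    · subst hφ
      exact ⟨_, _, _, _, by simp [step, rule, ruleWE, RD.eval, AC.eval], Own.rest lk⟩
    · have hlk : lk = false := by
        cases lk with
        | false => rfl
        | true => exact absurd (h rfl) hφ
      subst hlk
      have hO : Own c (cur (φ + 1) d) false (.A (φ + 1) d) z (.G (φ + 1)) z none :=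
        Own.G (φ + 1) d false (by simp)
      rw [← nxt_eq hφ] at hO
      exact ⟨_, _, _, _, by simp [step, rule, ruleWE, RD.eval, AC.eval, hφ], hO⟩
  | Ti t b lk h =>
    by_cases ht : t = .X
    · subst ht
      exact ⟨_, _, _, _, by simp [step, rule, ruleWE, ctxOK, homeW, homeE, RD.eval, AC.eval],
        Own.rest lk⟩
    · have hb := h ht
      subst hb
      exact ⟨_, _, _, _, by simp [step, rule, ruleWE, ctxOK, homeW, homeE, RD.eval, AC.eval, ht],
        Own.rest lk⟩
  | Tb t b φ d hφ h =>
    have hO : Own c (cur φ d) false (.A φ d) z (.G φ) z none := Own.G φ d false (by simp)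
    rw [cur_ne_i hφ] at hO
    by_cases ht : t = .X
    · subst ht
      exact ⟨_, _, _, _,
        by simp [step, rule, ruleWE, ctxOK, homeW, homeE, RD.eval, AC.eval, hφ], hO⟩
    · have hb := h ht
      subst hb
      exact ⟨_, _, _, _,
        by simp [step, rule, ruleWE, ctxOK, homeW, homeE, RD.eval, AC.eval, ht, hφ], hO⟩

theorem own_we_backward {c : Cont Λ} {st : Option (Ph × Data)} {lk : Bool} {w w' : WK}
    {a a' : Λ} {e e' : EK} {b b' : Λ} {o : Option TT} (h : Own c st lk w' a' e' b' o)
    (hs : step (.W w, a) (.E e, b) = some ((.W w', a'), (.E e', b'))) :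
    Own c st lk w a e b o := by
  cases w with
  | w0 =>
    cases e with
    | home =>
      by_cases hab : a = z ∧ b = z
      · obtain ⟨rfl, rfl⟩ := hab
        simp [step, rule, ruleWE, RD.eval, AC.eval] at hs
        obtain ⟨⟨rfl, rfl⟩, rfl, rfl⟩ := hs
        exact h
      · exfalso
        by_cases ha : a = z
        · simp only [ha, true_and] at hab
          simp [step, rule, ruleWE, RD.eval, AC.eval, hab] at hs
        · simp [step, rule, ruleWE, RD.eval, AC.eval, ha] at hs
    | _ => simp [step, rule, ruleWE, Rule.zero, RD.eval] at hs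
  | A φ d =>
    cases e with
    | G ψ =>
      by_cases hψ : φ = ψ
      · subst hψ
        have hab : a = z ∧ b = z := by
          by_contra hab
          by_cases hφ : φ = 0
          · by_cases ha : a = z
            · simp only [ha, true_and] at hab
              simp [step, rule, ruleWE, RD.eval, AC.eval, hab, hφ] at hs
            · simp [step, rule, ruleWE, RD.eval, AC.eval, ha, hφ] at hs
          · by_cases ha : a = z
            · simp only [ha, true_and] at hab
              simp [step, rule, ruleWE, RD.eval, AC.eval, hab, hφ] at hs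
            · simp [step, rule, ruleWE, RD.eval, AC.eval, ha, hφ] at hs
        obtain ⟨rfl, rfl⟩ := hab
        by_cases hφ : φ = 0
        · subst hφ
          simp [step, rule, ruleWE, RD.eval, AC.eval] at hs
          obtain ⟨⟨rfl, ha'⟩, rfl, hb'⟩ := hs
          cases h with
          | rest lk =>
            have hO : Own c (cur 0 d) lk (.A 0 d) z (.G 0) z none := Own.G 0 d lk (fun _ => rfl)
            exact hO
        · simp [step, rule, ruleWE, RD.eval, AC.eval, hφ] at hs
          obtain ⟨⟨rfl, rfl⟩, rfl, rfl⟩ := hs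
          exact h
      · simp [step, rule, ruleWE, Rule.zero, RD.eval, hψ] at hs
    | K ψ =>
      by_cases hψ : φ = ψ
      · subst hψ
        by_cases ha : a = z
        · subst ha
          simp [step, rule, ruleWE, RD.eval, AC.eval] at hs
          obtain ⟨⟨rfl, rfl⟩, rfl, rfl⟩ := hs
          exact h
        · simp [step, rule, ruleWE, RD.eval, AC.eval, ha] at hs
      · simp [step, rule, ruleWE, Rule.zero, RD.eval, hψ] at hs
    | _ => simp [step, rule, ruleWE, Rule.zero, RD.eval] at hs
  | C φ d =>
    cases e with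
    | N ψ =>
      by_cases hψ : φ = ψ
      · subst hψ
        by_cases hb : b = z
        · subst hb
          simp [step, rule, ruleWE, RD.eval, AC.eval] at hs
          obtain ⟨⟨rfl, ha'⟩, rfl, hb'⟩ := hs
          cases h with
          | K φ d => rw [hb']; exact Own.C φ d
        · simp [step, rule, ruleWE, RD.eval, AC.eval, hb] at hs
      · simp [step, rule, ruleWE, Rule.zero, RD.eval, hψ] at hs
    | _ => simp [step, rule, ruleWE, Rule.zero, RD.eval] at hs
  | D φ d =>
    cases e with
    | N ψ =>
      by_cases hψ : φ = ψ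
      · subst hψ
        by_cases hb : b = z
        · subst hb
          simp [step, rule, ruleWE, RD.eval, AC.eval] at hs
          obtain ⟨⟨rfl, ha'⟩, rfl, hb'⟩ := hs
          cases h with
          | P φ d => rw [hb']; exact Own.D φ d
        · simp [step, rule, ruleWE, RD.eval, AC.eval, hb] at hs
      · simp [step, rule, ruleWE, Rule.zero, RD.eval, hψ] at hs
    | _ => simp [step, rule, ruleWE, Rule.zero, RD.eval] at hs
  | B φ d =>
    cases e with
    | P ψ =>
      by_cases hψ : φ = ψ
      · subst hψ
        by_cases ha : a = z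
        · subst ha
          simp [step, rule, ruleWE, RD.eval, AC.eval] at hs
          obtain ⟨⟨rfl, rfl⟩, rfl, rfl⟩ := hs
          exact h
        · simp [step, rule, ruleWE, RD.eval, AC.eval, ha] at hs
      · simp [step, rule, ruleWE, Rule.zero, RD.eval, hψ] at hs
    | R ψ =>
      by_cases hψ : φ = ψ
      · subst hψ
        have hab : a = z ∧ b = z := by
          by_contra hab
          by_cases hφ : φ = 10
          · by_cases ha : a = z
            · simp only [ha, true_and] at hab
              simp [step, rule, ruleWE, RD.eval, AC.eval, hab, hφ] at hs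
            · simp [step, rule, ruleWE, RD.eval, AC.eval, ha, hφ] at hs
          · by_cases ha : a = z
            · simp only [ha, true_and] at hab
              simp [step, rule, ruleWE, RD.eval, AC.eval, hab, hφ] at hs
            · simp [step, rule, ruleWE, RD.eval, AC.eval, ha, hφ] at hs
        obtain ⟨rfl, rfl⟩ := hab
        by_cases hφ : φ = 10
        · subst hφ
          simp [step, rule, ruleWE, RD.eval, AC.eval] at hs
          obtain ⟨⟨rfl, ha'⟩, rfl, hb'⟩ := hs
          cases h with
          | rest lk =>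
            have hO : Own c (nxt 10 d) lk (.B 10 d) z (.R 10) z none :=
              Own.R 10 d lk (fun _ => rfl)
            exact hO
        · simp [step, rule, ruleWE, RD.eval, AC.eval, hφ] at hs
          obtain ⟨⟨rfl, ha'⟩, rfl, hb'⟩ := hs
          cases h with
          | G _ _ lk hlk =>
            have h0 : φ + 1 ≠ 0 := succ_ne_zero' φ hφ
            have : lk = false := by
              cases lk with
              | false => rfl
              | true => exact absurd (hlk rfl) h0
            subst this
            rw [← nxt_eq hφ]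
            exact Own.R φ d false (by simp)
      · simp [step, rule, ruleWE, Rule.zero, RD.eval, hψ] at hs
    | _ => simp [step, rule, ruleWE, Rule.zero, RD.eval] at hs
  | S t ctx =>
    cases e with
    | T t' busy =>
      by_cases hc : t = t' ∧ ctxOK ctx busy = true
      · obtain ⟨rfl, hc⟩ := hc
        have ha : a = z := by
          by_contra ha
          by_cases ht : t = .X
          · simp [step, rule, ruleWE, RD.eval, AC.eval, ha, hc, ht] at hs
          · simp [step, rule, ruleWE, RD.eval, AC.eval, ha, hc, ht] at hs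
        subst ha
        have hb : t ≠ .X → b = z := by
          intro ht
          by_contra hb
          simp [step, rule, ruleWE, RD.eval, AC.eval, hb, hc, ht] at hs
        have hs' : WK.noConfusionType True (homeW ctx) w' → True := fun _ => trivial
        have hk := step_shape hs
        have hk' : homeW ctx = w' ∧ homeE ctx = e' := by
          simp only [rule, ruleWE, hc, and_self, if_true] at hk
          by_cases ht : t = .X
          · simpa [ht] using hk
          · simpa [ht] using hk
        obtain ⟨rfl, rfl⟩ := hk'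
        cases ctx with
        | none =>
          have hbusy : busy = false := by simpa [ctxOK] using hc
          subst hbusy
          simp only [homeW, homeE] at h
          cases h with
          | rest lk => exact Own.Ti t b lk hb
        | some p =>
          obtain ⟨φ, d⟩ := p
          have hbusy : busy = true ∧ φ ≠ 0 := by simpa [ctxOK] using hc
          obtain ⟨rfl, hφ⟩ := hbusy
          simp only [homeW, homeE] at h
          cases h with
          | G _ _ lk hlk =>
            have : lk = false := by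
              cases lk with
              | false => rfl
              | true => exact absurd (hlk rfl) hφ
            subst this
            rw [cur_ne_i hφ]
            exact Own.Tb t b φ d hφ hb
      · simp [step, rule, ruleWE, Rule.zero, RD.eval, hc] at hs
    | _ => simp [step, rule, ruleWE, Rule.zero, RD.eval] at hs

/-- result `(W, E)` only comes from a pair `(W, E)` -/
theorem from_we {x y : Let Λ} {w' : WK} {a' : Λ} {e' : EK} {b' : Λ}
    (hs : step x y = some ((.W w', a'), (.E e', b'))) :
    ∃ w a e b, x = (.W w, a) ∧ y = (.E e, b) := by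
  obtain ⟨κ, a⟩ := x
  obtain ⟨κ', b⟩ := y
  cases κ with
  | bag s x =>
    cases κ' with
    | bag t y =>
      have := step_bb s t (x, a) (y, b)
      unfold bg at this
      rw [this] at hs
      split_ifs at hs
      simp at hs
    | E e =>
      have := (step_be s (x, a) e b _ hs).1
      simp [bg] at this
    | W w =>
      obtain ⟨⟨x', h1⟩, -⟩ := step_bw_kind hs
      simp at h1
  | E e =>
    cases κ' with
    | bag t y =>
      rcases step_eb_kind hs with ⟨⟨x', h1⟩, -⟩ | ⟨⟨x', h1⟩, -⟩ <;> simp at h1
    | E e => rw [step_ee] at hs; simp at hs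
    | W w => rw [step_ew] at hs; simp at hs
  | W w =>
    cases κ' with
    | bag t y =>
      have := step_wb w a t (y, b)
      unfold bg at this
      rw [this] at hs
      split_ifs at hs
      simp at hs
    | E e => exact ⟨_, _, _, _, rfl, rfl⟩
    | W w => rw [step_ww] at hs; simp at hs

/-! ### the bag -/

/-- the letter of type `t` -/
def letT (c : Cont Λ) (m : HM) (t : TT) (o : Option TT) : BK × Λ :=
  match t with
  | .X => (.X, z)
  | .H => letH c m o
  | .Y j => letY c j o

variable [Fintype Λ]

theorem mem_bagM_i {c : Cont Λ} {m : HM} {o : Option TT} {x : BK × Λ} (hx : x ∈ bagM c m o) :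
    x = letH c m o ∨ x = letY c false o ∨ x = letY c true o ∨ x.1 = .X := by
  unfold bagM at hx
  simp only [Multiset.mem_cons, Multiset.mem_map] at hx
  rcases hx with h | h | h | ⟨a, -, rfl⟩
  · exact Or.inl h
  · exact Or.inr (Or.inl h)
  · exact Or.inr (Or.inr (Or.inl h))
  · exact Or.inr (Or.inr (Or.inr rfl))

theorem letH_ty_i (c : Cont Λ) (m : HM) (o : Option TT) : (letH c m o).1.ty = .H := by
  unfold letH; split_ifs <;> rfl
theorem letY_ty_i (c : Cont Λ) (j : Bool) (o : Option TT) : (letY c j o).1.ty = .Y j := by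
  unfold letY; split_ifs <;> rfl

theorem mem_ty {c : Cont Λ} {m : HM} {o : Option TT} {x : BK × Λ} (hx : x ∈ bagM c m o)
    (ht : x.1.ty ≠ .X) : x = letT c m x.1.ty o := by
  rcases mem_bagM_i hx with rfl | rfl | rfl | h
  · rw [letH_ty_i]; rfl
  · rw [letY_ty_i]; rfl
  · rw [letY_ty_i]; rfl
  · rw [h] at ht; exact absurd rfl ht


theorem nodup_bagM (c : Cont Λ) (m : HM) (o : Option TT) : ((bagM c m o).map cl).Nodup := by
  have h1 : cl (letH c m o) = (.H, none) := by unfold letH; split_ifs <;> rfl
  have h2 : ∀ j, cl (letY c j o) = (.Y j, none) := by intro j; unfold letY; split_ifs <;> rfl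
  unfold bagM
  simp only [Multiset.map_cons, h1, h2, Multiset.map_map]
  have h3 : (cl ∘ fun a : Λ => (BK.X, a)) = fun a => (TT.X, some a) := by
    funext a; simp [cl, BK.ty]
  rw [h3]
  refine Multiset.nodup_cons.2 ⟨?_, Multiset.nodup_cons.2 ⟨?_, Multiset.nodup_cons.2 ⟨?_, ?_⟩⟩⟩
  · simp
  · simp
  · simp
  · refine Multiset.Nodup.map ?_ (Finset.univ : Finset Λ).nodup
    intro a b hab
    simpa using hab

theorem cl_ne {c : Cont Λ} {m : HM} {o : Option TT} {x y : BK × Λ} {s : Multiset (BK × Λ)}
    (h : x ::ₘ y ::ₘ s = bagM c m o) : cl x ≠ cl y := by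
  have h1 := nodup_bagM c m o
  rw [← h] at h1
  simp only [Multiset.map_cons, Multiset.nodup_cons, Multiset.mem_cons, not_or] at h1
  exact h1.1.1

theorem bagM_replace {c : Cont Λ} {m : HM} {t : TT} (ht : t ≠ .X) (s : Multiset (BK × Λ)) :
    letT c m t none ::ₘ s = bagM c m none ↔ letT c m t (some t) ::ₘ s = bagM c m (some t) := by
  cases t with
  | X => exact absurd rfl ht
  | H =>
    have e1 : bagM c m none = letT c m .H none ::ₘ letY c false none ::ₘ letY c true none ::ₘ
      (Finset.univ : Finset Λ).val.map fun a => (BK.X, a) := rfl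
    have e2 : bagM c m (some .H) = letT c m .H (some .H) ::ₘ letY c false none ::ₘ
      letY c true none ::ₘ (Finset.univ : Finset Λ).val.map fun a => (BK.X, a) := rfl
    rw [e1, e2, Multiset.cons_inj_right, Multiset.cons_inj_right]
  | Y j =>
    cases j with
    | false =>
      have e1 : bagM c m none = letT c m (.Y false) none ::ₘ letH c m none ::ₘ
          letY c true none ::ₘ (Finset.univ : Finset Λ).val.map fun a => (BK.X, a) := by
        unfold bagM; exact Multiset.cons_swap _ _ _
      have e2 : bagM c m (some (.Y false)) = letT c m (.Y false) (some (.Y false)) ::ₘ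
          letH c m none ::ₘ letY c true none ::ₘ
          (Finset.univ : Finset Λ).val.map fun a => (BK.X, a) := by
        unfold bagM; exact Multiset.cons_swap _ _ _
      rw [e1, e2, Multiset.cons_inj_right, Multiset.cons_inj_right]
    | true =>
      have e1 : bagM c m none = letT c m (.Y true) none ::ₘ letH c m none ::ₘ
          letY c false none ::ₘ (Finset.univ : Finset Λ).val.map fun a => (BK.X, a) := by
        unfold bagM
        rw [Multiset.cons_swap (letY c false none), Multiset.cons_swap (letH c m none)]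
        rfl
      have e2 : bagM c m (some (.Y true)) = letT c m (.Y true) (some (.Y true)) ::ₘ
          letH c m none ::ₘ letY c false none ::ₘ
          (Finset.univ : Finset Λ).val.map fun a => (BK.X, a) := by
        unfold bagM
        rw [Multiset.cons_swap (letY c false _), Multiset.cons_swap (letH c m _)]
        rfl
      rw [e1, e2, Multiset.cons_inj_right, Multiset.cons_inj_right]

theorem tz_ne : ∀ φ : Ph, tz φ ≠ .X := by decide
theorem tz_H_of : ∀ φ : Ph, tz φ ≠ .H → φ ≠ 0 ∧ φ ≠ 10 := by decide

theorem hmark_cur_i : ∀ (φ : Ph) (d : Data), hmark (cur φ d) false = if φ = 0 then .f else .b := by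
  intro φ d
  unfold cur
  split_ifs <;> rfl
theorem hmark_nxt_i : ∀ (φ : Ph) (d : Data), hmark (nxt φ d) false = if φ = 10 then .f else .b := by
  intro φ d
  unfold nxt
  split_ifs <;> rfl

/-- all letters of the bag are consistent with the head -/
theorem cons_of_mem {c : Cont Λ} {st : Option (Ph × Data)} {lk : Bool} {w : WK} {a : Λ}
    {e : EK} {b : Λ} {o : Option TT} (h : Own c st lk w a e b o) {x : BK × Λ}
    (hx : x ∈ bagM c (hmark st lk) o) : cons e x.1 = true := by
  have hX : ∀ e : EK, cons e .X = true := fun _ => rfl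
  have key : ∀ (φ : Ph) (e : EK), (e = .K φ ∨ e = .N φ ∨ e = .P φ) → ∀ (m : HM),
      (tz φ ≠ .H → m = .b) → ∀ x : BK × Λ, x ∈ bagM c m (some (tz φ)) → cons e x.1 = true := by
    intro φ e he m hm x hx
    have ho : e.outPh = some φ := by rcases he with rfl | rfl | rfl <;> rfl
    have hi : e.idle = false := by rcases he with rfl | rfl | rfl <;> rfl
    rcases mem_bagM_i hx with rfl | rfl | rfl | h
    · unfold letH
      by_cases ht : tz φ = .H
      · simp [ht, cons, hi, ho]
      · simp [ht, cons, hi, ho, hm ht]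
    · unfold letY
      by_cases ht : tz φ = .Y false
      · simp [ht, cons, hi, ho]
      · simp [ht, cons, hi, ho]
    · unfold letY
      by_cases ht : tz φ = .Y true
      · simp [ht, cons, hi, ho]
      · simp [ht, cons, hi, ho]
    · rw [h]; rfl
  have key2 : ∀ (e : EK) (m : HM), e.outPh = none →
      ((e.idle = true ∧ (m = .f ∨ m = .l)) ∨ (e.idle = false ∧ m = .b)) →
      ∀ x : BK × Λ, x ∈ bagM c m none → cons e x.1 = true := by
    intro e m ho hm x hx
    rcases mem_bagM_i hx with rfl | rfl | rfl | h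
    · rcases hm with ⟨hi, hm | hm⟩ | ⟨hi, hm⟩ <;> simp [letH, cons, hi, ho, hm]
    · simp [letY, cons, ho]
    · simp [letY, cons, ho]
    · rw [h]; rfl
  have hfl : ∀ lk : Bool, hmark none lk = .f ∨ hmark none lk = .l := by
    intro lk; cases lk
    · exact Or.inl rfl
    · exact Or.inr rfl
  cases h with
  | rest lk => exact key2 _ _ rfl (Or.inl ⟨rfl, hfl lk⟩) x hx
  | G φ d lk h =>
    refine key2 _ _ rfl ?_ x hx
    by_cases hφ : φ = 0
    · subst hφ
      exact Or.inl ⟨rfl, hfl lk⟩
    · right
      rw [cur_ne_i hφ]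
      exact ⟨by simp [EK.idle, hφ], rfl⟩
  | K φ d =>
    refine key φ _ (Or.inl rfl) _ ?_ x hx
    intro ht; rw [hmark_cur_i, if_neg (tz_H_of φ ht).1]
  | C φ d =>
    refine key φ _ (Or.inr (Or.inl rfl)) _ ?_ x hx
    intro ht; rw [hmark_cur_i, if_neg (tz_H_of φ ht).1]
  | D φ d =>
    refine key φ _ (Or.inr (Or.inl rfl)) _ ?_ x hx
    intro ht; rw [hmark_nxt_i, if_neg (tz_H_of φ ht).2]
  | P φ d =>
    refine key φ _ (Or.inr (Or.inr rfl)) _ ?_ x hx
    intro ht; rw [hmark_nxt_i, if_neg (tz_H_of φ ht).2]
  | R φ d lk h =>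
    refine key2 _ _ rfl ?_ x hx
    by_cases hφ : φ = 10
    · subst hφ
      exact Or.inl ⟨rfl, hfl lk⟩
    · right
      unfold nxt
      rw [if_neg hφ]
      exact ⟨by simp [EK.idle, hφ], rfl⟩
  | Ti t b lk h => exact key2 _ _ rfl (Or.inl ⟨rfl, hfl lk⟩) x hx
  | Tb t b φ d hφ h => exact key2 _ _ rfl (Or.inr ⟨rfl, rfl⟩) x hx

end Crest.Agent.R176.Machine
private theorem rz_6e350ac2b5 : type_of% @_root_.Crest.Agent.R176.Machine.letT.eq_1 := @_root_.Crest.Agent.R176.Machine.letT.eq_1 -- L577
end

-- ▼ part R176/Machine/ConfIn291B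
section

/-!
# Row 176, part A, block (5B-IN): the head and the next unpassed letter (helper291)
-/

set_option autoImplicit false
set_option linter.unusedSectionVars false
set_option linter.unusedSimpArgs false
set_option linter.unusedVariables false

namespace Crest.Agent.R176.Machine

variable {Λ : Type} [DecidableEq Λ] [LabelSys Λ] [Fintype Λ]

/-! ### the head and the next unpassed letter -/

theorem passable_congr {e e' : EK} {b b' : Λ} (h1 : e'.moving = true)
    (h2 : e'.target = e.target) (h3 : e.target ≠ some .X) {x : BK × Λ}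
    (h : Passable e b x) : Passable e' b' x := by
  obtain ⟨-, -, h4⟩ := h
  refine ⟨h1, ?_, ?_⟩
  · intro h5; rw [h2] at h5; exact absurd h5 h3
  · intro _; rw [h2]; exact h4 h3

theorem not_passable {e : EK} {b : Λ} {x : BK × Λ} (h : ¬ Passable e b x)
    (hm : e.moving = true) (ht : e.target ≠ some .X) : e.target = some x.1.ty := by
  by_contra hne
  exact h ⟨hm, fun h4 => absurd h4 ht, fun _ => hne⟩

theorem own_eb_forward {c : Cont Λ} {st : Option (Ph × Data)} {lk : Bool} {w : WK} {a : Λ}
    {e : EK} {b : Λ} {o : Option TT} (h : Own c st lk w a e b o) {x : BK × Λ}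
    {s : Multiset (BK × Λ)} (hx : x ::ₘ s = bagM c (hmark st lk) o) (hp : ¬ Passable e b x) :
    ∃ e' b' x' o', step (.E e, b) (bg true x) = some ((.E e', b'), bg true x') ∧
      Own c st lk w a e' b' o' ∧ x' ::ₘ s = bagM c (hmark st lk) o' ∧
      ∀ y, Passable e b y → Passable e' b' y := by
  have hmem : x ∈ bagM c (hmark st lk) o := by rw [← hx]; exact Multiset.mem_cons_self _ _
  have hc := cons_of_mem h hmem
  have hst := step_eb_not hc hp
  -- nothing happens
  have same : step (.E e, b) (bg true x) = some ((.E e, b), bg true x) →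
      ∃ e' b' x' o', step (.E e, b) (bg true x) = some ((.E e', b'), bg true x') ∧
      Own c st lk w a e' b' o' ∧ x' ::ₘ s = bagM c (hmark st lk) o' ∧
      ∀ y, Passable e b y → Passable e' b' y :=
    fun hs => ⟨e, b, x, o, hs, h, hx, fun _ hy => hy⟩
  cases h with
  | rest lk => exact same (by rw [hst]; simp [EK.moving, EK.target])
  | G φ d lk h =>
    have hm : (EK.G φ).moving = true := rfl
    have ht : (EK.G φ).target ≠ some .X := by
      show some (tz φ) ≠ some .X
      simpa using tz_ne φ
    have hty := not_passable hp hm ht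
    have hty' : x.1.ty = tz φ := by
      have : some (tz φ) = some x.1.ty := hty
      simpa using this.symm
    have hxe : x = letT c (hmark (cur φ d) lk) (tz φ) none := by
      rw [← hty']; exact mem_ty hmem (by rw [hty']; exact tz_ne φ)
    rw [if_pos ⟨hm, ht⟩] at hst
    cases lk with
    | true =>
      have hφ := h rfl
      subst hφ
      have hx1 : x = (.H .l, c.h) := hxe
      subst hx1
      exact same (by rw [hst]; simp [ruleTgt, Rule.stay, RD.eval, AC.eval, bg])
    | false =>
      have hl : ¬ (φ = 0 ∧ x.1 = .H .l) := by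
        rintro ⟨rfl, h2⟩
        have hx1 : x = (.H .f, c.h) := hxe
        rw [hx1] at h2
        simp at h2
      have hs : step (.E (.G φ), z) (bg true x) =
          some ((.E (.K φ), x.2), bg true (x.1.out, z)) := by
        rw [hst]
        simp only [ruleTgt, if_neg hl]
        simp [RD.eval, AC.eval, bg]
      have hx2 : x.2 = c.get (tz φ) := by
        rw [hxe]
        cases ht2 : tz φ with
        | X => exact absurd ht2 (tz_ne φ)
        | H => rfl
        | Y j => rfl
      have hx3 : (x.1.out, (z : Λ)) = letT c (hmark (cur φ d) false) (tz φ) (some (tz φ)) := by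
        rw [hxe]
        cases ht2 : tz φ with
        | X => exact absurd ht2 (tz_ne φ)
        | H => simp [letT, letH, BK.out]
        | Y j => simp [letT, letY, BK.out]
      refine ⟨.K φ, x.2, (x.1.out, z), some (tz φ), hs, ?_, ?_, ?_⟩
      · rw [hx2]; exact Own.K φ d
      · rw [hx3, ← bagM_replace (tz_ne φ), ← hxe]; exact hx
      · intro y hy; exact passable_congr rfl rfl ht hy
  | K φ d =>
    have hm : (EK.K φ).moving = true := rfl
    have ht : (EK.K φ).target ≠ some .X := by
      show some (tz φ) ≠ some .X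
      simpa using tz_ne φ
    have hty' : x.1.ty = tz φ := by
      have : some (tz φ) = some x.1.ty := not_passable hp hm ht
      simpa using this.symm
    have hxe : x = letT c (hmark (cur φ d) false) (tz φ) (some (tz φ)) := by
      rw [← hty']
      have := mem_ty hmem (by rw [hty']; exact tz_ne φ)
      rw [hty'] at this ⊢
      exact this
    have hx2 : x.2 = z := by
      rw [hxe]
      cases ht2 : tz φ with
      | X => exact absurd ht2 (tz_ne φ)
      | H => simp [letT, letH]
      | Y j => simp [letT, letY]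
    refine same ?_
    rw [hst, if_pos ⟨hm, ht⟩]
    simp [ruleTgt, RD.eval, AC.eval, hx2, bg]
  | C φ d => exact same (by rw [hst]; simp [EK.moving, EK.target])
  | D φ d => exact same (by rw [hst]; simp [EK.moving, EK.target])
  | P φ d =>
    have hm : (EK.P φ).moving = true := rfl
    have ht : (EK.P φ).target ≠ some .X := by
      show some (tz φ) ≠ some .X
      simpa using tz_ne φ
    have hty' : x.1.ty = tz φ := by
      have : some (tz φ) = some x.1.ty := not_passable hp hm ht
      simpa using this.symm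
    have hxe : x = letT c (hmark (nxt φ d) false) (tz φ) (some (tz φ)) := by
      have := mem_ty hmem (by rw [hty']; exact tz_ne φ)
      rw [hty'] at this
      exact this
    have hx2 : x.2 = z := by
      rw [hxe]
      cases ht2 : tz φ with
      | X => exact absurd ht2 (tz_ne φ)
      | H => simp [letT, letH]
      | Y j => simp [letT, letY]
    have hs : step (.E (.P φ), c.get (tz φ)) (bg true x) =
        some ((.E (.R φ), z), bg true (x.1.inn φ, c.get (tz φ))) := by
      rw [hst, if_pos ⟨hm, ht⟩]
      simp [ruleTgt, RD.eval, AC.eval, hx2, bg]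
    have hx3 : (x.1.inn φ, c.get (tz φ)) = letT c (hmark (nxt φ d) false) (tz φ) none := by
      rw [hxe, hmark_nxt_i]
      cases ht2 : tz φ with
      | X => exact absurd ht2 (tz_ne φ)
      | H =>
        by_cases hφ : φ = 10
        · simp [letT, letH, BK.inn, Cont.get, hφ]
        · simp [letT, letH, BK.inn, Cont.get, hφ]
      | Y j => simp [letT, letY, BK.inn]
    refine ⟨.R φ, z, (x.1.inn φ, c.get (tz φ)), none, hs, ?_, ?_, ?_⟩
    · exact Own.R φ d false (by simp)
    · rw [hx3, bagM_replace (tz_ne φ), ← hxe]; exact hx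
    · intro y hy; exact passable_congr rfl rfl ht hy
  | R φ d lk h =>
    have hm : (EK.R φ).moving = true := rfl
    have ht : (EK.R φ).target ≠ some .X := by
      show some (tz φ) ≠ some .X
      simpa using tz_ne φ
    refine same ?_
    rw [hst, if_pos ⟨hm, ht⟩]
    simp [ruleTgt, RD.eval, AC.eval, bg]
  | Ti t b lk h =>
    refine same ?_
    rw [hst]
    by_cases hq : (EK.T t false).moving = true ∧ (EK.T t false).target ≠ some .X
    · rw [if_pos hq]; simp [ruleTgt, Rule.stay, RD.eval, AC.eval, bg]
    · rw [if_neg hq]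
  | Tb t b φ d hφ h =>
    refine same ?_
    rw [hst]
    by_cases hq : (EK.T t true).moving = true ∧ (EK.T t true).target ≠ some .X
    · rw [if_pos hq]; simp [ruleTgt, Rule.stay, RD.eval, AC.eval, bg]
    · rw [if_neg hq]

/-- backward: the letter `x'` after the head `(e', b')` -/
theorem own_eb_backward {c : Cont Λ} {st : Option (Ph × Data)} {lk : Bool} {w : WK} {a : Λ}
    {e' : EK} {b' : Λ} {o' : Option TT} (h : Own c st lk w a e' b' o') {x' : BK × Λ}
    {s : Multiset (BK × Λ)} (hx : x' ::ₘ s = bagM c (hmark st lk) o')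
    {e : EK} {b : Λ} {x : BK × Λ}
    (hs : step (.E e, b) (bg true x) = some ((.E e', b'), bg true x')) :
    ∃ o, Own c st lk w a e b o ∧ x ::ₘ s = bagM c (hmark st lk) o ∧
      ∀ y, Passable e' b' y → Passable e b y := by
  have hmem : x' ∈ bagM c (hmark st lk) o' := by rw [← hx]; exact Multiset.mem_cons_self _ _
  have hc : cons e x.1 = true := (step_eb_some (x := x) hs).2
  have hp : ¬ Passable e b x := by
    intro hp
    rw [step_eb_pass hc hp] at hs
    simp [bg] at hs
  -- nothing happened
  have same : e' = e → b' = b → x' = x →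
      ∃ o, Own c st lk w a e b o ∧ x ::ₘ s = bagM c (hmark st lk) o ∧
      ∀ y, Passable e' b' y → Passable e b y := by
    rintro rfl rfl rfl
    exact ⟨o', h, hx, fun _ hy => hy⟩
  rw [step_eb_not hc hp] at hs
  by_cases hq : e.moving = true ∧ e.target ≠ some .X
  swap
  · rw [if_neg hq] at hs
    simp only [Option.some.injEq, Prod.mk.injEq, KK.E.injEq, bg, KK.bag.injEq, true_and] at hs
    exact same hs.1.1.symm hs.1.2.symm (Prod.ext hs.2.1.symm hs.2.2.symm)
  rw [if_pos hq] at hs
  obtain ⟨hm, ht⟩ := hq
  have hty := not_passable hp hm ht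
  cases e with
  | home => simp [EK.moving, EK.target] at hm
  | N φ => simp [EK.moving, EK.target] at hm
  | G φ =>
    have hty' : x.1.ty = tz φ := by
      have : some (tz φ) = some x.1.ty := hty
      simpa using this.symm
    by_cases hl : φ = 0 ∧ x.1 = .H .l
    · simp only [ruleTgt, if_pos hl, Rule.stay, RD.eval, AC.eval, Bool.false_eq_true, if_false,
        Option.map_some, Option.bind_some, Option.some.injEq, Prod.mk.injEq, KK.E.injEq, bg,
        KK.bag.injEq, true_and] at hs
      exact same hs.1.1.symm hs.1.2.symm (Prod.ext hs.2.1.symm hs.2.2.symm)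
    · simp only [ruleTgt, if_neg hl] at hs
      by_cases hb : b = z
      · subst hb
        simp only [RD.eval, AC.eval, ne_eq, not_true_eq_false, decide_false, Bool.false_eq_true,
          if_false, Option.map_some, Option.bind_some, Option.some.injEq, Prod.mk.injEq,
          KK.E.injEq, bg, KK.bag.injEq, true_and] at hs
        obtain ⟨⟨rfl, hx2b⟩, hx1, hx2⟩ := hs
        have hx' : x' = (x.1.out, z) := Prod.ext hx1.symm hx2.symm
        cases h with
        | K _ d =>
          have hxe : x = letT c (hmark (cur φ d) false) (tz φ) none := by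
            rw [hmark_cur_i]
            cases ht2 : tz φ with
            | X => exact absurd ht2 (tz_ne φ)
            | H =>
              rw [ht2] at hty'
              have h2 : x.2 = c.h := by rw [hx2b, ht2]; rfl
              cases hx3 : x.1 with
              | X => rw [hx3] at hty'; simp [BK.ty] at hty'
              | Y j o => rw [hx3] at hty'; simp [BK.ty] at hty'
              | H mm =>
                rw [hx3] at hc hl
                have h4 : mm = if φ = 0 then .f else .b := by
                  by_cases hφ : φ = 0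
                  · subst hφ
                    simp [cons, EK.idle] at hc hl
                    rcases hc with rfl | rfl
                    · rfl
                    · exact absurd rfl hl
                  · simpa [cons, EK.idle, EK.outPh, hφ] using hc
                simp only [letT, letH]
                rw [← h4, ← h2, ← hx3]
                simp
            | Y j =>
              rw [ht2] at hty'
              have h2 : x.2 = c.get (.Y j) := by rw [hx2b, ht2]
              cases hx3 : x.1 with
              | X => rw [hx3] at hty'; simp [BK.ty] at hty'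
              | H mm => rw [hx3] at hty'; simp [BK.ty] at hty'
              | Y j' o =>
                rw [hx3] at hty' hc
                simp only [BK.ty, TT.Y.injEq] at hty'
                subst hty'
                have h4 : o = false := by
                  cases o with
                  | false => rfl
                  | true => simp [cons, EK.outPh] at hc
                subst h4
                simp only [letT, letY]
                rw [← h2, ← hx3]
                simp
          refine ⟨none, Own.G φ d false (by simp), ?_, ?_⟩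
          · have hx3 : x' = letT c (hmark (cur φ d) false) (tz φ) (some (tz φ)) := by
              rw [hx', hxe]
              cases ht2 : tz φ with
              | X => exact absurd ht2 (tz_ne φ)
              | H => simp [letT, letH, BK.out]
              | Y j => simp [letT, letY, BK.out]
            rw [hxe, bagM_replace (tz_ne φ), ← hx3]; exact hx
          · intro y hy
            exact passable_congr rfl rfl ht hy
      · simp [RD.eval, hb] at hs
  | K φ =>
    simp only [ruleTgt] at hs
    by_cases h2 : x.2 = z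
    · simp only [RD.eval, AC.eval, h2, ne_eq, not_true_eq_false, decide_false,
        Bool.false_eq_true, if_false, Option.map_some, Option.bind_some, Option.some.injEq,
        Prod.mk.injEq, KK.E.injEq, bg, KK.bag.injEq, true_and] at hs
      exact same hs.1.1.symm hs.1.2.symm (Prod.ext hs.2.1.symm (by rw [← hs.2.2, h2]))
    · simp [RD.eval, h2] at hs
  | P φ =>
    have hty' : x.1.ty = tz φ := by
      have : some (tz φ) = some x.1.ty := hty
      simpa using this.symm
    simp only [ruleTgt] at hs
    by_cases h2 : x.2 = z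
    · simp only [RD.eval, AC.eval, h2, ne_eq, not_true_eq_false, decide_false,
        Bool.false_eq_true, if_false, Option.map_some, Option.bind_some, Option.some.injEq,
        Prod.mk.injEq, KK.E.injEq, bg, KK.bag.injEq, true_and] at hs
      obtain ⟨⟨rfl, hb'⟩, hx1, hx2⟩ := hs
      cases h with
      | R _ d lk hlk =>
        have hx'm := mem_ty hmem
        -- the letter x
        have hxty' : x'.1.ty = tz φ := by
          rw [← hx1, ← hty']
          cases hx3 : x.1 with
          | X => rfl
          | H mm => simp only [BK.inn]; split_ifs <;> rfl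
          | Y j o => rfl
        have hx'e : x' = letT c (hmark (nxt φ d) lk) (tz φ) none := by
          have := hx'm (by rw [hxty']; exact tz_ne φ)
          rw [hxty'] at this
          exact this
        have hlk0 : lk = false ∧ b = c.get (tz φ) ∧
            x = letT c (hmark (nxt φ d) lk) (tz φ) (some (tz φ)) := by
          cases ht2 : tz φ with
          | X => exact absurd ht2 (tz_ne φ)
          | H =>
            rw [ht2] at hty' hx'e
            cases hx3 : x.1 with
            | X => rw [hx3] at hty'; simp [BK.ty] at hty'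
            | Y j o => rw [hx3] at hty'; simp [BK.ty] at hty'
            | H mm =>
              rw [hx3] at hc hx1
              have h4 : mm = .o := by simpa [cons, EK.idle, EK.outPh, ht2] using hc
              subst h4
              simp only [letT, letH] at hx'e
              rw [if_neg (by simp)] at hx'e
              have hb2 : b = c.h := by rw [hx2, hx'e]
              have hxx : x = (.H .o, z) := by rw [← hx3, ← h2]
              have hlk0 : lk = false := by
                cases lk with
                | false => rfl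
                | true =>
                  have hφ := hlk rfl
                  subst hφ
                  exfalso
                  rw [hx'e] at hx1
                  simp [BK.inn, nxt, hmark] at hx1
              refine ⟨hlk0, by rw [hb2]; rfl, ?_⟩
              rw [hxx]; simp [letT, letH]
          | Y j =>
            rw [ht2] at hty' hx'e
            have hφ := (tz_H_of φ (by rw [ht2]; simp)).2
            cases hx3 : x.1 with
            | X => rw [hx3] at hty'; simp [BK.ty] at hty'
            | H mm => rw [hx3] at hty'; simp [BK.ty] at hty'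
            | Y j' o =>
              rw [hx3] at hty' hc
              simp only [BK.ty, TT.Y.injEq] at hty'
              subst hty'
              have h4 : o = true := by simpa [cons, EK.outPh, ht2] using hc
              subst h4
              simp only [letT, letY] at hx'e
              rw [if_neg (by simp)] at hx'e
              have hb2 : b = c.get (.Y j') := by rw [hx2, hx'e]
              have hxx : x = (.Y j' true, z) := by rw [← hx3, ← h2]
              refine ⟨?_, hb2, ?_⟩
              · cases lk with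
                | false => rfl
                | true => exact absurd (hlk rfl) hφ
              · rw [hxx]; simp [letT, letY]
        obtain ⟨rfl, hb2, hxe⟩ := hlk0
        refine ⟨some (tz φ), ?_, ?_, ?_⟩
        · rw [hb2]; exact Own.P φ d
        · rw [hxe, ← bagM_replace (tz_ne φ), ← hx'e]; exact hx
        · intro y hy
          exact passable_congr rfl rfl ht hy
    · simp [RD.eval, h2] at hs
  | R φ =>
    simp only [ruleTgt] at hs
    by_cases h2 : b = z
    · simp only [RD.eval, AC.eval, h2, ne_eq, not_true_eq_false, decide_false,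
        Bool.false_eq_true, if_false, Option.map_some, Option.bind_some, Option.some.injEq,
        Prod.mk.injEq, KK.E.injEq, bg, KK.bag.injEq, true_and] at hs
      exact same hs.1.1.symm (by rw [← hs.1.2, h2]) (Prod.ext hs.2.1.symm hs.2.2.symm)
    · simp [RD.eval, h2] at hs
  | T t busy =>
    simp only [ruleTgt, Rule.stay, RD.eval, AC.eval, Bool.false_eq_true, if_false,
      Option.map_some, Option.bind_some, Option.some.injEq, Prod.mk.injEq, KK.E.injEq, bg,
      KK.bag.injEq, true_and] at hs
    exact same hs.1.1.symm hs.1.2.symm (Prod.ext hs.2.1.symm hs.2.2.symm)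

end Crest.Agent.R176.Machine
end

-- ▼ part R176/Machine/ConfIn291
section

/-!
# Row 176, part A, block (5B-IN): moves inside one block (helper291)

`conf_step_ne_none`, `conf_forward`, `conf_backward`.
-/

set_option autoImplicit false
set_option linter.unusedSectionVars false
set_option linter.unusedSimpArgs false
set_option linter.unusedVariables false

namespace Crest.Agent.R176.Machine

variable {Λ : Type} [DecidableEq Λ] [LabelSys Λ] [Fintype Λ]

/-! ### splitting the word of a block at an adjacent pair -/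

/-- adjacent pairs in the word of a block -/
inductive Split (w : WK) (a : Λ) (P : List (BK × Λ)) (e : EK) (b : Λ) (U : List (BK × Λ)) :
    List (Let Λ) → List (Let Λ) → Let Λ → Let Λ → Prop
  | WE (h : P = []) : Split w a P e b U [] (U.map (bg true)) (.W w, a) (.E e, b)
  | WB (x : BK × Λ) (P' : List (BK × Λ)) (h : P = x :: P') :
      Split w a P e b U [] (P'.map (bg false) ++ (.E e, b) :: U.map (bg true)) (.W w, a)
        (bg false x)
  | PP (P1 : List (BK × Λ)) (x y : BK × Λ) (P2 : List (BK × Λ)) (h : P = P1 ++ x :: y :: P2) :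
      Split w a P e b U ((.W w, a) :: P1.map (bg false))
        (P2.map (bg false) ++ (.E e, b) :: U.map (bg true)) (bg false x) (bg false y)
  | PE (P1 : List (BK × Λ)) (x : BK × Λ) (h : P = P1 ++ [x]) :
      Split w a P e b U ((.W w, a) :: P1.map (bg false)) (U.map (bg true)) (bg false x) (.E e, b)
  | EU (x : BK × Λ) (U' : List (BK × Λ)) (h : U = x :: U') :
      Split w a P e b U ((.W w, a) :: P.map (bg false)) (U'.map (bg true)) (.E e, b) (bg true x)
  | UU (U1 : List (BK × Λ)) (x y : BK × Λ) (U2 : List (BK × Λ)) (h : U = U1 ++ x :: y :: U2) :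
      Split w a P e b U ((.W w, a) :: (P.map (bg false) ++ (.E e, b) :: U1.map (bg true)))
        (U2.map (bg true)) (bg true x) (bg true y)

theorem pair_append {α : Type} {p q l1 l2 : List α} {x y : α} (h : l1 ++ l2 = p ++ x :: y :: q) :
    (∃ q', l1 = p ++ x :: y :: q' ∧ q = q' ++ l2) ∨ (l1 = p ++ [x] ∧ l2 = y :: q) ∨
      (∃ p', l2 = p' ++ x :: y :: q ∧ p = l1 ++ p') := by
  rcases List.append_eq_append_iff.1 h with ⟨c, h1, h2⟩ | ⟨c, h1, h2⟩
  · exact Or.inr (Or.inr ⟨c, h2, h1⟩)
  · cases c with
    | nil =>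
      right; right
      refine ⟨[], ?_, ?_⟩
      · simpa using h2.symm
      · simpa using h1.symm
    | cons x' c =>
      simp only [List.cons_append, List.cons.injEq] at h2
      obtain ⟨rfl, h2⟩ := h2
      cases c with
      | nil =>
        right; left
        simp only [List.nil_append] at h2
        exact ⟨h1, h2.symm⟩
      | cons y' c =>
        left
        simp only [List.cons_append, List.cons.injEq] at h2
        obtain ⟨rfl, h2⟩ := h2
        exact ⟨c, h1, h2⟩

theorem pair_map {α β : Type} {f : α → β} {l : List α} {p q : List β} {x y : β}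
    (h : l.map f = p ++ x :: y :: q) :
    ∃ l1 x0 y0 l2, l = l1 ++ x0 :: y0 :: l2 ∧ l1.map f = p ∧ f x0 = x ∧ f y0 = y ∧
      l2.map f = q := by
  obtain ⟨l1, l', rfl, h1, h2⟩ := List.map_eq_append_iff.1 h
  obtain ⟨x0, l'', rfl, h3, h4⟩ := List.map_eq_cons_iff.1 h2
  obtain ⟨y0, l2, rfl, h5, h6⟩ := List.map_eq_cons_iff.1 h4
  exact ⟨l1, x0, y0, l2, rfl, h1, h3, h5, h6⟩

theorem split_bword {w : WK} {a : Λ} {P : List (BK × Λ)} {e : EK} {b : Λ}
    {U : List (BK × Λ)} {p q : List (Let Λ)} {x y : Let Λ}
    (h : bword w a P e b U = p ++ x :: y :: q) : Split w a P e b U p q x y := by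
  unfold bword at h
  have h' : [((KK.W w, a) : Let Λ)] ++ (P.map (bg false) ++ (.E e, b) :: U.map (bg true)) =
      p ++ x :: y :: q := h
  rcases pair_append h' with ⟨q', h1, h2⟩ | ⟨h1, h2⟩ | ⟨p', h1, h2⟩
  · exfalso
    have := congrArg List.length h1
    simp at this
    omega
  · have hp : p = [] ∧ x = (KK.W w, a) := by
      cases p with
      | nil => simpa using h1.symm
      | cons u v =>
        exfalso
        have := congrArg List.length h1
        simp at this
    obtain ⟨rfl, rfl⟩ := hp
    cases P with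
    | nil =>
      simp only [List.map_nil, List.nil_append, List.cons.injEq] at h2
      obtain ⟨rfl, rfl⟩ := h2
      exact Split.WE rfl
    | cons x0 P' =>
      simp only [List.map_cons, List.cons_append, List.cons.injEq] at h2
      obtain ⟨rfl, rfl⟩ := h2
      exact Split.WB x0 P' rfl
  · subst h2
    rcases pair_append h1 with ⟨q', h3, rfl⟩ | ⟨h3, h4⟩ | ⟨p'', h3, rfl⟩
    · obtain ⟨l1, x0, y0, l2, rfl, rfl, rfl, rfl, rfl⟩ := pair_map h3
      exact Split.PP l1 x0 y0 l2 rfl
    · simp only [List.cons.injEq] at h4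
      obtain ⟨rfl, rfl⟩ := h4
      obtain ⟨l1, l', rfl, rfl, h5⟩ := List.map_eq_append_iff.1 h3
      obtain ⟨x0, l'', rfl, rfl, h7⟩ := List.map_eq_cons_iff.1 h5
      have : l'' = [] := by simpa using h7
      subst this
      exact Split.PE l1 x0 rfl
    · cases p'' with
      | nil =>
        simp only [List.nil_append, List.cons.injEq] at h3
        obtain ⟨rfl, h4⟩ := h3
        obtain ⟨x0, U', rfl, rfl, rfl⟩ := List.map_eq_cons_iff.1 h4
        simp only [List.append_nil]
        exact Split.EU x0 U' rfl
      | cons u v =>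
        simp only [List.cons_append, List.cons.injEq] at h3
        obtain ⟨rfl, h4⟩ := h3
        obtain ⟨l1, x0, y0, l2, rfl, rfl, rfl, rfl, rfl⟩ := pair_map h4
        exact Split.UU l1 x0 y0 l2 rfl

theorem coe_mid (P1 P2 : List (BK × Λ)) (x y : BK × Λ) (U : List (BK × Λ)) :
    (((P1 ++ x :: y :: P2) ++ U : List (BK × Λ)) : Multiset (BK × Λ)) =
      x ::ₘ y ::ₘ ((P1 ++ P2 ++ U : List (BK × Λ)) : Multiset (BK × Λ)) := by
  simp only [← Multiset.coe_add, ← Multiset.cons_coe]
  simp only [Multiset.add_cons, Multiset.cons_add, Multiset.cons_swap]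

theorem coe_mid' (P : List (BK × Λ)) (U1 U2 : List (BK × Λ)) (x y : BK × Λ) :
    ((P ++ (U1 ++ x :: y :: U2) : List (BK × Λ)) : Multiset (BK × Λ)) =
      x ::ₘ y ::ₘ ((P ++ (U1 ++ U2) : List (BK × Λ)) : Multiset (BK × Λ)) := by
  simp only [← Multiset.coe_add, ← Multiset.cons_coe]
  simp only [Multiset.add_cons, Multiset.cons_add, Multiset.cons_swap]

theorem coe_one (P U : List (BK × Λ)) (x : BK × Λ) :
    ((P ++ x :: U : List (BK × Λ)) : Multiset (BK × Λ)) =
      x ::ₘ ((P ++ U : List (BK × Λ)) : Multiset (BK × Λ)) := by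
  simp only [← Multiset.coe_add, ← Multiset.cons_coe, Multiset.add_cons]

/-! ### the theorems -/

/-- walls next to a passed letter -/
theorem own_moving {c : Cont Λ} {st : Option (Ph × Data)} {lk : Bool} {w : WK} {a : Λ}
    {e : EK} {b : Λ} {o : Option TT} (h : Own c st lk w a e b o) (hm : e.moving = true) :
    w ≠ .w0 ∧ (∀ φ d, w ≠ .C φ d) ∧ (∀ φ d, w ≠ .D φ d) := by
  cases h <;> simp [EK.moving, EK.target] at hm ⊢

/-- (O1) + (O2) -/
theorem conf_forward_aux {s : BSt Λ} {p q : List (Let Λ)} {x y : Let Λ}
    (h : Conf s (p ++ x :: y :: q)) :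
    ∃ x' y', step x y = some (x', y') ∧ Conf s (p ++ x' :: y' :: q) := by
  obtain ⟨w, a, e, b, o, P, U, hB, hO, hM, hP⟩ := h
  have hS := split_bword hB.symm
  cases hS with
  | WE hP0 =>
    subst hP0
    obtain ⟨w', a', e', b', hs, hO'⟩ := own_we_forward hO
    exact ⟨_, _, hs, w', a', e', b', o, [], U, rfl, hO', hM, by simp⟩
  | WB x0 P' hP0 =>
    subst hP0
    have hm : e.moving = true := (hP x0 (by simp)).1
    refine ⟨(.W w, a), bg false x0, ?_, w, a, e, b, o, x0 :: P', U, rfl, hO, hM, hP⟩
    rw [step_wb, if_pos ⟨rfl, own_moving hO hm⟩]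
  | PP P1 x0 y0 P2 hP0 =>
    subst hP0
    have hM' := hM
    rw [coe_mid] at hM'
    have hcl := cl_ne hM'
    refine ⟨bg false y0, bg false x0, ?_, w, a, e, b, o, P1 ++ y0 :: x0 :: P2, U, ?_, hO, ?_, ?_⟩
    · rw [step_bb, if_pos ⟨rfl, hcl⟩]
    · simp [bword]
    · rw [coe_mid, Multiset.cons_swap]; exact hM'
    · intro x hx
      apply hP
      simp only [List.mem_append, List.mem_cons] at hx ⊢
      tauto
  | PE P1 x0 hP0 =>
    subst hP0
    have hx0 : x0 ∈ bagM s.c (hmark s.st s.lk) o := by
      rw [← hM]; simp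
    refine ⟨bg false x0, (.E e, b), ?_, w, a, e, b, o, P1 ++ [x0], U, ?_, hO, hM, hP⟩
    · exact step_be_pass (cons_of_mem hO hx0) (hP x0 (by simp))
    · simp [bword]
  | EU x0 U' hU0 =>
    subst hU0
    have hM' := hM
    rw [coe_one] at hM'
    have hx0 : x0 ∈ bagM s.c (hmark s.st s.lk) o := by
      rw [← hM]; simp
    have hc := cons_of_mem hO hx0
    by_cases hp : Passable e b x0
    · refine ⟨_, _, step_eb_pass hc hp, w, a, e, b, o, P ++ [x0], U', ?_, hO, ?_, ?_⟩
      · simp [bword]
      · rw [← hM]; simp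
      · intro x hx
        simp only [List.mem_append, List.mem_singleton] at hx
        rcases hx with hx | rfl
        · exact hP x hx
        · exact hp
    · obtain ⟨e', b', x', o', hs, hO', hM2, hpass⟩ := own_eb_forward hO hM' hp
      refine ⟨_, _, hs, w, a, e', b', o', P, x' :: U', ?_, hO', ?_, ?_⟩
      · simp [bword]
      · rw [coe_one]; exact hM2
      · intro x hx; exact hpass x (hP x hx)
  | UU U1 x0 y0 U2 hU0 =>
    subst hU0
    have hM' := hM
    rw [coe_mid'] at hM'
    have hcl := cl_ne hM'
    refine ⟨bg true y0, bg true x0, ?_, w, a, e, b, o, P, U1 ++ y0 :: x0 :: U2, ?_, hO, ?_, hP⟩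
    · rw [step_bb, if_pos ⟨rfl, hcl⟩]
    · simp [bword]
    · rw [coe_mid', Multiset.cons_swap]; exact hM'

/-- no zero pair inside a block -/
theorem conf_step_ne_none {s : BSt Λ} {p q : List (Let Λ)} {x y : Let Λ}
    (h : Conf s (p ++ x :: y :: q)) : step x y ≠ none := by
  obtain ⟨x', y', hs, -⟩ := conf_forward_aux h
  rw [hs]; simp

/-- a move inside a block, forward -/
theorem conf_forward {s : BSt Λ} {p q : List (Let Λ)} {x y x' y' : Let Λ}
    (h : Conf s (p ++ x :: y :: q)) (hs : step x y = some (x', y')) :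
    Conf s (p ++ x' :: y' :: q) := by
  obtain ⟨x1, y1, hs1, h1⟩ := conf_forward_aux h
  rw [hs] at hs1
  simp only [Option.some.injEq, Prod.mk.injEq] at hs1
  obtain ⟨rfl, rfl⟩ := hs1
  exact h1

/-- result `(W, bag)` -/
theorem from_wb {x y : Let Λ} {w : WK} {a : Λ} {s : Bool} {t : BK × Λ}
    (hs : step x y = some ((.W w, a), bg s t)) : x = (.W w, a) ∧ y = bg s t := by
  obtain ⟨κ, a'⟩ := x
  obtain ⟨κ', b'⟩ := y
  cases κ with
  | bag s x =>
    cases κ' with
    | bag t y =>
      have := step_bb s t (x, a') (y, b')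
      unfold bg at this
      rw [this] at hs
      split_ifs at hs
      simp at hs
    | E e =>
      have := (step_be s (x, a') e b' _ hs).1
      simp [bg] at this
    | W w =>
      obtain ⟨⟨x', h1⟩, -⟩ := step_bw_kind hs
      simp at h1
  | E e =>
    cases κ' with
    | bag t y =>
      rcases step_eb_kind hs with ⟨⟨x', h1⟩, -⟩ | ⟨⟨x', h1⟩, -⟩ <;> simp at h1
    | E e => rw [step_ee] at hs; simp at hs
    | W w => rw [step_ew] at hs; simp at hs
  | W w =>
    cases κ' with
    | bag t y =>
      have := step_wb w a' t (y, b')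
      unfold bg at this hs
      rw [this] at hs
      split_ifs at hs
      simp only [Option.some.injEq, Prod.mk.injEq, KK.W.injEq, KK.bag.injEq] at hs
      obtain ⟨⟨rfl, rfl⟩, ⟨rfl, rfl⟩, rfl⟩ := hs
      exact ⟨rfl, rfl⟩
    | E e =>
      exfalso
      have h1 := step_shape hs
      simp only [rule] at h1
      revert h1
      cases w <;> cases e <;> simp only [ruleWE, Rule.zero, bg] <;> (try split_ifs) <;> simp
    | W w => rw [step_ww] at hs; simp at hs

/-- result `(bag, bag)` -/
theorem from_bb {x y : Let Λ} {s t : Bool} {u v : BK × Λ}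
    (hs : step x y = some (bg s u, bg t v)) :
    s = t ∧ x = bg s v ∧ y = bg t u ∧ cl v ≠ cl u := by
  obtain ⟨κ, a'⟩ := x
  obtain ⟨κ', b'⟩ := y
  cases κ with
  | bag s' x =>
    cases κ' with
    | bag t' y =>
      have := step_bb s' t' (x, a') (y, b')
      unfold bg at this hs
      rw [this] at hs
      split_ifs at hs with h
      simp only [Option.some.injEq, Prod.mk.injEq, KK.bag.injEq] at hs
      obtain ⟨⟨⟨rfl, h2⟩, h3⟩, ⟨h4, h5⟩, h6⟩ := hs
      obtain ⟨rfl, hcl⟩ := h
      have e1 : u = (y, b') := Prod.ext h2.symm h3.symm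
      have e2 : v = (x, a') := Prod.ext h5.symm h6.symm
      subst e1 e2
      refine ⟨?_, rfl, ?_, hcl⟩
      · exact h4
      · rw [← h4]; rfl
    | E e =>
      have := (step_be s' (x, a') e b' _ hs).1
      simp [bg] at this
    | W w =>
      obtain ⟨-, w', h1⟩ := step_bw_kind hs
      simp [bg] at h1
  | E e =>
    cases κ' with
    | bag t y =>
      rcases step_eb_kind hs with ⟨-, e', h1⟩ | ⟨⟨e', h1⟩, -⟩ <;> simp [bg] at h1
    | E e => rw [step_ee] at hs; simp at hs
    | W w => rw [step_ew] at hs; simp at hs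
  | W w =>
    cases κ' with
    | bag t y =>
      have := step_wb w a' t (y, b')
      unfold bg at this hs
      rw [this] at hs
      split_ifs at hs
      simp at hs
    | E e =>
      exfalso
      have h1 := step_shape hs
      simp only [rule] at h1
      revert h1
      cases w <;> cases e <;> simp only [ruleWE, Rule.zero, bg] <;> (try split_ifs) <;> simp
    | W w => rw [step_ww] at hs; simp at hs

/-- result `(bag, E)` -/
theorem from_be {x y : Let Λ} {s : Bool} {u : BK × Λ} {e : EK} {b : Λ}
    (hs : step x y = some (bg s u, (.E e, b))) :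
    (x = bg s u ∧ y = (.E e, b)) ∨
      (s = false ∧ x = (.E e, b) ∧ y = bg true u ∧ cons e u.1 = true ∧ Passable e b u) := by
  obtain ⟨κ, a'⟩ := x
  obtain ⟨κ', b'⟩ := y
  cases κ with
  | bag s' x =>
    cases κ' with
    | bag t' y =>
      have := step_bb s' t' (x, a') (y, b')
      unfold bg at this hs
      rw [this] at hs
      split_ifs at hs with h
      simp at hs
    | E e' =>
      left
      have := (step_be s' (x, a') e' b' _ hs).1
      simp only [Prod.mk.injEq] at this
      exact ⟨this.1.symm, by rw [Prod.mk.injEq]; exact ⟨this.2.1.symm, this.2.2.symm⟩⟩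
    | W w =>
      obtain ⟨-, w', h1⟩ := step_bw_kind hs
      simp at h1
  | E e' =>
    cases κ' with
    | bag t y =>
      right
      obtain ⟨rfl, hc⟩ := step_eb_some (x := (y, b')) hs
      by_cases hp : Passable e' a' (y, b')
      · have := step_eb_pass hc hp
        have hs' : step (.E e', a') (bg true (y, b')) = some (bg s u, (.E e, b)) := hs
        rw [this] at hs'
        simp only [bg, Option.some.injEq, Prod.mk.injEq, KK.bag.injEq, KK.E.injEq] at hs'
        obtain ⟨⟨⟨h1, h2⟩, h3⟩, rfl, rfl⟩ := hs'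
        have e1 : u = (y, b') := Prod.ext h2.symm h3.symm
        subst e1
        exact ⟨h1.symm, rfl, rfl, hc, hp⟩
      · exfalso
        have h2 := step_eb_not hc hp
        have hs' : step (.E e', a') (bg true (y, b')) = some (bg s u, (.E e, b)) := hs
        rw [h2] at hs'
        by_cases hq : e'.moving = true ∧ e'.target ≠ some .X
        · rw [if_pos hq] at hs'
          have hk : ∀ p, ((ruleTgt e' y).g0 = some p ∨ (ruleTgt e' y).g1 = some p) →
              ∃ e1, p.1 = .E e1 := by
            intro p hp'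
            unfold ruleTgt at hp'
            cases e' <;> simp only [Rule.stay] at hp' <;> (try split_ifs at hp') <;>
              simp at hp' <;> exact ⟨_, by rw [← hp']⟩
          by_cases he : (ruleTgt e' y).rd.eval a' b' = true
          · simp only [he, if_true, Option.map_eq_some_iff] at hs'
            obtain ⟨p, hp1, hp2⟩ := hs'
            obtain ⟨e1, h3⟩ := hk p (Or.inr hp1)
            simp only [Prod.mk.injEq, bg, h3] at hp2
            simp at hp2
          · simp only [he, if_false, Bool.false_eq_true, Option.bind_eq_some_iff,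
              Option.map_eq_some_iff] at hs'
            obtain ⟨p, hp1, q, -, hp2⟩ := hs'
            obtain ⟨e1, h3⟩ := hk p (Or.inl hp1)
            simp only [Prod.mk.injEq, bg, h3] at hp2
            simp at hp2
        · rw [if_neg hq] at hs'
          simp [bg] at hs'
    | E e => rw [step_ee] at hs; simp at hs
    | W w => rw [step_ew] at hs; simp at hs
  | W w =>
    cases κ' with
    | bag t y =>
      have := step_wb w a' t (y, b')
      unfold bg at this hs
      rw [this] at hs
      split_ifs at hs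
      simp at hs
    | E e =>
      exfalso
      have h1 := step_shape hs
      simp only [rule] at h1
      revert h1
      cases w <;> cases e <;> simp only [ruleWE, Rule.zero, bg] <;> (try split_ifs) <;> simp
    | W w => rw [step_ww] at hs; simp at hs

/-- result `(E, bag)` -/
theorem from_eb {x y : Let Λ} {s : Bool} {u : BK × Λ} {e : EK} {b : Λ}
    (hs : step x y = some ((.E e, b), bg s u)) :
    ∃ e' b' u', x = (.E e', b') ∧ y = bg true u' := by
  obtain ⟨κ, a'⟩ := x
  obtain ⟨κ', b'⟩ := y
  cases κ with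
  | bag s' x =>
    cases κ' with
    | bag t' y =>
      have := step_bb s' t' (x, a') (y, b')
      unfold bg at this hs
      rw [this] at hs
      split_ifs at hs with h
      simp at hs
    | E e' =>
      have := (step_be s' (x, a') e' b' _ hs).1
      simp [bg] at this
    | W w =>
      obtain ⟨⟨x', h1⟩, -⟩ := step_bw_kind hs
      simp at h1
  | E e' =>
    cases κ' with
    | bag t y =>
      obtain ⟨rfl, hc⟩ := step_eb_some (x := (y, b')) hs
      exact ⟨e', a', (y, b'), rfl, rfl⟩
    | E e => rw [step_ee] at hs; simp at hs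
    | W w => rw [step_ew] at hs; simp at hs
  | W w =>
    cases κ' with
    | bag t y =>
      have := step_wb w a' t (y, b')
      unfold bg at this hs
      rw [this] at hs
      split_ifs at hs
      simp at hs
    | E e =>
      exfalso
      have h1 := step_shape hs
      simp only [rule] at h1
      revert h1
      cases w <;> cases e <;> simp only [ruleWE, Rule.zero, bg] <;> (try split_ifs) <;> simp
    | W w => rw [step_ww] at hs; simp at hs

/-- (O3) a move inside a block, backward -/
theorem conf_backward {s : BSt Λ} {p q : List (Let Λ)} {x y x' y' : Let Λ}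
    (h : Conf s (p ++ x' :: y' :: q)) (hs : step x y = some (x', y')) :
    Conf s (p ++ x :: y :: q) := by
  obtain ⟨w, a, e, b, o, P, U, hB, hO, hM, hP⟩ := h
  have hS := split_bword hB.symm
  cases hS with
  | WE hP0 =>
    subst hP0
    obtain ⟨w', a', e', b', rfl, rfl⟩ := from_we hs
    have hO' := own_we_backward hO hs
    exact ⟨w', a', e', b', o, [], U, rfl, hO', hM, by simp⟩
  | WB x0 P' hP0 =>
    subst hP0
    obtain ⟨rfl, rfl⟩ := from_wb hs
    exact ⟨w, a, e, b, o, x0 :: P', U, rfl, hO, hM, hP⟩
  | PP P1 x0 y0 P2 hP0 =>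
    subst hP0
    obtain ⟨-, rfl, rfl, -⟩ := from_bb hs
    have hM' := hM
    rw [coe_mid] at hM'
    refine ⟨w, a, e, b, o, P1 ++ y0 :: x0 :: P2, U, ?_, hO, ?_, ?_⟩
    · simp [bword]
    · rw [coe_mid, Multiset.cons_swap]; exact hM'
    · intro x hx
      apply hP
      simp only [List.mem_append, List.mem_cons] at hx ⊢
      tauto
  | PE P1 x0 hP0 =>
    subst hP0
    rcases from_be hs with ⟨rfl, rfl⟩ | ⟨-, rfl, rfl, hc, hp⟩
    · refine ⟨w, a, e, b, o, P1 ++ [x0], U, ?_, hO, hM, hP⟩
      simp [bword]
    · refine ⟨w, a, e, b, o, P1, x0 :: U, ?_, hO, ?_, ?_⟩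
      · simp [bword]
      · rw [← hM]; simp
      · intro x hx; exact hP x (by simp [hx])
  | EU x0 U' hU0 =>
    subst hU0
    obtain ⟨e', b', u', rfl, rfl⟩ := from_eb hs
    have hM' := hM
    rw [coe_one] at hM'
    obtain ⟨o', hO', hM2, hpass⟩ := own_eb_backward hO hM' hs
    refine ⟨w, a, e', b', o', P, u' :: U', ?_, hO', ?_, ?_⟩
    · simp [bword]
    · rw [coe_one]; exact hM2
    · intro x hx; exact hpass x (hP x hx)
  | UU U1 x0 y0 U2 hU0 =>
    subst hU0
    obtain ⟨-, rfl, rfl, -⟩ := from_bb hs
    have hM' := hM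
    rw [coe_mid'] at hM'
    refine ⟨w, a, e, b, o, P, U1 ++ y0 :: x0 :: U2, ?_, hO, ?_, hP⟩
    · simp [bword]
    · rw [coe_mid', Multiset.cons_swap]; exact hM'

end Crest.Agent.R176.Machine
end

-- ▼ part R176/Machine/Snd804G

/-!
# Row 176, part A, block (5): nonvanishing (helper804)

`Cfg ss w` : `w` is a concatenation of full blocks in the abstract states `ss`.
`not_isZ_cfg` : `Cfg ss w`, `Mac ss v`, `v` nonzero imply that `w` is nonzero.
`exists_nonzero` : nonzero words of unbounded length.
-/

set_option autoImplicit false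

namespace Crest.Agent.R176.Machine.Snd

open Crest.Agent.R176.Machine
open Crest.Agent.R176.QAlg206 (WEq IsZ Mv)

variable {Λ : Type} [DecidableEq Λ] [LabelSys Λ] [Fintype Λ]

/-- a concatenation of full blocks -/
inductive Cfg : List (BSt Λ) → List (Let Λ) → Prop
  | nil : Cfg [] []
  | cons (s : BSt Λ) (B : List (Let Λ)) (ss : List (BSt Λ)) (W : List (Let Λ)) (hB : Conf s B)
      (h : Cfg ss W) : Cfg (s :: ss) (B ++ W)

theorem cfg_append {ss ss' : List (BSt Λ)} {W W' : List (Let Λ)} (h : Cfg ss W)
    (h' : Cfg ss' W') : Cfg (ss ++ ss') (W ++ W') := by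
  induction h with
  | nil => simpa using h'
  | cons s B ss W hB h ih =>
    rw [List.cons_append, List.append_assoc]
    exact Cfg.cons s B _ _ hB ih

theorem conf_cons {s : BSt Λ} {B : List (Let Λ)} (h : Conf s B) : ∃ x B', B = x :: B' := by
  obtain ⟨w, a, e, b, o, P, U, rfl, -⟩ := h
  exact ⟨_, _, rfl⟩

theorem cfg_cons {ss : List (BSt Λ)} {W : List (Let Λ)} (h : Cfg ss W) {y : Let Λ}
    {q : List (Let Λ)} (hW : W = y :: q) :
    ∃ s ss2 q' W2, ss = s :: ss2 ∧ Conf s (y :: q') ∧ Cfg ss2 W2 ∧ q = q' ++ W2 := by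
  cases h with
  | nil => simp at hW
  | cons s B ss W hB h =>
    obtain ⟨x, B', rfl⟩ := conf_cons hB
    simp only [List.cons_append, List.cons.injEq] at hW
    obtain ⟨rfl, rfl⟩ := hW
    exact ⟨s, ss, B', W, rfl, hB, h, rfl⟩

theorem cfg_split {ss : List (BSt Λ)} {W : List (Let Λ)} (h : Cfg ss W) :
    ∀ p x y q, W = p ++ x :: y :: q →
    (∃ ss1 s ss2 W1 p' q' W2, ss = ss1 ++ s :: ss2 ∧ Cfg ss1 W1 ∧ Cfg ss2 W2 ∧
      Conf s (p' ++ x :: y :: q') ∧ p = W1 ++ p' ∧ q = q' ++ W2) ∨
    (∃ ss1 s s' ss2 W1 p' q' W2, ss = ss1 ++ s :: s' :: ss2 ∧ Cfg ss1 W1 ∧ Cfg ss2 W2 ∧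
      Conf s (p' ++ [x]) ∧ Conf s' (y :: q') ∧ p = W1 ++ p' ∧ q = q' ++ W2) := by
  induction h with
  | nil => intro p x y q h; simp at h
  | cons s B ss W hB h ih =>
    intro p x y q heq
    have key : ∀ a', p = B ++ a' → W = a' ++ x :: y :: q →
        (∃ ss1 s' ss2 W1 p' q' W2, s :: ss = ss1 ++ s' :: ss2 ∧ Cfg ss1 W1 ∧ Cfg ss2 W2 ∧
          Conf s' (p' ++ x :: y :: q') ∧ p = W1 ++ p' ∧ q = q' ++ W2) ∨
        (∃ ss1 s1 s' ss2 W1 p' q' W2, s :: ss = ss1 ++ s1 :: s' :: ss2 ∧ Cfg ss1 W1 ∧ Cfg ss2 W2 ∧
          Conf s1 (p' ++ [x]) ∧ Conf s' (y :: q') ∧ p = W1 ++ p' ∧ q = q' ++ W2) := by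
      intro a' hp hW
      rcases ih a' x y q hW with ⟨ss1, s1, ss2, W1, p', q', W2, h1, h2, h3, h4, h5, h6⟩ |
        ⟨ss1, s1, s2, ss2, W1, p', q', W2, h1, h2, h3, h4, h5, h6, h7⟩
      · exact Or.inl ⟨s :: ss1, s1, ss2, B ++ W1, p', q', W2, by rw [h1]; rfl,
          Cfg.cons s B _ _ hB h2, h3, h4, by rw [hp, h5, List.append_assoc], h6⟩
      · exact Or.inr ⟨s :: ss1, s1, s2, ss2, B ++ W1, p', q', W2, by rw [h1]; rfl,
          Cfg.cons s B _ _ hB h2, h3, h4, h5, by rw [hp, h6, List.append_assoc], h7⟩
    rcases List.append_eq_append_iff.1 heq with ⟨a', hp, hW⟩ | ⟨c', hB', hc⟩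
    · exact key a' hp hW
    · rcases c' with _ | ⟨x1, _ | ⟨y1, c'⟩⟩
      · exact key [] (by simpa using hB'.symm) (by simpa using hc.symm)
      · simp only [List.cons_append, List.nil_append, List.cons.injEq] at hc
        obtain ⟨rfl, rfl⟩ := hc
        right
        obtain ⟨s2, ss2, q', W2, rfl, h2, h3, rfl⟩ := cfg_cons h rfl
        subst hB'
        exact ⟨[], s, s2, ss2, [], p, q', W2, rfl, Cfg.nil, h3, hB, h2, rfl, rfl⟩
      · simp only [List.cons_append, List.cons.injEq] at hc
        obtain ⟨rfl, rfl, rfl⟩ := hc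
        left
        subst hB'
        exact ⟨[], s, ss, [], p, c', W, rfl, Cfg.nil, h, hB, rfl, rfl⟩

theorem cfg_mk {ss1 ss2 : List (BSt Λ)} {s : BSt Λ} {W1 W2 B : List (Let Λ)} (h1 : Cfg ss1 W1)
    (hB : Conf s B) (h2 : Cfg ss2 W2) : Cfg (ss1 ++ s :: ss2) (W1 ++ (B ++ W2)) :=
  cfg_append h1 (Cfg.cons s B _ _ hB h2)

theorem cfg_mk2 {ss1 ss2 : List (BSt Λ)} {s s' : BSt Λ} {W1 W2 B B' : List (Let Λ)}
    (h1 : Cfg ss1 W1) (hB : Conf s B) (hB' : Conf s' B') (h2 : Cfg ss2 W2) :
    Cfg (ss1 ++ s :: s' :: ss2) (W1 ++ (B ++ (B' ++ W2))) :=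
  cfg_append h1 (Cfg.cons s B _ _ hB (Cfg.cons s' B' _ _ hB' h2))

/-- the closed predicate: `w` represents the nonzero macro word `v` -/
def Rep (w : List (Let Λ)) : Prop :=
  ∃ (ss : List (BSt Λ)) (v : List (Let (Λ × Λ))), Cfg ss w ∧ Mac ss v ∧ ¬ IsZ step v

theorem not_isZ_of_WEq {v v' : List (Let (Λ × Λ))} (h : WEq step (some v) (some v'))
    (hv : ¬ IsZ step v) : ¬ IsZ step v' := fun h' => hv (WEq.trans h h')

theorem rep_fwd {p s : List (Let Λ)} {a b a' b' : Let Λ} (hst : step a b = some (a', b'))
    (h : Rep (p ++ a :: b :: s)) : Rep (p ++ a' :: b' :: s) := by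
  obtain ⟨ss, v, hc, hm, hv⟩ := h
  rcases cfg_split hc p a b s rfl with ⟨ss1, t, ss2, W1, p', q', W2, rfl, h1, h2, h3, rfl, rfl⟩ |
    ⟨ss1, t, t', ss2, W1, p', q', W2, rfl, h1, h2, h3, h4, rfl, rfl⟩
  · refine ⟨_, v, ?_, hm, hv⟩
    have := cfg_mk h1 (conf_forward h3 hst) h2
    simpa using this
  · have hl := mac_adj hm ss1 t t' ss2 rfl
    rcases bnd_fwd h3 h4 hl with h5 | ⟨φ, d, e1, e2, e3, e4, ⟨-, h5⟩ |
        ⟨d', c, c', x', y', h5, h6, h7, h8⟩⟩
    · rw [h5] at hst
      simp only [Option.some.injEq, Prod.mk.injEq] at hst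
      obtain ⟨rfl, rfl⟩ := hst
      exact ⟨_, v, hc, hm, hv⟩
    · rw [h5] at hst; exact absurd hst (by simp)
    · rw [h6] at hst
      simp only [Option.some.injEq, Prod.mk.injEq] at hst
      obtain ⟨rfl, rfl⟩ := hst
      obtain ⟨v1, v2, rfl, hm1, hm2⟩ := mac_split hm ss1 t (t' :: ss2) rfl e1
      obtain ⟨-, h9⟩ := mac_fwd hm2 (not_isZ_append hv) e2 e3 e4
      obtain ⟨v', h10, h11⟩ := h9 d' c c' h5
      refine ⟨_, v1 ++ v', ?_, mac_append hm1 h10, ?_⟩
      · have := cfg_mk2 h1 h7 h8 h2
        simpa using this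
      · refine not_isZ_of_WEq ?_ hv
        exact WEq.append (WEq.refl _) h11

theorem rep_bwd {p s : List (Let Λ)} {a b a' b' : Let Λ} (hst : step a b = some (a', b'))
    (h : Rep (p ++ a' :: b' :: s)) : Rep (p ++ a :: b :: s) := by
  obtain ⟨ss, v, hc, hm, hv⟩ := h
  rcases cfg_split hc p a' b' s rfl with ⟨ss1, t, ss2, W1, p', q', W2, rfl, h1, h2, h3, rfl, rfl⟩ |
    ⟨ss1, t, t', ss2, W1, p', q', W2, rfl, h1, h2, h3, h4, rfl, rfl⟩
  · refine ⟨_, v, ?_, hm, hv⟩
    have := cfg_mk h1 (conf_backward h3 hst) h2
    simpa using this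
  · have hl := mac_adj hm ss1 t t' ss2 rfl
    rcases bnd_bwd h3 h4 hl hst with ⟨rfl, rfl⟩ | ⟨φ, d, d', c, c', e1, e2, e3, e4, h5, h6, h7⟩
    · exact ⟨_, v, hc, hm, hv⟩
    · obtain ⟨v1, v2, rfl, hm1, hm2⟩ := mac_split hm ss1 t (t' :: ss2) rfl e1
      obtain ⟨v', h10, h11⟩ := mac_bwd hm2 e2 e3 e4 h5
      refine ⟨_, v1 ++ v', ?_, mac_append hm1 h10, ?_⟩
      · have := cfg_mk2 h1 h6 h7 h2
        simpa using this
      · refine not_isZ_of_WEq ?_ hv
        exact WEq.append (WEq.refl _) h11.symm

theorem rep_ne {p s : List (Let Λ)} {a b : Let Λ} (hst : step a b = none) :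
    ¬ Rep (p ++ a :: b :: s) := by
  rintro ⟨ss, v, hc, hm, hv⟩
  rcases cfg_split hc p a b s rfl with ⟨ss1, t, ss2, W1, p', q', W2, rfl, h1, h2, h3, rfl, rfl⟩ |
    ⟨ss1, t, t', ss2, W1, p', q', W2, rfl, h1, h2, h3, h4, rfl, rfl⟩
  · exact conf_step_ne_none h3 hst
  · have hl := mac_adj hm ss1 t t' ss2 rfl
    rcases bnd_fwd h3 h4 hl with h5 | ⟨φ, d, e1, e2, e3, e4, ⟨h6, h5⟩ |
        ⟨d', c, c', x', y', h5, h6, h7, h8⟩⟩
    · rw [h5] at hst; exact absurd hst (by simp)
    · obtain ⟨v1, v2, rfl, hm1, hm2⟩ := mac_split hm ss1 t (t' :: ss2) rfl e1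
      exact (mac_fwd hm2 (not_isZ_append hv) e2 e3 e4).1 h6
    · rw [h6] at hst; exact absurd hst (by simp)

/-- **soundness**: a word which represents a nonzero macro word is nonzero -/
theorem not_isZ_rep {w : List (Let Λ)} (h : Rep w) : ¬ IsZ step w :=
  not_isZ_of_closed Rep (fun _ _ _ _ _ _ hst => ⟨rep_fwd hst, rep_bwd hst⟩)
    (fun _ _ _ _ hst => rep_ne hst) h

theorem conf_PhiL (x : Let (Λ × Λ)) : Conf ⟨cont x, none, false⟩ (Sim.PhiL x) := by
  refine ⟨.w0, z, .home, z, none, [], Sim.bagL .f (cont x), rfl, Own.rest false, ?_, by simp⟩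
  simp only [List.nil_append, bagM, Sim.bagL, Sim.xsL]
  rw [← Multiset.cons_coe, ← Multiset.cons_coe, ← Multiset.cons_coe]
  simp only [letH, letY, hmark, Cont.get, reduceCtorEq, if_false, Bool.false_eq_true]
  rw [← Multiset.map_coe, Finset.coe_toList]

theorem cfg_Phi (v : List (Let (Λ × Λ))) :
    ∃ ss : List (BSt Λ), Cfg ss (Sim.Phi v) ∧ Mac ss v := by
  induction v with
  | nil => exact ⟨[], Cfg.nil, Mac.nil⟩
  | cons x v ih =>
    obtain ⟨ss, h1, h2⟩ := ih
    refine ⟨⟨cont x, none, false⟩ :: ss, ?_, Mac.one x _ _ h2⟩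
    have : Sim.Phi (x :: v) = Sim.PhiL x ++ Sim.Phi v := by simp [Sim.Phi]
    rw [this]
    exact Cfg.cons _ _ _ _ (conf_PhiL x) h1

/-- the simulation map does not kill nonzero words -/
theorem not_isZ_Phi {v : List (Let (Λ × Λ))} (hv : ¬ IsZ step v) : ¬ IsZ step (Sim.Phi v) := by
  obtain ⟨ss, h1, h2⟩ := cfg_Phi v
  exact not_isZ_rep ⟨ss, v, h1, h2, hv⟩

theorem length_Phi (v : List (Let (Λ × Λ))) :
    (Sim.Phi v).length = v.length * (Fintype.card Λ + 5) := by
  induction v with
  | nil => simp [Sim.Phi]
  | cons x v ih =>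
    have : Sim.Phi (x :: v) = Sim.PhiL x ++ Sim.Phi v := by simp [Sim.Phi]
    rw [this, List.length_append, ih, Sim.length_PhiL, List.length_cons]
    ring

/-- a letter is nonzero -/
theorem not_isZ_single {L : Type} (st : L → L → Option (L × L)) (x : L) : ¬ IsZ st [x] := by
  refine not_isZ_of_closed (fun w => w = [x]) ?_ ?_ rfl
  · intro p s a b a' b' _
    constructor <;> intro h <;> have := congrArg List.length h <;> simp at this <;> omega
  · intro p s a b _ h
    have := congrArg List.length h
    simp at this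
    omega

/-- **nonzero words of unbounded length** -/
theorem exists_nonzero (n : ℕ) : ∀ (Λ : Type) [DecidableEq Λ] [LabelSys Λ] [Fintype Λ],
    ∃ w : List (Let Λ), n ≤ w.length ∧ ¬ IsZ step w := by
  induction n with
  | zero =>
    intro Λ _ _ _
    exact ⟨[(.W .w0, z)], by simp, not_isZ_single _ _⟩
  | succ n ih =>
    intro Λ _ _ _
    obtain ⟨v, h1, h2⟩ := ih (Λ × Λ)
    by_cases hn : v = []
    · refine ⟨[(.W .w0, z)], ?_, not_isZ_single _ _⟩
      rw [hn] at h1
      simp only [List.length_nil] at h1
      simp; omega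
    · refine ⟨Sim.Phi v, ?_, not_isZ_Phi h2⟩
      rw [length_Phi]
      have : 0 < v.length := List.length_pos_iff.2 hn
      nlinarith

end Crest.Agent.R176.Machine.Snd
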